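import Claimed.Agent.R291.Bdy.SynBr
import Claimed.Agent.R291.Dis.Sw
import Claimed.Agent.R291.Dis.Planar
import Claimed.Agent.R291.Exit.T23

/-!
# Row 291 (S0539), Bdy/SynCell : THE MEAN `-1/2` AT A CLEAN PATCH      (owner helper128, HEAD BDY; prefix `bsc_`)
TEX[lem:attachment] l.300-345 (06-boundary.tex).      PRODUCES `bsc_main` = the body of `exit_bdy_patch` (Exit/BdyPatch.lean).
CONSUMES `bsb_bridge`, `bsb_spec`, `bsb_KL_holds` (Bdy/SynBr, 89), the full-collar flip `swiSw` (Dis/Sw, 139) with EMPTY inner source, `dis_stack`, `dis_lbl_one`, `dis_feas` (DIS), `exit_t23`.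

Heights shifted by `+1` (Defs/BdyCell): `B = +` off `A`, `W = +` off `A' = A ∪ P`, `V = dshV A'`, `S = clAmb x V`, `O = V \ latBall c L`, `J = clInv S true E ω O`, collar `C = V \ J`.
(1) ARITHMETIC of the Gray code along an edge: same code at both ends => same increment; `W` flipped at both ends => opposite increment.
(2) `bsc_refl` DETERMINISTIC: two admissible heights `h, h'` with the same `B` and with `W` flipped exactly on `C`; every site off `C` is joined off `C` to the far region => `h' = h` off `C`;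
    `h' + h` is constant on the connected subsets of `C`;  the connected set `Aᶜ ∋ c` leaves `C` through an edge on which `h ∈ {0,1}` => `h' + h = 1` on `latBall c r`.   NO planarity, NO Timar, NO choice of a component.
(3) `bsc_flip_H`: (2) for `ω' = swiSw S E O ∅ ω` on `ClSep`.      (4) `bsc_odd_zero`: an odd local observable has mean zero on `ClSep` (orbit form `swi_sw_N`).
(5) `bsc_prob`: `P(¬ ClSep) ≤ 2 b` (label cost `2`, STACK; plus pins in the buffer are favourable: `ClClear` only forbids minus pins).      (6) Cauchy-Schwarz, constants.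
-/

set_option autoImplicit false
set_option linter.unusedVariables false
set_option linter.unusedSectionVars false
set_option linter.unusedSimpArgs false

namespace Claimed.Agent.R291

open Relation Claims Claims.C0467

/-! ### 1. arithmetic of the Gray code -/

theorem bsc_ar_same {a a' b b' : ℤ} (hB1 : dlfB a' ↔ dlfB a) (hW1 : dlfW a' ↔ dlfW a) (hB2 : dlfB b' ↔ dlfB b)
    (hW2 : dlfW b' ↔ dlfW b) (h : |b - a| ≤ 1) (h' : |b' - a'| ≤ 1) : a' - a = b' - b := by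
  unfold dlfB at hB1 hB2
  unfold dlfW at hW1 hW2
  rw [abs_le] at h h'
  omega

theorem bsc_ar_flip {a a' b b' : ℤ} (hB1 : dlfB a' ↔ dlfB a) (hW1 : dlfW a' ↔ ¬ dlfW a) (hB2 : dlfB b' ↔ dlfB b)
    (hW2 : dlfW b' ↔ ¬ dlfW b) (h : |b - a| ≤ 1) (h' : |b' - a'| ≤ 1) : a' + a = b' + b := by
  unfold dlfB at hB1 hB2
  unfold dlfW at hW1 hW2
  rw [abs_le] at h h'
  omega

theorem bsc_ar_exit {a a' b : ℤ} (hB1 : dlfB a' ↔ dlfB a) (hW1 : dlfW a' ↔ ¬ dlfW a) (ha : a = 0 ∨ a = 1)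
    (hb : b = 0 ∨ b = 1) (h' : |a' - b| ≤ 1) : a' + a = 1 := by
  unfold dlfB at hB1
  unfold dlfW at hW1
  rw [abs_le] at h'
  omega

/-! ### 2. the deterministic reflection -/

/-- **the reflection**: `h'` has the Gray code of `h` with the second spin flipped on `C`; then `h' = 1 - h` on `latBall c r` -/
theorem bsc_refl {A A' V C : Finset TV} {c : TV} {r : ℕ} {h h' : TV → ℤ} (hsub : A ⊆ A') (hcl : latCl A' ⊆ V)
    (hh : HtAdm A' 0 h) (hh' : HtAdm A' 0 h') (hB : htB V h' = htB V h)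
    (hW : ∀ u, u ∈ htW V h' ↔ ¬ (u ∈ htW V h ↔ u ∈ C)) (hCA : C ⊆ A')
    (hout : ∀ u, u ∉ C → ∃ w, w ∉ A' ∧ TscR tscG (↑C : Set TV)ᶜ u w)
    (hA : MomCo A) (hpair : ∀ u, u ∉ A → h u = 0 ∨ h u = 1) (hc : c ∉ A) (hball : latBall c r ⊆ C) :
    ∀ u ∈ latBall c r, h' u = 1 - h u := by
  have hAV : A' ⊆ V := fun u hu => hcl (lat_mem_cl.2 (Or.inl hu))
  have gB : ∀ u ∈ V, (dlfB (h' u) ↔ dlfB (h u)) := by
    intro u hu
    have : u ∈ htB V h' ↔ u ∈ htB V h := by rw [hB]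
    rw [dlf_mem_htB, dlf_mem_htB] at this
    exact ⟨fun a => (this.1 ⟨hu, a⟩).2, fun a => (this.2 ⟨hu, a⟩).2⟩
  have gW : ∀ u ∈ V, (dlfW (h' u) ↔ ¬ (dlfW (h u) ↔ u ∈ C)) := by
    intro u hu
    have := hW u
    rw [dlf_mem_htW, dlf_mem_htW] at this
    simp only [hu, true_and] at this
    exact this
  have gW0 : ∀ u ∈ V, u ∉ C → (dlfW (h' u) ↔ dlfW (h u)) := by
    intro u hu hC
    have := gW u hu
    simp only [hC, iff_false, not_not] at this
    exact this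
  have gW1 : ∀ u ∈ V, u ∈ C → (dlfW (h' u) ↔ ¬ dlfW (h u)) := by
    intro u hu hC
    have := gW u hu
    simp only [hC, iff_true] at this
    exact this
  -- step 1: `h' = h` off `C`
  have same : ∀ u, u ∉ C → h' u = h u := by
    intro u hu
    obtain ⟨w, hw, hR⟩ := hout u hu
    have key := tsc_R_const (fun z => h' z - h z) (fun p q hpq => ?_) hR
    · simp only [hh.1 w hw, hh'.1 w hw] at key
      omega
    · obtain ⟨hadj, hp, hq⟩ := hpq
      have hp' : p ∉ C := fun hc => hp (by exact_mod_cast hc)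
      have hq' : q ∉ C := fun hc => hq (by exact_mod_cast hc)
      have hadj' : triAdj p q := hadj
      show h' p - h p = h' q - h q
      by_cases hV : p ∈ V ∧ q ∈ V
      · exact bsc_ar_same (gB p hV.1) (gW0 p hV.1 hp') (gB q hV.2) (gW0 q hV.2 hq') (bsb_lip hh hadj') (bsb_lip hh' hadj')
      · have hpA : p ∉ A' := by
          intro hpA
          exact hV ⟨hAV hpA, hcl (lat_mem_cl.2 (Or.inr ⟨p, hpA, hadj'⟩))⟩
        have hqA : q ∉ A' := by
          intro hqA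
          exact hV ⟨hcl (lat_mem_cl.2 (Or.inr ⟨q, hqA, lat_adj_symm hadj'⟩)), hAV hqA⟩
        rw [hh.1 p hpA, hh'.1 p hpA, hh.1 q hqA, hh'.1 q hqA]
        rfl
  -- step 2: `h' + h` is constant along the edges of `C`
  have flip : ∀ p q, TscStep tscG (↑C : Set TV) p q → h' p + h p = h' q + h q := by
    rintro p q ⟨hadj, hp, hq⟩
    have hp' : p ∈ C := by exact_mod_cast hp
    have hq' : q ∈ C := by exact_mod_cast hq
    have hadj' : triAdj p q := hadj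
    exact bsc_ar_flip (gB p (hAV (hCA hp'))) (gW1 p (hAV (hCA hp')) hp') (gB q (hAV (hCA hq'))) (gW1 q (hAV (hCA hq')) hq')
      (bsb_lip hh hadj') (bsb_lip hh' hadj')
  -- step 3: the exit of `Aᶜ` from `C`
  have hcC : c ∈ C := hball (plh_ball_self c r)
  obtain ⟨w0, hw0⟩ := Infinite.exists_notMem_finset A'
  have hw0A : w0 ∈ (↑A : Set TV)ᶜ := fun hw => hw0 (hsub (by exact_mod_cast hw))
  have hcA : c ∈ (↑A : Set TV)ᶜ := fun hw => hc (by exact_mod_cast hw)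
  have claim : ∀ v, TscR tscG (↑A : Set TV)ᶜ c v → (TscR tscG (↑C : Set TV) c v ∧ v ∈ C) ∨ h' c + h c = 1 := by
    intro v hv
    induction hv with
    | refl => exact Or.inl ⟨tsc_R_refl _, hcC⟩
    | @tail a b _ hab ih =>
      rcases ih with ⟨hR, haC⟩ | h1
      · by_cases hbC : b ∈ C
        · exact Or.inl ⟨hR.tail ⟨hab.1, by exact_mod_cast haC, by exact_mod_cast hbC⟩, hbC⟩
        · right
          have haA : a ∉ A := fun hw => hab.2.1 (by exact_mod_cast hw)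
          have hbA : b ∉ A := fun hw => hab.2.2 (by exact_mod_cast hw)
          have hadj' : triAdj b a := lat_adj_symm hab.1
          have l1 := bsb_lip hh' hadj'
          rw [same b hbC] at l1
          have e1 := bsc_ar_exit (gB a (hAV (hCA haC))) (gW1 a (hAV (hCA haC)) haC) (hpair a haA) (hpair b hbA) l1
          have e2 : h' c + h c = h' a + h a := tsc_R_const (fun z => h' z + h z) flip hR
          omega
      · exact Or.inr h1
  have hc1 : h' c + h c = 1 := by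
    rcases claim w0 (hA c hcA w0 hw0A) with ⟨_, hw⟩ | h1
    · exact absurd (hCA hw) hw0
    · exact h1
  intro u hu
  have hR : TscR tscG (↑C : Set TV) c u :=
    tsc_R_mono (by exact_mod_cast hball) (plh_ball_conn c r c (by exact_mod_cast plh_ball_self c r) u (by exact_mod_cast hu))
  have e2 : h' c + h c = h' u + h u := tsc_R_const (fun z => h' z + h z) flip hR
  omega

/-! ### 3. the history -/

theorem bsc_mem_Eq {V A A' : Finset TV} {e : TV × TV} :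
    e ∈ (bscK V A A').Eq ↔ e.1 ∈ V \ A' ∧ e.2 ∈ V \ A' ∧ triAdj e.1 e.2 := by
  simp only [bscK, Finset.mem_filter, Finset.mem_product]
  tauto

theorem bsc_K_legal (x : ℝ) (V A A' : Finset TV) : ClLegal (clAmb x V) (bscK V A A') where
  wp := rfl
  wm := rfl
  full := by
    intro y _ hy
    simp [bscK] at hy
  eq := by
    intro e he
    obtain ⟨h1, h2, h3⟩ := bsc_mem_Eq.1 he
    obtain ⟨y, hy1, hy2⟩ := pcp_adj_cell h3
    have h1V := (Finset.mem_sdiff.1 h1).1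
    have h2V := (Finset.mem_sdiff.1 h2).1
    exact ⟨y, lat_mem_cells.2 ⟨e.1, hy1, h1V⟩, Finset.mem_inter.2 ⟨hy1, h1V⟩, Finset.mem_inter.2 ⟨hy2, h2V⟩⟩

theorem bsc_K_feas (x : ℝ) (V A A' : Finset TV) : ClFeas (clAmb x V) (bscK V A A') where
  bpA := Finset.sdiff_subset
  dis := by simp [bscK]
  opC := by simp [bscK]
  omC := by simp [bscK]
  op := by simp [bscK]
  om := by simp [bscK]
  cl := by simp [bscK]
  d1 := by simp [bscK]
  d2 := by simp [bscK]
  d3 := by simp [bscK]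

/-- plus pins in the buffer are allowed -/
theorem bsc_K_clear (x : ℝ) (V A A' D : Finset TV) (hD : D ⊆ A') : ClClear (clAmb x V) true (bscK V A A') D where
  pin := by simp [bscK]
  obs := by
    intro y _ hy
    simp [bscK] at hy
  eq := by
    intro e he
    obtain ⟨h1, h2, _⟩ := bsc_mem_Eq.1 he
    exact ⟨fun h => (Finset.mem_sdiff.1 h1).2 (hD h), fun h => (Finset.mem_sdiff.1 h2).2 (hD h)⟩

theorem bsc_K_conn {V A A' : Finset TV} (h : TscConn tscG (↑(V \ A') : Set TV)) :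
    ∀ u ∈ V \ A', ∀ v ∈ V \ A',
      ReflTransGen (fun a b => (a, b) ∈ (bscK V A A').Eq ∨ (b, a) ∈ (bscK V A A').Eq) u v := by
  intro u hu v hv
  have this : ReflTransGen (TscStep tscG (↑(V \ A') : Set TV)) u v :=
    h u (by exact_mod_cast hu) v (by exact_mod_cast hv)
  refine ReflTransGen.mono ?_ u v this
  intro a b hab
  exact Or.inl (bsc_mem_Eq.2 ⟨by exact_mod_cast hab.2.1, by exact_mod_cast hab.2.2, hab.1⟩)

theorem bsc_KL_imp (x : ℝ) (V A A' : Finset TV) (ω : ClCfg TV TV) (h : (bscKL V A A').Holds (clAmb x V) ω) :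
    (bscK V A A').Holds (clAmb x V) ω := by
  obtain ⟨a1, a2⟩ := (bsb_KL_holds x V A A' ω).1 h
  refine ⟨a1, by simp [bscK], ?_, by simp [bscK], by simp [bscK], by simp [bscK], by simp [bscK], by simp [bscK]⟩
  intro e he
  obtain ⟨b1, b2, _⟩ := bsc_mem_Eq.1 he
  exact ⟨fun _ => a2 b2, fun _ => a2 b1⟩

theorem bsc_Eq_sub (x : ℝ) (V A A' : Finset TV) :
    ∀ e ∈ (bscKL V A A').Eq, e.1 ∈ (clAmb x V).A ∧ e.2 ∈ (clAmb x V).A := by
  intro e he
  obtain ⟨a1, a2, _⟩ := (bsc_mem_Eq (A := A)).1 he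
  exact ⟨(Finset.mem_sdiff.1 a1).1, (Finset.mem_sdiff.1 a2).1⟩

/-! ### 4. the label costs a factor `2` -/

theorem bsc_Z_pos (x : ℝ) (hx0 : 0 < x) (hx1 : x ≤ 1) (V A A' : Finset TV) :
    0 < (clAmb x V).Z ((bscK V A A').Holds (clAmb x V)) :=
  dis_feas _ (dam_pl_ok hx0 hx1 V) _ (bsc_K_legal x V A A') (bsc_K_feas x V A A')

theorem bsc_Z_lab (x : ℝ) (hx0 : 0 < x) (hx1 : x ≤ 1) (V A A' : Finset TV) (hsk : TscConn tscG (↑(V \ A') : Set TV)) :
    (clAmb x V).Z ((bscK V A A').Holds (clAmb x V)) ≤ 2 * (clAmb x V).Z ((bscKL V A A').Holds (clAmb x V)) := by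
  have hlab := dis_lbl_one (clAmb x V) (dam_pl_ok hx0 hx1 V) (bscK V A A') (bsc_Eq_sub x V A A') (V \ A') Finset.sdiff_subset
      (bsc_K_conn hsk) rfl (fun _ => 1) (fun _ => zero_le_one) (fun _ _ _ _ => rfl)
  rw [← dis_Z_eq, ← dis_Z_eq] at hlab
  exact hlab

theorem bsc_ZL_pos (x : ℝ) (hx0 : 0 < x) (hx1 : x ≤ 1) (V A A' : Finset TV) (hsk : TscConn tscG (↑(V \ A') : Set TV)) :
    0 < (clAmb x V).Z ((bscKL V A A').Holds (clAmb x V)) := by
  have h1 := bsc_Z_pos x hx0 hx1 V A A'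
  have h2 := bsc_Z_lab x hx0 hx1 V A A' hsk
  linarith

theorem bsc_prob (x : ℝ) (hx0 : 0 < x) (hx1 : x ≤ 1) (b : ℝ) (hb0 : 0 ≤ b) (V A A' : Finset TV)
    (hsk : TscConn tscG (↑(V \ A') : Set TV)) (L : ClCfg TV TV → Prop)
    (H : (clAmb x V).P ((bscK V A A').Holds (clAmb x V)) L ≤ b) :
    (clAmb x V).P ((bscKL V A A').Holds (clAmb x V)) L ≤ 2 * b := by
  classical
  have hOk := dam_pl_ok hx0 hx1 V
  have hZK := bsc_Z_pos x hx0 hx1 V A A'
  have hlab := bsc_Z_lab x hx0 hx1 V A A' hsk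
  have hZL := bsc_ZL_pos x hx0 hx1 V A A' hsk
  have hN1 := dsh_N_mono (clAmb x V) hOk (bsc_KL_imp x V A A') (G := fun ω => if L ω then (1 : ℝ) else 0)
    (G' := fun ω => if L ω then (1 : ℝ) else 0) (fun ω _ => le_rfl) (fun ω => by split_ifs <;> norm_num)
  unfold ClSys.P at H ⊢
  rw [dis_E_eq, div_le_iff₀ hZK] at H
  rw [dis_E_eq, div_le_iff₀ hZL]
  refine hN1.trans (H.trans ?_)
  nlinarith

/-! ### 5. the collar of the plus invasion of the far region -/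

theorem bsc_mem_col (S : ClSys TV TV) (E : Finset (TV × TV)) (O : Finset TV) (ω : ClCfg TV TV) (u : TV) :
    u ∈ swiCol S E O ∅ ω ↔ u ∈ S.A ∧ u ∉ clInv S true E ω O := by
  have h0 : u ∉ clInv S false E ω ∅ := by
    rw [dde_mem_inv]
    rintro ⟨_, o, ho, _⟩
    simp at ho
  unfold swiCol
  rw [Finset.mem_sdiff, Finset.mem_union]
  constructor
  · rintro ⟨h1, h2⟩
    exact ⟨h1, fun h => h2 (Or.inl h)⟩
  · rintro ⟨h1, h2⟩
    exact ⟨h1, fun h => h.elim h2 h0⟩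

theorem bsc_col_ball (x : ℝ) (V : Finset TV) (E : Finset (TV × TV)) (c : TV) (L : ℕ) (ω : ClCfg TV TV) :
    swiCol (clAmb x V) E (V \ latBall c L) ∅ ω ⊆ latBall c L := by
  intro u hu
  rw [bsc_mem_col] at hu
  by_contra hn
  exact hu.2 (swi_sub_inv (clAmb x V) true E ω (O := V \ latBall c L) Finset.sdiff_subset (Finset.mem_sdiff.2 ⟨hu.1, hn⟩))

/-- every site off the collar is joined, off the collar, to the far region -/
theorem bsc_out (x : ℝ) {V A A' : Finset TV} {c : TV} {L : ℕ} (hAV : A' ⊆ V) (hB : latBall c L ⊆ A') (ω : ClCfg TV TV) :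
    ∀ u, u ∉ swiCol (clAmb x V) (bscKL V A A').Eq (V \ latBall c L) ∅ ω →
      ∃ w, w ∉ A' ∧ TscR tscG (↑(swiCol (clAmb x V) (bscKL V A A').Eq (V \ latBall c L) ∅ ω) : Set TV)ᶜ u w := by
  intro u hu
  have hCb := bsc_col_ball x V (bscKL V A A').Eq c L ω
  generalize hC : swiCol (clAmb x V) (bscKL V A A').Eq (V \ latBall c L) ∅ ω = C at hu hCb ⊢
  have hmem : ∀ v, v ∈ C ↔ v ∈ V ∧ v ∉ clInv (clAmb x V) true (bscKL V A A').Eq ω (V \ latBall c L) := by
    intro v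
    rw [← hC, bsc_mem_col]
    exact Iff.rfl
  by_cases huV : u ∈ V
  · have huJ : u ∈ clInv (clAmb x V) true (bscKL V A A').Eq ω (V \ latBall c L) := by
      by_contra hn
      exact hu ((hmem u).2 ⟨huV, hn⟩)
    obtain ⟨_, o, ho, hr⟩ := (dde_mem_inv _ _ _ _ _ _).1 huJ
    have hoC : o ∈ (↑C : Set TV)ᶜ := by
      intro h
      exact (Finset.mem_sdiff.1 ho).2 (hCb (by exact_mod_cast h))
    have key : ∀ v, ReflTransGen (clStep (clAmb x V) true (bscKL V A A').Eq ω) o v → TscR tscG (↑C : Set TV)ᶜ o v := by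
      intro v hv
      induction hv with
      | refl => exact tsc_R_refl _
      | @tail p q hop hpq ih =>
        have hpC : p ∈ (↑C : Set TV)ᶜ := tsc_R_mem ih hoC
        have hq : q ∈ V ∧ (p = q ∨ triAdj p q) := by
          rcases hpq with ⟨y, hy, hp, hq, _⟩ | he | he
          · have hp' := Finset.mem_inter.1 hp
            have hq' := Finset.mem_inter.1 hq
            refine ⟨hq'.2, ?_⟩
            by_cases hpq : p = q
            · exact Or.inl hpq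
            · exact Or.inr (dam_cell_adj hp'.1 hq'.1 hpq)
          · obtain ⟨_, a2, a3⟩ := (bsc_mem_Eq (A := A)).1 he
            exact ⟨(Finset.mem_sdiff.1 a2).1, Or.inr a3⟩
          · obtain ⟨a1, _, a3⟩ := (bsc_mem_Eq (A := A)).1 he
            exact ⟨(Finset.mem_sdiff.1 a1).1, Or.inr (lat_adj_symm a3)⟩
        have hqC : q ∈ (↑C : Set TV)ᶜ := by
          intro h
          exact ((hmem q).1 (by exact_mod_cast h)).2 ((dde_mem_inv _ _ _ _ _ _).2 ⟨hq.1, o, ho, hop.tail hpq⟩)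
        rcases hq.2 with rfl | hadj
        · exact ih
        · exact ih.tail ⟨hadj, hpC, hqC⟩
    obtain ⟨w, hw⟩ := Infinite.exists_notMem_finset A'
    have hsub : (↑(latBall c L) : Set TV)ᶜ ⊆ (↑C : Set TV)ᶜ :=
      Set.compl_subset_compl.2 (by exact_mod_cast hCb)
    have ho' : o ∈ (↑(latBall c L) : Set TV)ᶜ := fun h => (Finset.mem_sdiff.1 ho).2 (by exact_mod_cast h)
    have hw' : w ∈ (↑(latBall c L) : Set TV)ᶜ := fun h => hw (hB (by exact_mod_cast h))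
    exact ⟨w, hw, tsc_R_trans (tsc_R_symm (key u hr)) (tsc_R_mono hsub (plh_ball_compl_conn c L o ho' w hw'))⟩
  · exact ⟨u, fun h => huV (hAV h), tsc_R_refl _⟩

/-! ### 6. the flip reflects the heights in the inner ball -/

theorem bsc_Wp_sub {V A A' : Finset TV} {c : TV} {L : ℕ} (hB : latBall c L ⊆ A') :
    (bscKL V A A').Wp ⊆ (V \ latBall c L) ∪ ∅ := by
  intro u hu
  have hu' : u ∈ V \ A' := by
    rcases Finset.mem_union.1 hu with h | h
    · simp [bscK] at h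
    · exact h
  rw [Finset.mem_sdiff] at hu'
  exact Finset.mem_union_left _ (Finset.mem_sdiff.2 ⟨hu'.1, fun h => hu'.2 (hB h)⟩)

theorem bsc_flip_H (x : ℝ) (hx0 : 0 < x) (hx1 : x ≤ 1) {A P : Finset TV} (hA : MomCo A) (hAP : MomCo (A ∪ P)) {c : TV} {r L : ℕ}
    (hB : latBall c L ⊆ A ∪ P) (hrL : r ≤ L) (hc : c ∉ A) {ω : ClCfg TV TV}
    (hω : ω ∈ (clAmb x (dshV (A ∪ P))).cfgs) (hwt : (clAmb x (dshV (A ∪ P))).wt ω ≠ 0)
    (hK : (bscKL (dshV (A ∪ P)) A (A ∪ P)).Holds (clAmb x (dshV (A ∪ P))) ω)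
    (hsep : ClSep (clAmb x (dshV (A ∪ P))) true (bscKL (dshV (A ∪ P)) A (A ∪ P)).Eq ω (dshV (A ∪ P) \ latBall c L) (latBall c r)) :
    ∀ u ∈ latBall c r,
      dlfH (A ∪ P) (dshV (A ∪ P)) 0
        (swiSw (clAmb x (dshV (A ∪ P))) (bscKL (dshV (A ∪ P)) A (A ∪ P)).Eq (dshV (A ∪ P) \ latBall c L) ∅ ω) u =
        1 - dlfH (A ∪ P) (dshV (A ∪ P)) 0 ω u := by
  have hOk := dam_pl_ok hx0 hx1 (dshV (A ∪ P))
  have hE := bsc_Eq_sub x (dshV (A ∪ P)) A (A ∪ P)
  have hAV : A ∪ P ⊆ dshV (A ∪ P) := dsh_F_sub _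
  obtain ⟨s1, s2, s3, s4⟩ := bsb_spec x hA hAP hω hwt hK
  have hω' := swi_sw_mem (clAmb x (dshV (A ∪ P))) (bscKL (dshV (A ∪ P)) A (A ∪ P)).Eq (dshV (A ∪ P) \ latBall c L) ∅ hω
  have hwt' : (clAmb x (dshV (A ∪ P))).wt
      (swiSw (clAmb x (dshV (A ∪ P))) (bscKL (dshV (A ∪ P)) A (A ∪ P)).Eq (dshV (A ∪ P) \ latBall c L) ∅ ω) ≠ 0 := by
    rw [swi_sw_wt _ hOk _ hE]
    exact hwt
  have hK' := swi_sw_holds (clAmb x (dshV (A ∪ P))) hOk (bscKL (dshV (A ∪ P)) A (A ∪ P)) hE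
    (O := dshV (A ∪ P) \ latBall c L) (A := ∅) Finset.sdiff_subset (Finset.empty_subset _) (bsc_Wp_sub hB)
    (by simp [bscKL, bscK]) hK
  obtain ⟨t1, t2, t3, _⟩ := bsb_spec x hA hAP hω' hwt' hK'
  refine bsc_refl (C := swiCol (clAmb x (dshV (A ∪ P))) (bscKL (dshV (A ∪ P)) A (A ∪ P)).Eq (dshV (A ∪ P) \ latBall c L) ∅ ω)
    Finset.subset_union_left (dsh_cl_sub _) s1 t1 ?_ ?_ ?_ (bsc_out x hAV hB ω) hA s4 hc ?_
  · rw [t2, s2]
    rfl
  · intro u
    rw [t3, s3]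
    exact swi_mem_fl _ ω u
  · exact (bsc_col_ball x _ _ c L ω).trans hB
  · intro u hu
    rw [bsc_mem_col]
    refine ⟨hAV (hB (plh_ball_mono c hrL hu)), fun hJ => ?_⟩
    obtain ⟨_, o, ho, hr⟩ := (dde_mem_inv _ _ _ _ _ _).1 hJ
    exact hsep o ho u hu hr

/-- **an odd local observable has mean zero on the separation event** -/
theorem bsc_odd_zero (x : ℝ) (hx0 : 0 < x) (hx1 : x ≤ 1) {A P : Finset TV} (hA : MomCo A) (hAP : MomCo (A ∪ P)) {c : TV} {r L : ℕ}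
    (hB : latBall c L ⊆ A ∪ P) (hrL : r ≤ L) (hc : c ∉ A) (ψ : (TV → ℤ) → ℝ) (hloc : HtLoc (latBall c r) ψ)
    (hodd : ∀ h, ψ (fun u => -1 - h u) = - ψ h) :
    (clAmb x (dshV (A ∪ P))).N (fun ω => (bscKL (dshV (A ∪ P)) A (A ∪ P)).Holds (clAmb x (dshV (A ∪ P))) ω ∧
        ClSep (clAmb x (dshV (A ∪ P))) true (bscKL (dshV (A ∪ P)) A (A ∪ P)).Eq ω (dshV (A ∪ P) \ latBall c L) (latBall c r))
      (fun ω => ψ (bscH (A ∪ P) (dshV (A ∪ P)) ω)) = 0 := by
  classical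
  have hOk := dam_pl_ok hx0 hx1 (dshV (A ∪ P))
  have hE := bsc_Eq_sub x (dshV (A ∪ P)) A (A ∪ P)
  have h1 := swi_sw_N (clAmb x (dshV (A ∪ P))) hOk (bscKL (dshV (A ∪ P)) A (A ∪ P)) hE
    (O := dshV (A ∪ P) \ latBall c L) (A := ∅) Finset.sdiff_subset (Finset.empty_subset _) (bsc_Wp_sub hB)
    (by simp [bscKL, bscK])
    (fun ω => ClSep (clAmb x (dshV (A ∪ P))) true (bscKL (dshV (A ∪ P)) A (A ∪ P)).Eq ω (dshV (A ∪ P) \ latBall c L) (latBall c r))
    (fun ω ω' hb ho => swi_sep_congr _ _ _ hb ho _ _) (fun ω => ψ (bscH (A ∪ P) (dshV (A ∪ P)) ω))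
  have h2 : (clAmb x (dshV (A ∪ P))).N (fun ω => (bscKL (dshV (A ∪ P)) A (A ∪ P)).Holds (clAmb x (dshV (A ∪ P))) ω ∧
        ClSep (clAmb x (dshV (A ∪ P))) true (bscKL (dshV (A ∪ P)) A (A ∪ P)).Eq ω (dshV (A ∪ P) \ latBall c L) (latBall c r))
      (fun ω => ψ (bscH (A ∪ P) (dshV (A ∪ P))
        (swiSw (clAmb x (dshV (A ∪ P))) (bscKL (dshV (A ∪ P)) A (A ∪ P)).Eq (dshV (A ∪ P) \ latBall c L) ∅ ω))) =
      - (clAmb x (dshV (A ∪ P))).N (fun ω => (bscKL (dshV (A ∪ P)) A (A ∪ P)).Holds (clAmb x (dshV (A ∪ P))) ω ∧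
        ClSep (clAmb x (dshV (A ∪ P))) true (bscKL (dshV (A ∪ P)) A (A ∪ P)).Eq ω (dshV (A ∪ P) \ latBall c L) (latBall c r))
      (fun ω => ψ (bscH (A ∪ P) (dshV (A ∪ P)) ω)) := by
    unfold ClSys.N
    rw [← Finset.sum_neg_distrib]
    refine Finset.sum_congr rfl fun ω hω => ?_
    split_ifs with h
    · by_cases hwt : (clAmb x (dshV (A ∪ P))).wt ω = 0
      · rw [hwt]
        simp
      · have hfl := bsc_flip_H x hx0 hx1 hA hAP hB hrL hc hω hwt h.1 h.2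
        have e : ψ (bscH (A ∪ P) (dshV (A ∪ P))
            (swiSw (clAmb x (dshV (A ∪ P))) (bscKL (dshV (A ∪ P)) A (A ∪ P)).Eq (dshV (A ∪ P) \ latBall c L) ∅ ω)) =
            - ψ (bscH (A ∪ P) (dshV (A ∪ P)) ω) := by
          rw [← hodd]
          refine hloc _ _ fun u hu => ?_
          unfold bscH
          rw [hfl u hu]
          ring
        show _ * ψ _ = - (_ * ψ _)
        rw [e]
        ring
    · simp
  linarith

/-! ### 7. Cauchy-Schwarz -/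

section abstract

variable {V Y : Type} [DecidableEq V] [DecidableEq Y]

theorem bsc_N_cs (S : ClSys V Y) (hS : ClOk S) (K : ClCfg V Y → Prop) (G1 G2 : ClCfg V Y → ℝ) :
    (S.N K (fun ω => G1 ω * G2 ω)) ^ 2 ≤ S.N K (fun ω => G1 ω ^ 2) * S.N K (fun ω => G2 ω ^ 2) := by
  classical
  unfold ClSys.N
  have key := Finset.sum_mul_sq_le_sq_mul_sq S.cfgs (fun ω => if K ω then Real.sqrt (S.wt ω) * G1 ω else 0)
    (fun ω => if K ω then Real.sqrt (S.wt ω) * G2 ω else 0)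
  have e : ∀ ω, Real.sqrt (S.wt ω) * Real.sqrt (S.wt ω) = S.wt ω := fun ω => Real.mul_self_sqrt (dis_wt_nonneg S hS ω)
  have e1 : ∑ ω ∈ S.cfgs, (if K ω then Real.sqrt (S.wt ω) * G1 ω else 0) * (if K ω then Real.sqrt (S.wt ω) * G2 ω else 0) =
      ∑ ω ∈ S.cfgs, if K ω then S.wt ω * (G1 ω * G2 ω) else 0 :=
    Finset.sum_congr rfl (fun ω _ => by
      split_ifs
      · calc Real.sqrt (S.wt ω) * G1 ω * (Real.sqrt (S.wt ω) * G2 ω)
            = (Real.sqrt (S.wt ω) * Real.sqrt (S.wt ω)) * (G1 ω * G2 ω) := by ring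
          _ = _ := by rw [e ω]
      · simp)
  have e2 : ∀ G : ClCfg V Y → ℝ, ∑ ω ∈ S.cfgs, (if K ω then Real.sqrt (S.wt ω) * G ω else 0) ^ 2 =
      ∑ ω ∈ S.cfgs, if K ω then S.wt ω * G ω ^ 2 else 0 :=
    fun G => Finset.sum_congr rfl (fun ω _ => by
      split_ifs
      · calc (Real.sqrt (S.wt ω) * G ω) ^ 2 = (Real.sqrt (S.wt ω) * Real.sqrt (S.wt ω)) * G ω ^ 2 := by ring
          _ = _ := by rw [e ω]
      · simp)
  rw [e1, e2, e2] at key
  exact key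

/-- an observable with mean zero on `L` has a small mean when `L` is likely -/
theorem bsc_core (S : ClSys V Y) (hS : ClOk S) (K L : ClCfg V Y → Prop) (F : ClCfg V Y → ℝ) (b : ℝ) (hZ : 0 < S.Z K)
    (h0 : S.N (fun ω => K ω ∧ L ω) F = 0) (hP : S.P K (fun ω => ¬ L ω) ≤ b) :
    (S.E K F) ^ 2 ≤ b * S.E K (fun ω => F ω ^ 2) := by
  classical
  have e1 : S.N K F = S.N K (fun ω => (if ¬ L ω then (1 : ℝ) else 0) * F ω) := by
    have : S.N K F = S.N (fun ω => K ω ∧ L ω) F + S.N K (fun ω => (if ¬ L ω then (1 : ℝ) else 0) * F ω) := by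
      unfold ClSys.N
      rw [← Finset.sum_add_distrib]
      refine Finset.sum_congr rfl fun ω _ => ?_
      by_cases hk : K ω <;> by_cases hl : L ω <;> simp [hk, hl]
    rw [this, h0, zero_add]
  have cs := bsc_N_cs S hS K (fun ω => if ¬ L ω then (1 : ℝ) else 0) F
  have e2 : (fun ω => (if ¬ L ω then (1 : ℝ) else 0) ^ 2) = fun ω => if ¬ L ω then (1 : ℝ) else 0 := by
    funext ω
    split_ifs <;> simp
  rw [← e1, e2] at cs
  have hF2 : 0 ≤ S.N K (fun ω => F ω ^ 2) := by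
    unfold ClSys.N
    refine Finset.sum_nonneg fun ω _ => ?_
    split_ifs
    · exact mul_nonneg (dis_wt_nonneg S hS ω) (sq_nonneg _)
    · exact le_rfl
  have hP' : S.N K (fun ω => if ¬ L ω then (1 : ℝ) else 0) / S.Z K ≤ b := by
    refine le_trans (le_of_eq ?_) hP
    unfold ClSys.P
    rw [dis_E_eq]
    congr 2
    funext ω
    by_cases hl : L ω <;> simp [hl]
  rw [dis_E_eq, dis_E_eq, div_pow]
  have hE2 : 0 ≤ S.N K (fun ω => F ω ^ 2) / S.Z K := div_nonneg hF2 hZ.le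
  calc S.N K F ^ 2 / S.Z K ^ 2 ≤ (S.N K (fun ω => if ¬ L ω then (1 : ℝ) else 0) * S.N K (fun ω => F ω ^ 2)) / S.Z K ^ 2 :=
        div_le_div_of_nonneg_right cs (sq_nonneg _)
    _ = (S.N K (fun ω => if ¬ L ω then (1 : ℝ) else 0) / S.Z K) * (S.N K (fun ω => F ω ^ 2) / S.Z K) := by
        rw [div_mul_div_comm, sq]
    _ ≤ b * (S.N K (fun ω => F ω ^ 2) / S.Z K) := mul_le_mul_of_nonneg_right hP' hE2

end abstract

/-! ### 8. assembly -/

/-- **(PATCH)** the body of `exit_bdy_patch` -/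
theorem bsc_main (x : ℝ) (hx1 : 1 / Real.sqrt 2 ≤ x) (hx2 : x ≤ 1) :
    ∃ (C α : ℝ), 0 < C ∧ 0 < α ∧ ∀ (A P : Finset TV) (c : TV) (r R : ℕ) (ψ : (TV → ℤ) → ℝ),
      MomCo A → MomCo (A ∪ P) → Disjoint P A → latBall c R ⊆ A ∪ P → c ∉ A → 1 ≤ r → r ≤ R →
      HtLoc (latBall c r) ψ → (∀ h, ψ (fun u => -1 - h u) = - ψ h) →
      (bdySynE x A P ψ) ^ 2 ≤ C * ((r : ℝ) / R) ^ α * bdySynE x A P (fun h => ψ h ^ 2) := by
  have hx0 : 0 < x := lt_of_lt_of_le (by positivity) hx1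
  obtain ⟨C₀, α, hC₀, hα, H⟩ := dis_stack x hx0 hx2 true (exit_t23 x hx1 hx2)
  refine ⟨(2 * C₀ + 1) * 3 ^ α, α, by positivity, hα, fun A P c r R ψ hA hAP hd hB hc h1 h12 hloc hodd => ?_⟩
  have hr1 : (1 : ℝ) ≤ r := by exact_mod_cast h1
  have hr2 : (0 : ℝ) < R := by
    have : 0 < R := by omega
    exact_mod_cast this
  have hq0 : 0 ≤ (r : ℝ) / R := by positivity
  have e3 : (3 : ℝ) ^ α * ((r : ℝ) / R) ^ α = (3 * ((r : ℝ) / R)) ^ α := by
    rw [Real.mul_rpow (by norm_num) hq0]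
  have hE2 : 0 ≤ bdySynE x A P (fun h => ψ h ^ 2) := bdy_syn_nonneg hx0 A P (fun _ _ _ => sq_nonneg _)
  rw [mul_assoc (2 * C₀ + 1), e3]
  by_cases hcase : r + 2 ≤ R
  · obtain ⟨L, rfl⟩ : ∃ L, R = L + 2 := ⟨R - 2, by omega⟩
    have hL : r ≤ L := by omega
    have hLpos : (0 : ℝ) < L := by
      have : 0 < L := by omega
      exact_mod_cast this
    have hAV : A ∪ P ⊆ dshV (A ∪ P) := dsh_F_sub _
    have hsk := dsh_sk_conn (A ∪ P) hAP
    have hst := H (dshV (A ∪ P)) (dis_amb_ball 0 _) (bscK (dshV (A ∪ P)) A (A ∪ P)) (bsc_K_legal x _ _ _)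
      (bsc_Z_pos x hx0 hx2 _ _ _) c r L h1 hL (hB.trans hAV) (bsc_K_clear x _ _ _ _ (Finset.sdiff_subset.trans hB))
    have hb0 : 0 ≤ C₀ * ((r : ℝ) / L) ^ α :=
      mul_nonneg hC₀.le (Real.rpow_nonneg (div_nonneg (Nat.cast_nonneg _) (Nat.cast_nonneg _)) _)
    have hpr := bsc_prob x hx0 hx2 _ hb0 (dshV (A ∪ P)) A (A ∪ P) hsk _ hst
    have hBL : latBall c L ⊆ A ∪ P := (plh_ball_mono c (by omega)).trans hB
    have hz := bsc_odd_zero x hx0 hx2 hA hAP hBL hL hc ψ hloc hodd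
    have hcore := bsc_core (clAmb x (dshV (A ∪ P))) (dam_pl_ok hx0 hx2 _) _ _ _ _
      (bsc_ZL_pos x hx0 hx2 (dshV (A ∪ P)) A (A ∪ P) hsk) hz hpr
    rw [← bsb_bridge hx0 hA hAP hd ψ, ← bsb_bridge hx0 hA hAP hd (fun h => ψ h ^ 2)] at hcore
    have hL1 : (1 : ℝ) ≤ L := by
      have : 1 ≤ L := by omega
      exact_mod_cast this
    have hle : (r : ℝ) / L ≤ 3 * ((r : ℝ) / ((L + 2 : ℕ) : ℝ)) := by
      push_cast
      rw [← mul_div_assoc, div_le_div_iff₀ hLpos (by positivity)]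
      nlinarith
    have hpw : ((r : ℝ) / L) ^ α ≤ (3 * ((r : ℝ) / ((L + 2 : ℕ) : ℝ))) ^ α :=
      Real.rpow_le_rpow (by positivity) hle hα.le
    have hnn : 0 ≤ (3 * ((r : ℝ) / ((L + 2 : ℕ) : ℝ))) ^ α := Real.rpow_nonneg (by positivity) _
    refine hcore.trans (mul_le_mul_of_nonneg_right ?_ hE2)
    calc 2 * (C₀ * ((r : ℝ) / L) ^ α) ≤ 2 * (C₀ * (3 * ((r : ℝ) / ((L + 2 : ℕ) : ℝ))) ^ α) := by
          have := mul_le_mul_of_nonneg_left hpw hC₀.le
          linarith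
      _ ≤ (2 * C₀ + 1) * (3 * ((r : ℝ) / ((L + 2 : ℕ) : ℝ))) ^ α := by nlinarith
  · have hle : (1 : ℝ) ≤ 3 * ((r : ℝ) / R) := by
      rw [← mul_div_assoc, le_div_iff₀ hr2, one_mul]
      have : R ≤ 3 * r := by omega
      exact_mod_cast this
    have h1' : (1 : ℝ) ≤ (3 * ((r : ℝ) / R)) ^ α := Real.one_le_rpow hle hα.le
    have cs := bdy_syn_cs hx0 A P ψ (fun _ => 1)
    simp only [mul_one, one_pow] at cs
    rw [bdy_syn_const hx0 A P 1, mul_one] at cs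
    refine cs.trans ?_
    have : (1 : ℝ) ≤ (2 * C₀ + 1) * (3 * ((r : ℝ) / R)) ^ α := by nlinarith
    nlinarith

end Claimed.Agent.R291
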