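import Claimed.Agent.R291.Bdy.Syn
import Claimed.Agent.R291.Pl.Ball
import Claimed.Agent.R291.Exit.BdyPatch
import Claimed.Agent.R291.Exit.MomSmear

/-!
# Row 291 (S0539), unit BDY, file Bdy/Att      (owner: helper128, HEAD BDY; prefix `bdy_att`)

ATTACHMENT TO A CLEAN PATCH.      TEX[lem:attachment] (06-boundary l.240-454), in the simplified form R5 of `origin/helper173:notes/R291/sec6b_173.md`.
No level path, no designation, no Gibbs ceiling with islands, no low barrier, no corridor, no component potential (6.7).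

`(M, η)` retained problem, `q ∉ M`, pocket `P ⊇ latBall q R \ M`, the trace is `≥ -1`, and `≥ 0` on the PATCH `latOut M ∩ P`;  `latBall z (3 s) ⊆ M`, `latDist q z ≤ m s`, `Λ s ≤ R`.
THEN with probability `≥ ca(x, m)` a walk of sites of `M` of height `≥ 0` joins a neighbour of the patch to `latBall z (s + 1)`      (`bdy_att`).

PROOF.  `μ` = synthetic law with pocket `P`, `Y` = average of `h` on `latBall z s`.
 (A) `μ Y ≥ -3/4`             `exit_bdy_patch` for `ψ = 2 Y + 1` (odd under `h ↦ -1 - h`) + (B)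
 (B) `μ Y² ≤ C₂`              `exit_mom_smear` under every law of the mixture
 (C) `μ [(Y + 1) 1{¬ TJ}] ≤ 0`   `J` = invasion of the neighbours of the patch through the sites `≥ 0`; off `J` all boundary values are `≤ -1` (strong Markov `bdy_smarkov_mul`, `bdy_mean_le`);  `TJ` = `J` meets `latBall z s`
 (D) `TJ ⟹ T`                 deterministic
 (E) `-3/4 ≤ μ Y ≤ -(1 - μ TJ) + (C₂ μ TJ)^(1/2)`  ⟹  `μ T ≥ μ TJ ≥ ca`
 (F) `T` is increasing: `bdy_syn_dom_inc`.
-/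

set_option autoImplicit false

namespace Claimed.Agent.R291

open Claims Claims.C0467

/-! ## 0. the average -/

theorem bdy_att_card_pos (z : TV) (s : ℕ) : 0 < ((latBall z s).card : ℝ) := by
  have : 0 < (latBall z s).card := Finset.card_pos.2 ⟨z, plh_ball_self z s⟩
  exact_mod_cast this

/-- the ball of radius `s` has at least `s ^ 2` sites -/
theorem bdy_att_card_ge (z : TV) (s : ℕ) : s ^ 2 ≤ (latBall z s).card := by
  have hinj : Set.InjOn (fun p : ℕ × ℕ => z + ((p.1 : ℤ), -(p.2 : ℤ))) (↑(Finset.range s ×ˢ Finset.range s) : Set (ℕ × ℕ)) := by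
    intro p _ p' _ h
    simp only [Prod.ext_iff, Prod.fst_add, Prod.snd_add] at h
    ext <;> omega
  have hsub : (Finset.range s ×ˢ Finset.range s).image (fun p : ℕ × ℕ => z + ((p.1 : ℤ), -(p.2 : ℤ))) ⊆ latBall z s := by
    intro u hu
    obtain ⟨p, hp, rfl⟩ := Finset.mem_image.1 hu
    rw [Finset.mem_product, Finset.mem_range, Finset.mem_range] at hp
    rw [lat_mem_ball, add_sub_cancel_left]
    unfold latN
    simp only
    omega
  calc s ^ 2 = (Finset.range s ×ˢ Finset.range s).card := by rw [Finset.card_product, Finset.card_range, sq]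
    _ = ((Finset.range s ×ˢ Finset.range s).image (fun p : ℕ × ℕ => z + ((p.1 : ℤ), -(p.2 : ℤ)))).card :=
        (Finset.card_image_of_injOn hinj).symm
    _ ≤ _ := Finset.card_le_card hsub

theorem bdy_att_avg_eq (z : TV) (s : ℕ) (h : TV → ℤ) :
    bdyAvg z s h = ∑ u ∈ latBall z s, (fun _ => 1 / ((latBall z s).card : ℝ)) u * (h u : ℝ) := by
  unfold bdyAvg
  rw [Finset.sum_div]
  exact Finset.sum_congr rfl fun u _ => by ring

theorem bdy_att_w_sum (z : TV) (s : ℕ) : ∑ u ∈ latBall z s, (fun _ => 1 / ((latBall z s).card : ℝ)) u = 1 := by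
  rw [Finset.sum_const, nsmul_eq_mul]
  exact mul_one_div_cancel (bdy_att_card_pos z s).ne'

/-- the reflection `h ↦ -1 - h` -/
theorem bdy_att_avg_flip (z : TV) (s : ℕ) (h : TV → ℤ) : bdyAvg z s (fun u => -1 - h u) = -1 - bdyAvg z s h := by
  have hc := bdy_att_card_pos z s
  unfold bdyAvg
  rw [eq_sub_iff_add_eq, ← add_div, ← Finset.sum_add_distrib, div_eq_iff hc.ne']
  have : ∀ u ∈ latBall z s, (((-1 - h u : ℤ) : ℝ) + (h u : ℝ)) = -1 := fun u _ => by push_cast; ring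
  rw [Finset.sum_congr rfl this, Finset.sum_const, nsmul_eq_mul]
  ring

theorem bdy_att_avg_loc {z : TV} {s : ℕ} {S : Finset TV} (hS : latBall z s ⊆ S) : HtLoc S (bdyAvg z s) := by
  intro h h' hh
  unfold bdyAvg
  congr 1
  exact Finset.sum_congr rfl fun u hu => by rw [hh u (hS hu)]

/-- the uniform weights as a finitely supported array -/
noncomputable def bdyAttW (z : TV) (s : ℕ) : TV →₀ ℝ :=
  Finsupp.onFinset (latBall z s) (fun u => if u ∈ latBall z s then 1 / ((latBall z s).card : ℝ) else 0)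
    (fun u hu => by by_contra h; simp [h] at hu)

theorem bdy_att_W_apply (z : TV) (s : ℕ) (u : TV) :
    bdyAttW z s u = if u ∈ latBall z s then 1 / ((latBall z s).card : ℝ) else 0 := rfl

theorem bdy_att_arr (z : TV) (s : ℕ) (h : TV → ℤ) : latArr (bdyAttW z s) h = bdyAvg z s h := by
  unfold latArr bdyAttW
  rw [Finsupp.onFinset_sum _ (fun u => by simp), bdy_att_avg_eq]
  exact Finset.sum_congr rfl fun u hu => by simp [hu]

theorem bdy_att_sm (z : TV) (s : ℕ) : MomSm z s 1 (bdyAttW z s) where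
  supp := Finsupp.support_onFinset_subset
  l1 := by
    have hc := bdy_att_card_pos z s
    calc ∑ u ∈ (bdyAttW z s).support, |bdyAttW z s u| ≤ ∑ u ∈ latBall z s, |bdyAttW z s u| :=
          Finset.sum_le_sum_of_subset_of_nonneg Finsupp.support_onFinset_subset (fun _ _ _ => abs_nonneg _)
      _ = ∑ u ∈ latBall z s, (fun _ => 1 / ((latBall z s).card : ℝ)) u :=
          Finset.sum_congr rfl fun u hu => by rw [bdy_att_W_apply, if_pos hu, abs_of_pos (by positivity)]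
      _ = 1 := bdy_att_w_sum z s
      _ ≤ 1 := le_rfl
  sup := by
    intro u
    have hc := bdy_att_card_pos z s
    have hge : ((s : ℝ)) ^ 2 ≤ ((latBall z s).card : ℝ) := by exact_mod_cast bdy_att_card_ge z s
    rw [bdy_att_W_apply]
    split_ifs
    · rw [abs_of_pos (by positivity), one_div, inv_mul_le_iff₀ hc, mul_one]
      exact hge
    · simp

/-! ## 1. the invasion from the patch -/

open Classical in
/-- the sites of `M` adjacent to the patch `S` -/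
noncomputable def bdyAttO (M S : Finset TV) : Finset TV := M.filter (fun u => ∃ v ∈ S, triAdj v u)

/-- the invasion of the neighbours of the patch through the sites of height `≥ 0` (with its rim) -/
noncomputable def bdyAttJ (M S : Finset TV) (h : TV → ℤ) : Finset TV := bdyHi M (-1) (bdyAttO M S) h

/-- the unexplored region -/
noncomputable def bdyAttM (M S : Finset TV) (h : TV → ℤ) : Finset TV := M \ bdyAttJ M S h

theorem bdy_att_mem_O {M S : Finset TV} {u : TV} : u ∈ bdyAttO M S ↔ u ∈ M ∧ ∃ v ∈ S, triAdj v u := by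
  classical
  unfold bdyAttO
  rw [Finset.mem_filter]

theorem bdy_att_J_stop {M S : Finset TV} {h h' : TV → ℤ} (hh : ∀ u, u ∉ bdyAttM M S h → h' u = h u) :
    bdyAttJ M S h' = bdyAttJ M S h :=
  bdy_hi_stop fun u hu => hh u fun hm => (Finset.mem_sdiff.1 hm).2 hu

theorem bdy_att_M_stop {M S : Finset TV} {h h' : TV → ℤ} (hh : ∀ u, u ∉ bdyAttM M S h → h' u = h u) :
    bdyAttM M S h' = bdyAttM M S h := by
  unfold bdyAttM
  rw [bdy_att_J_stop hh]

/-- all boundary values of the unexplored region are `≤ -1` -/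
theorem bdy_att_bv {M S : Finset TV} {g h : TV → ℤ} (hh : HtAdm M g h)
    (hg : ∀ u ∈ latOut M, g u = -1 ∨ u ∈ S) {u : TV} (hu : u ∈ latOut (bdyAttM M S h)) : h u ≤ -1 := by
  obtain ⟨hu1, v, hv, hvu⟩ := bdy_mem_out.1 hu
  obtain ⟨hvM, hvJ⟩ := Finset.mem_sdiff.1 hv
  by_cases huM : u ∈ M
  · have huJ : u ∈ bdyAttJ M S h := by
      by_contra hn
      exact hu1 (Finset.mem_sdiff.2 ⟨huM, hn⟩)
    exact bdy_hi_rim huJ hvM hvJ (lat_adj_symm hvu)
  · rw [hh.1 u huM]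
    rcases hg u (bdy_mem_out.2 ⟨huM, v, hvM, hvu⟩) with h1 | h1
    · exact h1.le
    · exact absurd (bdy_inv_seed (bdy_att_mem_O.2 ⟨hvM, u, h1, lat_adj_symm hvu⟩) hvM) hvJ

/-- (D) if the invasion meets `latBall z s`, a walk of nonnegative sites joins a neighbour of the patch to `latBall z (s + 1)` -/
theorem bdy_att_TJ {M S : Finset TV} {z : TV} {s : ℕ} (hS : ∀ v ∈ S, v ∉ latBall z (s + 1)) {h : TV → ℤ}
    (hT : (bdyAttJ M S h ∩ latBall z s).Nonempty) : BdyHiX M 0 (bdyNbr S) (latBall z (s + 1) : Set TV) h := by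
  obtain ⟨u, hu⟩ := hT
  obtain ⟨huJ, huB⟩ := Finset.mem_inter.1 hu
  obtain ⟨-, o, ho, hr⟩ := bdy_mem_inv.1 huJ
  obtain ⟨hoM, v, hvS, hvo⟩ := bdy_att_mem_O.1 ho
  have nb : ∀ {a b : TV}, triAdj a b → b ∈ latBall z s → a ∈ latBall z (s + 1) := by
    intro a b hab hb
    rw [lat_mem_ball] at hb ⊢
    have h2 : triAdj (b - z) (a - z) := by
      rw [lat_adj_iff] at hab ⊢
      have e : a - z - (b - z) = -(b - a) := by abel
      rw [e]
      exact lat_dirs_neg hab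
    have := plh_N_adj h2
    omega
  have key : ∀ w, Relation.ReflTransGen (bdyStep M (fun u => -1 < h u)) o w →
      w = o ∨ ∃ w', triAdj w' w ∧ 0 ≤ h o ∧ TscR tscG {u | u ∈ M ∧ 0 ≤ h u} o w' := by
    intro w hw
    induction hw with
    | refl => exact Or.inl rfl
    | @tail a b _ hs ih =>
      obtain ⟨hab, hPa, haM, -⟩ := hs
      have ha0 : 0 ≤ h a := by omega
      rcases ih with rfl | ⟨a', ha'a, ho0, hR⟩
      · exact Or.inr ⟨a, hab, ha0, tsc_R_refl _⟩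
      · refine Or.inr ⟨a, hab, ho0, tsc_R_trans hR (tsc_R_step ha'a ?_ ⟨haM, ha0⟩)⟩
        exact tsc_R_mem hR ⟨hoM, ho0⟩
  rcases key u hr with rfl | ⟨w', hw'u, ho0, hR⟩
  · exact absurd (nb hvo huB) (hS v hvS)
  · exact ⟨o, ⟨v, hvS, hvo⟩, w', by exact_mod_cast nb hw'u huB, hoM, ho0, hR⟩

/-! ## 2. (C) the ceiling -/

open Classical in
/-- (C) under one law of the mixture -/
theorem bdy_att_ceil {x : ℝ} (hx0 : 0 < x) (hx1 : x ≤ 1) {M S : Finset TV} {g : TV → ℤ} (hg : ∀ u ∈ latOut M, g u = -1 ∨ u ∈ S)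
    (z : TV) (s : ℕ) (hB : latBall z s ⊆ M) :
    htE x M g (fun h => (if (bdyAttJ M S h ∩ latBall z s).Nonempty then 0 else 1) * (bdyAvg z s h + 1)) ≤ 0 := by
  rw [← bdy_smarkov_mul hx0 g (bdyAttM M S) (fun h => Finset.sdiff_subset) (fun h h' hh => bdy_att_M_stop hh)
    (fun h => bdyAvg z s h + 1) (fun h => if (bdyAttJ M S h ∩ latBall z s).Nonempty then 0 else 1)
    (fun h h' hh => by simp only [bdy_att_J_stop hh])]
  refine le_trans (ht_E_mono hx0 M g (G2 := fun _ => 0) fun h hh => ?_) (ht_E_zero x M g).le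
  by_cases hT : (bdyAttJ M S h ∩ latBall z s).Nonempty
  · simp [hT]
  · simp only [hT, if_false, one_mul]
    have hsub : latBall z s ⊆ bdyAttM M S h := by
      intro u hu
      refine Finset.mem_sdiff.2 ⟨hB hu, fun hJ => hT ⟨u, Finset.mem_inter.2 ⟨hJ, hu⟩⟩⟩
    have hadm : HtAdm (bdyAttM M S h) h h := bdy_adm_sub Finset.sdiff_subset hh
    have h1 := bdy_mean_le hx0 hx1 (A := bdyAttM M S h) (S := latBall z s)
      (fun u hu => lat_mem_cl.2 (Or.inl (hsub hu))) ⟨h, hadm⟩ (c := -1) (fun u hu => bdy_att_bv hh hg hu)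
      (w := fun _ => 1 / ((latBall z s).card : ℝ)) (fun _ => by positivity)
    rw [bdy_att_w_sum] at h1
    rw [ht_E_add, ht_E_const hx0 hadm]
    have e : bdyAvg z s = fun h' => ∑ u ∈ latBall z s, (fun _ => 1 / ((latBall z s).card : ℝ)) u * (h' u : ℝ) := by
      funext h'; exact bdy_att_avg_eq z s h'
    rw [e]
    push_cast at h1
    linarith

/-! ## 3. the numerical end -/

/-- (E) -/
theorem bdy_att_num {C₂ p e y : ℝ} (hC : 0 < C₂) (hy : -3 / 4 ≤ y) (h1 : y ≤ e - (1 - p)) (h2 : e ^ 2 ≤ p * C₂) :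
    min (1 / 8) (1 / (64 * C₂)) ≤ p := by
  by_contra hn
  rw [not_le, lt_min_iff] at hn
  obtain ⟨ha, hb⟩ := hn
  rw [lt_div_iff₀ (by positivity)] at hb
  have he : 1 / 8 < e := by linarith
  nlinarith

/-! ## 4. (B) the second moment, (A) the mean -/

/-- (B) the second moment of the average under the synthetic law -/
theorem bdy_att_B {x : ℝ} (hx0 : 0 < x) {Cs : ℝ}
    (Hs : ∀ (F : Finset TV) (b : TV → ℤ) (K : ℝ) (z0 : TV) (a n : ℕ) (A : ℝ) (w : TV →₀ ℝ),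
      MomCo F → (∀ u ∈ latOut F, |(b u : ℝ)| ≤ K) → 1 ≤ a → latBall z0 (3 * a) ⊆ F → ¬ latBall z0 n ⊆ F → MomSm z0 a A w →
      htE x F b (fun h => |latArr w h| ^ 2) ≤ (Cs * A * (1 + K + Real.sqrt (Real.log ((n : ℝ) / a)))) ^ 2)
    {M P : Finset TV} (hAP : Disjoint M P) (hM : MomCo M) {q z : TV} {s m : ℕ} (hq : q ∉ M) (hs : 1 ≤ s)
    (hB : latBall z (3 * s) ⊆ M) (hd : latDist q z ≤ m * s) :
    bdySynE x M P (fun h => bdyAvg z s h ^ 2) ≤ (Cs * 1 * (1 + 1 + Real.sqrt (Real.log m))) ^ 2 := by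
  refine bdy_syn_le_of_mix hx0 hAP fun g hg hk => ?_
  have hq' : ¬ latBall z (m * s) ⊆ M := by
    intro hsub
    refine hq (hsub ?_)
    rw [lat_mem_ball, plh_N_sub_comm]
    exact hd
  have htr : ∀ u ∈ latOut M, |(g u : ℝ)| ≤ 1 := by
    intro u hu
    rcases bdy_syn_trace hg hk (bdy_mem_out.1 hu).1 with h | ⟨h, -⟩ <;> rw [h] <;> norm_num
  have key := Hs M g 1 z s (m * s) 1 (bdyAttW z s) hM htr hs hB hq' (bdy_att_sm z s)
  have hs0 : (s : ℝ) ≠ 0 := by
    have : 0 < s := by omega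
    exact_mod_cast this.ne'
  have e1 : (((m * s : ℕ) : ℝ)) / s = m := by
    push_cast
    field_simp
  rw [e1] at key
  have e2 : (fun h => |latArr (bdyAttW z s) h| ^ 2) = fun h => bdyAvg z s h ^ 2 := by
    funext h
    rw [sq_abs, bdy_att_arr]
  rwa [e2] at key

/-- (A) the mean of the average under the synthetic law -/
theorem bdy_att_A {x : ℝ} (hx0 : 0 < x) {M P : Finset TV} {z : TV} {s : ℕ} {C₂ ε : ℝ}
    (hB2 : bdySynE x M P (fun h => bdyAvg z s h ^ 2) ≤ C₂)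
    (hp : (bdySynE x M P (fun h => 2 * bdyAvg z s h + 1)) ^ 2 ≤ ε * bdySynE x M P (fun h => (2 * bdyAvg z s h + 1) ^ 2))
    (hε0 : 0 ≤ ε) (hε : ε * (8 * C₂ + 2) ≤ 1 / 4) : -3 / 4 ≤ bdySynE x M P (bdyAvg z s) := by
  have h1 : bdySynE x M P (fun h => (2 * bdyAvg z s h + 1) ^ 2) ≤ 8 * C₂ + 2 := by
    calc bdySynE x M P (fun h => (2 * bdyAvg z s h + 1) ^ 2)
        ≤ bdySynE x M P (fun h => 8 * bdyAvg z s h ^ 2 + 2) :=
          bdy_syn_mono hx0 M P fun g _ _ => by nlinarith [sq_nonneg (2 * bdyAvg z s g - 1)]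
      _ = 8 * bdySynE x M P (fun h => bdyAvg z s h ^ 2) + 2 := by
          rw [bdy_syn_add x M P (fun h => 8 * bdyAvg z s h ^ 2) (fun _ => 2), bdy_syn_smul, bdy_syn_const hx0]
      _ ≤ _ := by linarith
  have h2 : bdySynE x M P (fun h => 2 * bdyAvg z s h + 1) = 2 * bdySynE x M P (bdyAvg z s) + 1 := by
    rw [bdy_syn_add x M P (fun h => 2 * bdyAvg z s h) (fun _ => 1), bdy_syn_smul, bdy_syn_const hx0]
  rw [h2] at hp
  have h3 : (2 * bdySynE x M P (bdyAvg z s) + 1) ^ 2 ≤ 1 / 4 :=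
    hp.trans ((mul_le_mul_of_nonneg_left h1 hε0).trans hε)
  nlinarith

/-! ## 5. (E) the invasion reaches the ball with positive probability -/

open Classical in
/-- (C) + (E) -/
theorem bdy_att_E {x : ℝ} (hx0 : 0 < x) (hx1 : x ≤ 1) {M P S : Finset TV} (hAP : Disjoint M P) (hPS : ∀ u ∈ latOut M, u ∈ P → u ∈ S)
    {z : TV} {s : ℕ} (hB : latBall z s ⊆ M) {C₂ : ℝ} (hC : 0 < C₂)
    (hB2 : bdySynE x M P (fun h => bdyAvg z s h ^ 2) ≤ C₂) (hA : -3 / 4 ≤ bdySynE x M P (bdyAvg z s)) :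
    min (1 / 8) (1 / (64 * C₂)) ≤ bdySynP x M P (fun h => (bdyAttJ M S h ∩ latBall z s).Nonempty) := by
  set TJ : (TV → ℤ) → Prop := fun h => (bdyAttJ M S h ∩ latBall z s).Nonempty with hTJ
  set p := bdySynP x M P TJ with hp
  have hc : bdySynE x M P (fun h => (if TJ h then 0 else 1) * (bdyAvg z s h + 1)) ≤ 0 := by
    refine bdy_syn_le_of_mix hx0 hAP fun g hg hk => ?_
    refine bdy_att_ceil hx0 hx1 (fun u hu => ?_) z s hB
    rcases bdy_syn_trace hg hk (bdy_mem_out.1 hu).1 with h | ⟨-, h⟩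
    · exact Or.inl h
    · exact Or.inr (hPS u hu h)
  have hnot : bdySynE x M P (fun h => if TJ h then (0 : ℝ) else 1) = 1 - p := by
    rw [hp, ← bdy_syn_P_not hx0]
    refine bdy_syn_congr hx0 M P fun g _ _ => ?_
    by_cases h : TJ g <;> simp [h]
  have hsplit : bdySynE x M P (bdyAvg z s) =
      bdySynE x M P (fun h => (if TJ h then 1 else 0) * bdyAvg z s h) +
        (bdySynE x M P (fun h => (if TJ h then 0 else 1) * (bdyAvg z s h + 1)) - (1 - p)) := by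
    rw [← hnot, ← bdy_syn_sub, ← bdy_syn_add]
    refine bdy_syn_congr hx0 M P fun g _ _ => ?_
    by_cases h : TJ g <;> simp [h]
  have hcs := bdy_syn_cs hx0 M P (fun h => if TJ h then (1 : ℝ) else 0) (bdyAvg z s)
  have hsq : bdySynE x M P (fun h => (if TJ h then (1 : ℝ) else 0) ^ 2) = p := by
    rw [hp]
    refine bdy_syn_congr hx0 M P fun g _ _ => ?_
    by_cases h : TJ g <;> simp [h]
  rw [hsq] at hcs
  have hp0 : 0 ≤ p := bdy_syn_P_nonneg hx0 M P TJ
  refine bdy_att_num hC hA (e := bdySynE x M P (fun h => (if TJ h then 1 else 0) * bdyAvg z s h)) ?_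
    (hcs.trans (mul_le_mul_of_nonneg_left hB2 hp0))
  rw [hsplit]
  linarith

/-! ## 6. the attachment lemma -/

/-- choice of the ratio `Λ` -/
theorem bdy_att_ratio {Cp α K : ℝ} (hCp : 0 < Cp) (hα : 0 < α) (hK : 0 < K) (m : ℕ) :
    ∃ Λ : ℕ, m + 1 ≤ Λ ∧ ∀ s R : ℕ, 1 ≤ s → Λ * s ≤ R → Cp * ((((m + 1) * s : ℕ) : ℝ) / R) ^ α * K ≤ 1 / 4 := by
  set ε₀ : ℝ := (1 / (4 * Cp * K)) ^ (1 / α) with hε₀
  have hε₀pos : 0 < ε₀ := Real.rpow_pos_of_pos (by positivity) _
  have hpow : ε₀ ^ α = 1 / (4 * Cp * K) := by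
    rw [hε₀, ← Real.rpow_mul (by positivity), one_div_mul_cancel hα.ne', Real.rpow_one]
  refine ⟨⌈((m : ℝ) + 1) / ε₀⌉₊ + (m + 1), by omega, fun s R hs hR => ?_⟩
  have hs0 : (0 : ℝ) < s := by
    have : 0 < s := by omega
    exact_mod_cast this
  have hR' : ((⌈((m : ℝ) + 1) / ε₀⌉₊ : ℝ) + ((m : ℝ) + 1)) * s ≤ R := by exact_mod_cast hR
  have hceil : ((m : ℝ) + 1) / ε₀ ≤ ⌈((m : ℝ) + 1) / ε₀⌉₊ := Nat.le_ceil _
  have hRpos : (0 : ℝ) < R := by
    refine lt_of_lt_of_le ?_ hR'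
    have : (0 : ℝ) ≤ (⌈((m : ℝ) + 1) / ε₀⌉₊ : ℝ) := Nat.cast_nonneg _
    positivity
  have ht : (((m + 1) * s : ℕ) : ℝ) / R ≤ ε₀ := by
    rw [div_le_iff₀ hRpos]
    push_cast
    have h1 : ((m : ℝ) + 1) ≤ ε₀ * ⌈((m : ℝ) + 1) / ε₀⌉₊ := by
      rw [div_le_iff₀ hε₀pos] at hceil
      linarith
    have h2 : ε₀ * ((⌈((m : ℝ) + 1) / ε₀⌉₊ : ℝ) * s) ≤ ε₀ * R := by
      refine mul_le_mul_of_nonneg_left ?_ hε₀pos.le
      nlinarith
    nlinarith
  have ht0 : 0 ≤ (((m + 1) * s : ℕ) : ℝ) / R := by positivity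
  have h3 : ((((m + 1) * s : ℕ) : ℝ) / R) ^ α ≤ 1 / (4 * Cp * K) := by
    rw [← hpow]
    exact Real.rpow_le_rpow ht0 ht hα.le
  calc Cp * ((((m + 1) * s : ℕ) : ℝ) / R) ^ α * K ≤ Cp * (1 / (4 * Cp * K)) * K := by gcongr
    _ = 1 / 4 := by field_simp

/-- **ATTACHMENT** TEX[lem:attachment].   `P` = general pocket (FIT A8): `latBall q R ⊆ M ∪ P`, the complement of `M ∪ P` is connected, the trace is `≥ 0` on the PATCH `latOut M ∩ P`. -/
theorem bdy_att (x : ℝ) (hx1 : 1 / Real.sqrt 2 ≤ x) (hx2 : x ≤ 1) (m : ℕ) :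
    ∃ (ca : ℝ) (Λ : ℕ), 0 < ca ∧ ∀ (M P : Finset TV) (η : TV → ℤ) (q z : TV) (s R : ℕ),
      MomCo M → MomCo (M ∪ P) → Disjoint P M → latBall q R ⊆ M ∪ P → q ∉ M → (∃ h, HtAdm M η h) →
      (∀ u ∈ latOut M, -1 ≤ η u) → (∀ u ∈ latOut M, u ∈ P → 0 ≤ η u) →
      1 ≤ s → Λ * s ≤ R → latBall z (3 * s) ⊆ M → latDist q z ≤ m * s →
      ca ≤ htP x M η (BdyHiX M 0 (bdyNbr (latOut M ∩ P)) (latBall z (s + 1) : Set TV)) := by
  have hx0 : 0 < x := lt_of_lt_of_le (by positivity) hx1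
  obtain ⟨Cs, -, Hs⟩ := exit_mom_smear x hx1 hx2 2
  obtain ⟨Cp, α, hCp, hα, Hp⟩ := exit_bdy_patch x hx1 hx2
  obtain ⟨C₂, hC₂⟩ : ∃ C₂ : ℝ, C₂ = (Cs * 1 * (1 + 1 + Real.sqrt (Real.log m))) ^ 2 + 1 := ⟨_, rfl⟩
  have hC₂pos : 0 < C₂ := by rw [hC₂]; positivity
  obtain ⟨Λ, hΛm, HΛ⟩ := bdy_att_ratio hCp hα (K := 8 * C₂ + 2) (by positivity) m
  refine ⟨min (1 / 8) (1 / (64 * C₂)), Λ, by positivity, fun M P η q z s R hM hM2 hPM hqR hq hne h1 h0 hs hR hB hd => ?_⟩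
  have hAP : Disjoint M P := hPM.symm
  have hB1 : latBall z s ⊆ M := (plh_ball_mono z (by omega)).trans hB
  have hB2 : bdySynE x M P (fun h => bdyAvg z s h ^ 2) ≤ C₂ := by
    have := bdy_att_B hx0 Hs hAP hM hq hs hB hd
    rw [hC₂]; linarith
  have hrR : (m + 1) * s ≤ R := (Nat.mul_le_mul_right s hΛm).trans hR
  have hloc : latBall z s ⊆ latBall q ((m + 1) * s) := by
    refine plh_ball_sub_ball ?_
    have : latN (z - q) ≤ m * s := hd
    nlinarith
  have hp := Hp M P q ((m + 1) * s) R (fun h => 2 * bdyAvg z s h + 1) hM hM2 hPM hqR hq (by nlinarith) hrR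
    (fun h h' hh => by show 2 * bdyAvg z s h + 1 = 2 * bdyAvg z s h' + 1; rw [bdy_att_avg_loc hloc h h' hh])
    (fun h => by show 2 * bdyAvg z s (fun u => -1 - h u) + 1 = -(2 * bdyAvg z s h + 1); rw [bdy_att_avg_flip]; ring)
  have hA := bdy_att_A hx0 hB2 hp (by positivity) (HΛ s R hs hR)
  have hE := bdy_att_E hx0 hx2 (S := latOut M ∩ P) hAP
    (fun u hu hP => Finset.mem_inter.2 ⟨hu, hP⟩) hB1 hC₂pos hB2 hA
  refine hE.trans ((bdy_syn_P_mono hx0 M _ fun g _ _ hT => bdy_att_TJ (fun v hv hvB => ?_) hT).trans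
    (bdy_syn_dom_inc hx0 hx2 hAP hne h1 h0 (fun h h' hh => bdy_hix_mono hh)))
  exact (bdy_mem_out.1 (Finset.mem_inter.1 hv).1).1 (hB (plh_ball_mono z (by omega) hvB))

theorem bdy_att_eqns_cite : True := by
  have := @bdyAttW.eq_1; have := @bdyAttO.eq_1; have := @bdyAttJ.eq_1; have := @bdyAttM.eq_1
  trivial

end Claimed.Agent.R291
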