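import Claimed.Agent.R291.Bdy.HInv
import Claimed.Agent.R291.Exit.DisSwitch
import Claimed.Agent.R291.Exit.DisStack
import Claimed.Agent.R291.Defs.BdySyn

/-!
# Row 291 (S0539), unit BDY, file Bdy/Bulk      (owner: helper205; head of BDY helper128; consumer helper173 `Bdy/Upg`; prefix `bdy_bulk_`, `bdy_tube_`, `BdyNoLo`)

THE BULK PRIMITIVE (P0) AND THE TUBE LEMMA, HEIGHT-ONLY.      TEX[lem:bulk-tubes] (06-boundary.tex l.455-560); design R4, R6 of `origin/helper173:notes/R291/sec6b_173.md`.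
No cell law, no circuit, no loop, no new contract with DIS: (P0) follows from the two height-only exits typed for MOM, `exit_dis_switch` (protected switch) and `exit_dis_stack` (stack of circuits).

PROOF OF (P0), flat boundary `0` on a hole-free `F ⊇ latBall z (C0 R)`.   `E⁺ h` := no walk of sites of height `≤ 0` from `latBall z ρ` to the outside of `latBall z (3R)`;  `E⁻ h := E⁺ (-h)`.
Let `(h, h')` be a pair charged by the switch kernel `M`, say `h' = h + 4` on `latBall z R`, and let `MomCirc z ρ R h` hold: a connected set `S` in the annulus, blocking, with constant first Gray spin,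
so that `h` takes its values in ONE pair `{2j, 2j+1}` on `S` (`bdy_bulk_pair`).   A walk of `{h' ≤ 0}` and a walk of `{h ≥ 0}` across the annulus both meet `S`: `h ≤ -4` and `h ≥ 0` on `S`, absurd (`bdy_bulk_key`).
Hence `1 ≤ φ h + φ h'`, `φ = 1{¬ Circ} + 1{E⁺} + 1{E⁻}`;   `M` symmetric and sub-stochastic:   `c2 Z ≤ ∑ M ≤ 2 Z (P(¬ Circ) + 2 P(E⁺))`   (`bdy_bulk_count`, `bdy_bulk_flat`).
Shift by `-1`, monotonicity in the trace (`bdy_order`): `bdy_bulk`.

* `BdyNoLo k z r L h`    no walk of sites of height `≤ k` inside `latBall z (L+1)` from `latBall z r` to a site off `latBall z L`      (increasing, local in `latBall z (L+1)`)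
* **`bdy_bulk_exit`**   = `exit_bdy_bulk` (contract of helper128) verbatim: flat `-1`, no walk of negative sites of `M` across the annulus
* **`bdy_bulk`**        (P0): boundary values `≥ -1`, `MomCo M`, `latBall z (K0 ρ + 2) ⊆ M`:   `c0 ≤ htP x M η (bdyLo U 0 (latBall z ρ) h ⊆ latBall z (K0 ρ))`
* `bdy_fkg_all`         association for finitely many increasing events;      **`bdy_tube_prob`**   all the (P0) events of a tube: probability `≥ c0 ^ card`
* **`bdy_tube_geo`**    deterministic: the invasion of a connected tube core is connected, is the union of the single invasions; its layer seen from a component of the rest is connected (Timar), nonnegative and blocking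
-/

set_option autoImplicit false

namespace Claimed.Agent.R291

open Claims Claims.C0467 Relation

/-! ## 1. blocking events -/

/-- no walk of sites of height `≤ k`, inside `latBall z (L+1)`, from `latBall z r` to a site off `latBall z L` -/
def BdyNoLo (k : ℤ) (z : TV) (r L : ℕ) (h : TV → ℤ) : Prop :=
  ∀ a b : TV, a ∈ latBall z r → b ∉ latBall z L → ¬ TscR tscG {u | h u ≤ k ∧ u ∈ latBall z (L + 1)} a b

theorem bdy_bulk_eqns_cite : True := by
  have := @BdyNoLo.eq_1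
  trivial

theorem bdy_bulk_ball_mono (z : TV) {r L : ℕ} (h : r ≤ L) : latBall z r ⊆ latBall z L := fun _ hu =>
  lat_mem_ball.2 ((lat_mem_ball.1 hu).trans h)

theorem bdy_bulk_ball_adj {z u v : TV} {L : ℕ} (hu : u ∈ latBall z L) (huv : triAdj u v) : v ∈ latBall z (L + 1) := by
  rw [lat_mem_ball] at hu ⊢
  rw [lat_adj_iff] at huv
  obtain ⟨u1, u2⟩ := u
  obtain ⟨v1, v2⟩ := v
  obtain ⟨z1, z2⟩ := z
  simp only [latDirs, Finset.mem_insert, Finset.mem_singleton, Prod.mk_sub_mk, Prod.mk.injEq] at huv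
  simp only [latN, Prod.mk_sub_mk] at hu ⊢
  omega

/-- the blocking event is increasing -/
theorem bdy_bulk_blk_mono {k : ℤ} {z : TV} {r L : ℕ} {h h' : TV → ℤ} (hh : ∀ u, h u ≤ h' u) (hb : BdyNoLo k z r L h) :
    BdyNoLo k z r L h' := fun a b ha hb' hw =>
  hb a b ha hb' (tsc_R_mono (s := {u | h' u ≤ k ∧ u ∈ latBall z (L + 1)}) (t := {u | h u ≤ k ∧ u ∈ latBall z (L + 1)})
    (fun u hu => ⟨(hh u).trans hu.1, hu.2⟩) hw)

/-- the blocking event reads the heights in `latBall z (L+1)` only -/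
theorem bdy_bulk_blk_loc {k : ℤ} {z : TV} {r L : ℕ} {h h' : TV → ℤ} (hh : ∀ u ∈ latBall z (L + 1), h u = h' u) :
    BdyNoLo k z r L h ↔ BdyNoLo k z r L h' := by
  have e : {u | h u ≤ k ∧ u ∈ latBall z (L + 1)} = {u | h' u ≤ k ∧ u ∈ latBall z (L + 1)} := by
    ext u
    constructor
    · rintro ⟨h1, h2⟩; exact ⟨by rw [← hh u h2]; exact h1, h2⟩
    · rintro ⟨h1, h2⟩; exact ⟨by rw [hh u h2]; exact h1, h2⟩
  unfold BdyNoLo
  rw [e]

theorem bdy_bulk_blk_shift (k c : ℤ) (z : TV) (r L : ℕ) (h : TV → ℤ) :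
    BdyNoLo (k + c) z r L (fun u => h u + c) ↔ BdyNoLo k z r L h := by
  have e : {u | h u + c ≤ k + c ∧ u ∈ latBall z (L + 1)} = {u | h u ≤ k ∧ u ∈ latBall z (L + 1)} := by
    ext u
    simp
  unfold BdyNoLo
  rw [e]

/-- **from blocking to invasions**: the invasion of the inner ball through the sites of height `< k + 1` stays in `latBall z (L+1)`, whatever the universe -/
theorem bdy_bulk_blk_inv {k : ℤ} {z : TV} {r L : ℕ} (hrL : r ≤ L) {h : TV → ℤ} (hb : BdyNoLo k z r L h) (U : Finset TV) :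
    bdyLo U (k + 1) (latBall z r) h ⊆ latBall z (L + 1) := by
  intro v hv
  obtain ⟨-, o, ho, hw⟩ := bdy_mem_inv.1 hv
  clear hv
  have key : v ∈ latBall z (L + 1) ∧ (h v ≤ k → v ∈ latBall z L ∧ TscR tscG {u | h u ≤ k ∧ u ∈ latBall z (L + 1)} o v) := by
    induction hw with
    | refl =>
      exact ⟨bdy_bulk_ball_mono z (by omega) ho, fun _ => ⟨bdy_bulk_ball_mono z hrL ho, tsc_R_refl o⟩⟩
    | @tail u w _ hst ih =>
      obtain ⟨hadj, hP, -, -⟩ := hst
      have hu : h u ≤ k := by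
        have : h u < k + 1 := hP
        omega
      obtain ⟨huL, hou⟩ := ih.2 hu
      have hw1 : w ∈ latBall z (L + 1) := bdy_bulk_ball_adj huL hadj
      refine ⟨hw1, fun hwk => ?_⟩
      have how : TscR tscG {u | h u ≤ k ∧ u ∈ latBall z (L + 1)} o w :=
        tsc_R_trans hou (tsc_R_step hadj ⟨hu, ih.1⟩ ⟨hwk, hw1⟩)
      refine ⟨?_, how⟩
      by_contra hwL
      exact hb o w ho hwL how
  exact key.1

/-- **from local to global walks**: no walk of sites of height `≤ k` whatsoever leaves `latBall z L` from `latBall z r` -/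
theorem bdy_bulk_blk_glob {k : ℤ} {z : TV} {r L : ℕ} (hrL : r ≤ L) {h : TV → ℤ} (hb : BdyNoLo k z r L h) {a b : TV}
    (ha : a ∈ latBall z r) (hb' : b ∉ latBall z L) : ¬ TscR tscG {u | h u ≤ k} a b := by
  intro hw
  have key : ∀ w : TV, TscR tscG {u | h u ≤ k} a w → w ∈ latBall z L ∧ TscR tscG {u | h u ≤ k ∧ u ∈ latBall z (L + 1)} a w := by
    intro w hw'
    induction hw' with
    | refl => exact ⟨bdy_bulk_ball_mono z hrL ha, tsc_R_refl a⟩
    | @tail u w _ hst ih =>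
      obtain ⟨hadj, hu, hwk⟩ := hst
      have hw1 : w ∈ latBall z (L + 1) := bdy_bulk_ball_adj ih.1 hadj
      have how : TscR tscG {u | h u ≤ k ∧ u ∈ latBall z (L + 1)} a w :=
        tsc_R_trans ih.2 (tsc_R_step hadj ⟨hu, bdy_bulk_ball_mono z (Nat.le_succ L) ih.1⟩ ⟨hwk, hw1⟩)
      refine ⟨?_, how⟩
      by_contra hwL
      exact hb a w ha hwL how
  exact hb' (key b hw).1

/-! ## 2. one pair on a connected set with constant first spin -/

/-- a 1-Lipschitz height with constant first Gray spin on a connected set takes its values in one pair `{2j, 2j+1}` -/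
theorem bdy_bulk_pair {S : Set TV} {h : TV → ℤ} (hS : TscConn tscG S) (hlip : ∀ u ∈ S, ∀ v ∈ S, triAdj u v → |h v - h u| ≤ 1)
    (hB : ∀ u ∈ S, ∀ v ∈ S, (momB (h u) ↔ momB (h v))) : ∀ u ∈ S, ∀ v ∈ S, h u / 2 = h v / 2 := by
  intro u hu v hv
  refine tsc_R_const (G := tscG) (s := S) (fun w => h w / 2) ?_ (hS u hu v hv)
  rintro a b ⟨hab, ha, hb⟩
  have h1 := abs_le.1 (hlip a ha b hb hab)
  have h2 := hB a ha b hb
  unfold momB at h2
  show h a / 2 = h b / 2
  omega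

/-- **the key deterministic step** -/
theorem bdy_bulk_key {F : Finset TV} {z : TV} {ρ R L : ℕ} (hRL : R ≤ L) {h h' : TV → ℤ} (hF : latBall z R ⊆ F) (hh : HtAdm F 0 h)
    {k : ℤ} (hk : 4 ≤ k) (h4 : ∀ u ∈ latBall z R, h' u = h u + k) (hc : MomCirc z ρ R h) :
    BdyNoLo 0 z ρ L h' ∨ BdyNoLo 0 z ρ L (fun u => - h u) := by
  by_contra hcon
  rw [not_or] at hcon
  obtain ⟨hc1, hc2⟩ := hcon
  unfold BdyNoLo at hc1 hc2
  push Not at hc1 hc2
  obtain ⟨a, b, ha, hb, hw⟩ := hc1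
  obtain ⟨a', b', ha', hb', hw'⟩ := hc2
  obtain ⟨S, hSann, hSc, hSB, hSblk⟩ := hc
  have hbR : b ∉ latBall z R := fun hm => hb (bdy_bulk_ball_mono z hRL hm)
  have hbR' : b' ∉ latBall z R := fun hm => hb' (bdy_bulk_ball_mono z hRL hm)
  obtain ⟨u, hu1, hu2⟩ := hSblk _ a b ha hbR hw
  obtain ⟨v, hv1, hv2⟩ := hSblk _ a' b' ha' hbR' hw'
  have hlip : ∀ u ∈ S, ∀ v ∈ S, triAdj u v → |h v - h u| ≤ 1 := by
    intro p hp q _ hpq
    have := hh.2 p (hF (hSann p hp).1) (q - p) ((lat_adj_iff p q).1 hpq)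
    rwa [add_sub_cancel] at this
  have hpair := bdy_bulk_pair hSc hlip hSB u hu2 v hv2
  have e1 : h' u = h u + k := h4 u (hSann u hu2).1
  have e2 : h' u ≤ 0 := hu1.1
  have e3 : - h v ≤ 0 := hv1.1
  omega

/-! ## 3. the counting argument -/

/-- abstract counting: a symmetric sub-stochastic kernel carried by pairs on which `φ a + φ b ≥ 1` -/
theorem bdy_bulk_count {α : Type*} (s : Finset α) (w φ : α → ℝ) (M : α → α → ℝ) (hM0 : ∀ a b, 0 ≤ M a b) (hMs : ∀ a b, M a b = M b a)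
    (hsub : ∀ a ∈ s, ∑ b ∈ s, M a b ≤ w a) (hφ0 : ∀ a, 0 ≤ φ a) (hφ : ∀ a ∈ s, ∀ b ∈ s, M a b ≠ 0 → 1 ≤ φ a + φ b) :
    ∑ a ∈ s, ∑ b ∈ s, M a b ≤ 2 * ∑ a ∈ s, w a * φ a := by
  have h1 : ∀ a ∈ s, ∀ b ∈ s, M a b ≤ M a b * φ a + M b a * φ b := by
    intro a ha b hb
    by_cases h0 : M a b = 0
    · rw [← hMs a b, h0]; simp
    · have := hφ a ha b hb h0
      rw [← hMs a b]
      nlinarith [hM0 a b]
  calc ∑ a ∈ s, ∑ b ∈ s, M a b ≤ ∑ a ∈ s, ∑ b ∈ s, (M a b * φ a + M b a * φ b) :=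
        Finset.sum_le_sum fun a ha => Finset.sum_le_sum fun b hb => h1 a ha b hb
    _ = ∑ a ∈ s, ∑ b ∈ s, M a b * φ a + ∑ a ∈ s, ∑ b ∈ s, M b a * φ b := by
        simp_rw [Finset.sum_add_distrib]
    _ = 2 * ∑ a ∈ s, ∑ b ∈ s, M a b * φ a := by
        rw [Finset.sum_comm (f := fun a b => M b a * φ b)]; ring
    _ ≤ 2 * ∑ a ∈ s, w a * φ a := by
        refine mul_le_mul_of_nonneg_left (Finset.sum_le_sum fun a ha => ?_) (by norm_num)
        rw [← Finset.sum_mul]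
        exact mul_le_mul_of_nonneg_right (hsub a ha) (hφ0 a)

/-- a ratio which makes the stack bound small -/
theorem bdy_bulk_lam {C α ε : ℝ} (hα : 0 < α) (hε : 0 < ε) : ∃ lam : ℕ, 1 ≤ lam ∧ C * (1 / (lam : ℝ)) ^ α ≤ ε := by
  have h1 : Filter.Tendsto (fun n : ℕ => C * (1 / (n : ℝ)) ^ α) Filter.atTop (nhds (C * (0 : ℝ) ^ α)) :=
    ((Real.continuousAt_rpow_const 0 α (Or.inr hα.le)).tendsto.comp tendsto_one_div_atTop_nhds_zero_nat).const_mul C
  rw [Real.zero_rpow hα.ne', mul_zero] at h1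
  obtain ⟨n, hn⟩ := ((h1.eventually (gt_mem_nhds hε)).and (Filter.eventually_ge_atTop 1)).exists
  exact ⟨n, hn.2, hn.1.le⟩

/-- **(P0) for the flat boundary `0`**: with probability `≥ c0` no walk of sites of height `≤ 0` crosses the annulus -/
theorem bdy_bulk_flat (x : ℝ) (hx1 : 1 / Real.sqrt 2 ≤ x) (hx2 : x ≤ 1) :
    ∃ (c0 : ℝ) (lam K1 n0 : ℕ), 0 < c0 ∧ 1 ≤ lam ∧ 1 ≤ n0 ∧ ∀ (F : Finset TV) (z : TV) (ρ : ℕ), MomCo F → n0 ≤ ρ →
      latBall z (K1 * (lam * ρ)) ⊆ F → c0 ≤ htP x F 0 (BdyNoLo 0 z ρ (3 * (lam * ρ))) := by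
  classical
  have hx0 : 0 < x := lt_of_lt_of_le (by positivity) hx1
  obtain ⟨c2, R0, C0, _, hc2, hsw⟩ := exit_dis_switch x hx1 hx2
  obtain ⟨C, α, -, hα, hst⟩ := exit_dis_stack x hx1 hx2
  obtain ⟨lam, hlam, hlamC⟩ := bdy_bulk_lam (C := C) hα (show 0 < c2 / 4 by positivity)
  refine ⟨c2 / 8, lam, max C0 1, max 1 R0, by positivity, hlam, le_max_left _ _, ?_⟩
  intro F z ρ hF hρ hsub
  set R := lam * ρ with hR
  have hρ1 : 1 ≤ ρ := (le_max_left _ _).trans hρ
  have hρR : ρ ≤ R := Nat.le_mul_of_pos_left ρ hlam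
  have hR0 : R0 ≤ R := ((le_max_right _ _).trans hρ).trans hρR
  have hFC : latBall z (C0 * R) ⊆ F := (bdy_bulk_ball_mono z (Nat.mul_le_mul_right R (le_max_left _ _))).trans hsub
  have hFR : latBall z R ⊆ F :=
    (bdy_bulk_ball_mono z (by calc R = 1 * R := (one_mul R).symm
      _ ≤ max C0 1 * R := Nat.mul_le_mul_right R (le_max_right _ _))).trans hsub
  obtain ⟨M, hM0, hMs, hMsub, hMc, hMtot⟩ := hsw F z R hF hR0 hFC
  -- the three indicators
  set i1 : (TV → ℤ) → ℝ := fun h => if ¬ MomCirc z ρ R h then 1 else 0 with hi1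
  set i2 : (TV → ℤ) → ℝ := fun h => if BdyNoLo 0 z ρ (3 * R) h then 1 else 0 with hi2
  set i3 : (TV → ℤ) → ℝ := fun h => i2 (fun u => - h u) with hi3
  have n1 : ∀ h, 0 ≤ i1 h := fun h => by simp only [hi1]; split_ifs <;> norm_num
  have n2 : ∀ h, 0 ≤ i2 h := fun h => by simp only [hi2]; split_ifs <;> norm_num
  have n3 : ∀ h, 0 ≤ i3 h := fun h => n2 _
  have p1 : htE x F 0 i1 ≤ c2 / 4 := by
    have h1 := hst F 0 z ρ R hF hρ1 hρR hFR
    have e : ((ρ : ℝ) / ((R : ℕ) : ℝ)) = 1 / (lam : ℝ) := by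
      rw [hR]
      push_cast
      have : (ρ : ℝ) ≠ 0 := by positivity
      field_simp
    rw [e] at h1
    have e1 : htE x F 0 i1 = htP x F (fun _ => 0) (fun h => ¬ MomCirc z ρ R h) := by
      unfold htP
      refine ht_E_congr x F _ (fun H _ => ?_)
      simp only [hi1]
      by_cases hc : MomCirc z ρ R H <;> simp [hc]
    rw [e1]
    exact h1.trans hlamC
  have p3 : htE x F 0 i3 = htE x F 0 i2 := by
    have := hto_neg x F 0 i2
    have e0 : (fun u => - (0 : TV → ℤ) u) = 0 := by funext u; simp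
    rw [e0] at this
    exact this.symm
  have half : ∀ (g g' : TV → ℤ) (k : ℤ), 4 ≤ k → HtAdm F 0 g → (∀ u ∈ latBall z R, g' u = g u + k) →
      1 ≤ (i1 g + i2 g + i3 g) + (i1 g' + i2 g' + i3 g') := by
    intro g g' k hk hg h4
    by_cases hc : MomCirc z ρ R g
    · rcases bdy_bulk_key (L := 3 * R) (by omega) hFR hg hk h4 hc with hb | hb
      · have : i2 g' = 1 := by simp only [hi2]; rw [if_pos hb]
        linarith [n1 g, n2 g, n3 g, n1 g', n3 g']
      · have : i3 g = 1 := by simp only [hi3, hi2]; rw [if_pos hb]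
        linarith [n1 g, n2 g, n1 g', n2 g', n3 g']
    · have : i1 g = 1 := by simp only [hi1]; rw [if_pos hc]
      linarith [n2 g, n3 g, n1 g', n2 g', n3 g']
  have hcount := bdy_bulk_count (htCfg F 0) (htWt x F) (fun h => i1 h + i2 h + i3 h) M hM0 hMs hMsub
    (fun h => by linarith [n1 h, n2 h, n3 h]) (by
      intro g hg g' hg' hne
      obtain ⟨k, hk8, h4⟩ := (hMc g g' hne).2
      rcases (show 4 ≤ k ∨ 4 ≤ -k by omega) with hk | hk
      · exact half g g' k hk (ht_mem_cfg.1 hg) h4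
      · have := half g' g (-k) hk (ht_mem_cfg.1 hg') (fun u hu => by rw [h4 u hu]; ring)
        linarith)
  have hZ : 0 < htZ x F 0 := ht_Z_pos_zero hx0 F
  have hE : htE x F 0 (fun h => i1 h + i2 h + i3 h) * htZ x F 0 = ∑ h ∈ htCfg F 0, htWt x F h * (i1 h + i2 h + i3 h) :=
    ht_E_mul_Z hx0 (ht_adm_zero F) _
  rw [← hE, ht_E_add, ht_E_add, p3] at hcount
  have h5 : c2 * htZ x F 0 ≤ 2 * ((htE x F 0 i1 + htE x F 0 i2 + htE x F 0 i2) * htZ x F 0) := hMtot.trans hcount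
  have h6 : c2 ≤ 2 * (htE x F 0 i1 + htE x F 0 i2 + htE x F 0 i2) := by
    have : c2 * htZ x F 0 ≤ (2 * (htE x F 0 i1 + htE x F 0 i2 + htE x F 0 i2)) * htZ x F 0 := by linarith
    exact le_of_mul_le_mul_right this hZ
  have h7 : htP x F 0 (BdyNoLo 0 z ρ (3 * R)) = htE x F 0 i2 := rfl
  rw [h7]
  linarith

/-! ## 4. the bulk primitive -/

theorem bdy_bulk_ind_mono {K : (TV → ℤ) → Prop} [DecidablePred K] (hK : ∀ h h' : TV → ℤ, (∀ u, h u ≤ h' u) → K h → K h') :
    HtMono (fun h => if K h then (1 : ℝ) else 0) := by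
  intro h h' hh
  show (if K h then (1 : ℝ) else 0) ≤ (if K h' then (1 : ℝ) else 0)
  by_cases h1 : K h
  · rw [if_pos h1, if_pos (hK h h' hh h1)]
  · rw [if_neg h1]
    split_ifs <;> norm_num

/-- `htP` with any decidability instance -/
theorem bdy_bulk_P_eq (x : ℝ) (A : Finset TV) (b : TV → ℤ) (K : (TV → ℤ) → Prop) [DecidablePred K] :
    htP x A b K = htE x A b (fun h => if K h then (1 : ℝ) else 0) := by
  unfold htP
  refine ht_E_congr x A b (fun H _ => ?_)
  by_cases h : K H <;> simp [h]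

/-- the statement (P0) with its constants: boundary values `≥ -1` on a hole-free free set which contains `latBall z (K0 ρ)`:
with probability `≥ c0` the invasion of `latBall z ρ` through the negative sites stays in `latBall z (K0 ρ)` (its rim is a blocking set of sites of height `≥ 0`) -/
def BdyP0 (x c0 : ℝ) (K0 n0 : ℕ) : Prop :=
  ∀ (M U : Finset TV) (η : TV → ℤ) (z : TV) (ρ : ℕ), MomCo M → n0 ≤ ρ → latBall z (K0 * ρ) ⊆ M → (∃ h, HtAdm M η h) →
    (∀ u ∈ latOut M, -1 ≤ η u) → c0 ≤ htP x M η (fun h => bdyLo U 0 (latBall z ρ) h ⊆ latBall z (K0 * ρ))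

theorem bdy_bulk_eqns_cite2 : True := by
  have := @BdyP0.eq_1
  trivial

/-- **(P0) THE BULK PRIMITIVE**      TEX[lem:bulk-tubes] (first half), R4 of helper173, one step -/
theorem bdy_bulk (x : ℝ) (hx1 : 1 / Real.sqrt 2 ≤ x) (hx2 : x ≤ 1) :
    ∃ (c0 : ℝ) (K0 n0 : ℕ), 0 < c0 ∧ 1 ≤ K0 ∧ 1 ≤ n0 ∧ BdyP0 x c0 K0 n0 := by
  classical
  have hx0 : 0 < x := lt_of_lt_of_le (by positivity) hx1
  obtain ⟨c0, lam, K1, n0, hc0, hlam, hn0, hflat⟩ := bdy_bulk_flat x hx1 hx2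
  refine ⟨c0, (max K1 3 + 1) * lam, n0, hc0, Nat.mul_pos (Nat.succ_pos _) hlam, hn0, ?_⟩
  intro M U η z ρ hM hρ hsub hne hη
  set L := 3 * (lam * ρ) with hL
  have hρ1 : 1 ≤ ρ := hn0.trans hρ
  have hlr : 1 ≤ lam * ρ := Nat.mul_pos hlam hρ1
  have hK : (max K1 3 + 1) * lam * ρ = max K1 3 * (lam * ρ) + lam * ρ := by ring
  have hK1 : K1 * (lam * ρ) ≤ (max K1 3 + 1) * lam * ρ := by
    rw [hK]
    exact (Nat.mul_le_mul_right _ (le_max_left _ _)).trans (Nat.le_add_right _ _)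
  have hL1 : L + 1 ≤ (max K1 3 + 1) * lam * ρ := by
    rw [hK, hL]
    exact Nat.add_le_add (Nat.mul_le_mul_right _ (le_max_right _ _)) hlr
  have hρL : ρ ≤ L := by
    have : ρ ≤ lam * ρ := Nat.le_mul_of_pos_left ρ hlam
    omega
  -- flat 0
  have s1 : c0 ≤ htP x M 0 (BdyNoLo 0 z ρ L) := hflat M z ρ hM hρ ((bdy_bulk_ball_mono z hK1).trans hsub)
  -- shift
  have s2 : htP x M 0 (BdyNoLo 0 z ρ L) = htP x M (fun _ => -1) (BdyNoLo (-1) z ρ L) := by
    unfold htP
    have := hto_shift x M 0 (-1) (fun h => if BdyNoLo (-1) z ρ L h then (1 : ℝ) else 0)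
    have e0 : (fun u => (0 : TV → ℤ) u + (-1)) = fun _ => (-1 : ℤ) := by funext u; simp
    rw [e0] at this
    rw [this]
    refine ht_E_congr x M 0 (fun H _ => ?_)
    have e1 := bdy_bulk_blk_shift 0 (-1) z ρ L H
    rw [zero_add] at e1
    simp only [e1]
  -- order in the trace
  have s3 : htP x M (fun _ => -1) (BdyNoLo (-1) z ρ L) ≤ htP x M η (BdyNoLo (-1) z ρ L) := by
    unfold htP
    refine bdy_order hx0 hx2 M (b₁ := fun _ => -1) (b₂ := η) hη ⟨_, bdy_adm_flat M (-1)⟩ hne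
      (bdy_bulk_ind_mono fun h h' hh hb => bdy_bulk_blk_mono hh hb) ?_
    intro h h' hh
    have : BdyNoLo (-1) z ρ L h ↔ BdyNoLo (-1) z ρ L h' :=
      bdy_bulk_blk_loc fun u hu => hh u (lat_mem_cl.2 (Or.inl (hsub (bdy_bulk_ball_mono z hL1 hu))))
    simp only [this]
  -- invasions
  have s4 : htP x M η (BdyNoLo (-1) z ρ L) ≤ htP x M η (fun h => bdyLo U 0 (latBall z ρ) h ⊆ latBall z ((max K1 3 + 1) * lam * ρ)) := by
    refine ht_P_mono hx0 M η (fun H _ hb => ?_)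
    have := bdy_bulk_blk_inv hρL hb U
    rw [show (-1 : ℤ) + 1 = 0 by norm_num] at this
    exact this.trans (bdy_bulk_ball_mono z hL1)
  linarith

/-- **`exit_bdy_bulk`** (contract of helper128, `Exit/BdyBulk.lean`), verbatim -/
theorem bdy_bulk_exit (x : ℝ) (hx1 : 1 / Real.sqrt 2 ≤ x) (hx2 : x ≤ 1) :
    ∃ (c0 : ℝ) (κ ρ0 : ℕ), 0 < c0 ∧ ∀ (M : Finset TV) (z : TV) (ρ : ℕ),
      MomCo M → ρ0 ≤ ρ → latBall z (κ * ρ) ⊆ M →
      c0 ≤ htP x M (fun _ => -1) (fun h => ¬ BdyLoX M (-1) (latBall z ρ : Set TV) ((latBall z (κ * ρ) : Set TV)ᶜ) h) := by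
  classical
  have hx0 : 0 < x := lt_of_lt_of_le (by positivity) hx1
  obtain ⟨c0, lam, K1, n0, hc0, hlam, hn0, hflat⟩ := bdy_bulk_flat x hx1 hx2
  refine ⟨c0, (max K1 3 + 1) * lam, n0, hc0, ?_⟩
  intro M z ρ hM hρ hsub
  set L := 3 * (lam * ρ) with hL
  have hρ1 : 1 ≤ ρ := hn0.trans hρ
  have hlr : 1 ≤ lam * ρ := Nat.mul_pos hlam hρ1
  have hK : (max K1 3 + 1) * lam * ρ = max K1 3 * (lam * ρ) + lam * ρ := by ring
  have hK1 : K1 * (lam * ρ) ≤ (max K1 3 + 1) * lam * ρ := by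
    rw [hK]
    exact (Nat.mul_le_mul_right _ (le_max_left _ _)).trans (Nat.le_add_right _ _)
  have hL1 : L + 1 ≤ (max K1 3 + 1) * lam * ρ := by
    rw [hK, hL]
    exact Nat.add_le_add (Nat.mul_le_mul_right _ (le_max_right _ _)) hlr
  have hρL : ρ ≤ L := by
    have : ρ ≤ lam * ρ := Nat.le_mul_of_pos_left ρ hlam
    omega
  have s1 : c0 ≤ htP x M 0 (BdyNoLo 0 z ρ L) := hflat M z ρ hM hρ ((bdy_bulk_ball_mono z hK1).trans hsub)
  have s2 : htP x M 0 (BdyNoLo 0 z ρ L) = htP x M (fun _ => -1) (BdyNoLo (-1) z ρ L) := by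
    unfold htP
    have := hto_shift x M 0 (-1) (fun h => if BdyNoLo (-1) z ρ L h then (1 : ℝ) else 0)
    have e0 : (fun u => (0 : TV → ℤ) u + (-1)) = fun _ => (-1 : ℤ) := by funext u; simp
    rw [e0] at this
    rw [this]
    refine ht_E_congr x M 0 (fun H _ => ?_)
    have e1 := bdy_bulk_blk_shift 0 (-1) z ρ L H
    rw [zero_add] at e1
    simp only [e1]
  have s3 : htP x M (fun _ => -1) (BdyNoLo (-1) z ρ L)
      ≤ htP x M (fun _ => -1) (fun h => ¬ BdyLoX M (-1) (latBall z ρ : Set TV) ((latBall z ((max K1 3 + 1) * lam * ρ) : Set TV)ᶜ) h) := by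
    refine ht_P_mono hx0 M _ (fun H _ hb => ?_)
    rintro ⟨a, ha, b, hb', -, -, hw⟩
    refine bdy_bulk_blk_glob hρL hb (Finset.mem_coe.1 ha) (fun hm => hb' ?_)
      (tsc_R_mono (s := {u | u ∈ M ∧ H u ≤ -1}) (t := {u | H u ≤ -1}) (fun u hu => hu.2) hw)
    exact Finset.mem_coe.2 (bdy_bulk_ball_mono z (by omega) hm)
  linarith

/-! ## 5. association for finitely many increasing events; the probability of a tube -/

/-- association for finitely many increasing events -/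
theorem bdy_fkg_all {x : ℝ} (hx0 : 0 < x) (hx1 : x ≤ 1) (A : Finset TV) (b : TV → ℤ) (hne : ∃ h, HtAdm A b h) {ι : Type*} (s : Finset ι)
    (K : ι → (TV → ℤ) → Prop) (hK : ∀ i ∈ s, ∀ h h' : TV → ℤ, (∀ u, h u ≤ h' u) → K i h → K i h') :
    ∏ i ∈ s, htP x A b (K i) ≤ htP x A b (fun h => ∀ i ∈ s, K i h) := by
  classical
  obtain ⟨g, hg⟩ := hne
  induction s using Finset.induction_on with
  | empty =>
    rw [Finset.prod_empty, ht_P_true hx0 hg (fun H _ i hi => absurd hi (Finset.notMem_empty i))]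
  | insert a s ha ih =>
    rw [Finset.prod_insert ha]
    have ih' := ih (fun i hi => hK i (Finset.mem_insert_of_mem hi))
    have hfkg := hto_fkg hx0 hx1 A b ⟨g, hg⟩
      (F := fun h => if K a h then (1 : ℝ) else 0) (G := fun h => if (∀ i ∈ s, K i h) then (1 : ℝ) else 0)
      (bdy_bulk_ind_mono (hK a (Finset.mem_insert_self a s)))
      (bdy_bulk_ind_mono fun h h' hh hall i hi => hK i (Finset.mem_insert_of_mem hi) h h' hh (hall i hi))
    calc htP x A b (K a) * ∏ i ∈ s, htP x A b (K i) ≤ htP x A b (K a) * htP x A b (fun h => ∀ i ∈ s, K i h) :=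
          mul_le_mul_of_nonneg_left ih' (ht_P_nonneg hx0 A b _)
      _ ≤ htE x A b (fun h => (if K a h then (1 : ℝ) else 0) * if (∀ i ∈ s, K i h) then (1 : ℝ) else 0) := by
          rw [bdy_bulk_P_eq x A b (K a), bdy_bulk_P_eq x A b (fun h => ∀ i ∈ s, K i h)]
          exact hfkg
      _ = htP x A b (fun h => ∀ i ∈ insert a s, K i h) := by
          unfold htP
          refine ht_E_congr x A b (fun H _ => ?_)
          by_cases h1 : K a H <;> by_cases h2 : ∀ i ∈ s, K i H <;> simp [h1, h2]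

/-- **the probability of a tube**: all the (P0) events at the centres `T` -/
theorem bdy_tube_prob {x c0 : ℝ} {K0 n0 : ℕ} (hx0 : 0 < x) (hx2 : x ≤ 1) (hc0 : 0 ≤ c0) (hP : BdyP0 x c0 K0 n0) (M U : Finset TV) (η : TV → ℤ)
    (ρ : ℕ) (hM : MomCo M) (hρ : n0 ≤ ρ) (hne : ∃ h, HtAdm M η h) (hη : ∀ u ∈ latOut M, -1 ≤ η u) (T : Finset TV)
    (hT : ∀ c ∈ T, latBall c (K0 * ρ) ⊆ M) :
    c0 ^ T.card ≤ htP x M η (fun h => ∀ c ∈ T, bdyLo U 0 (latBall c ρ) h ⊆ latBall c (K0 * ρ)) := by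
  refine le_trans ?_ (bdy_fkg_all hx0 hx2 M η hne T (fun c h => bdyLo U 0 (latBall c ρ) h ⊆ latBall c (K0 * ρ))
    (fun c _ h h' hh hsub => (bdy_lo_anti hh).trans hsub))
  rw [← Finset.prod_const]
  exact Finset.prod_le_prod (fun _ _ => hc0) (fun c hc => hP M U η c ρ hM hρ (hT c hc) hne hη)

/-! ## 6. the geometry of a tube (deterministic) -/

/-- the invasion of a union of seeds is the union of the invasions -/
theorem bdy_tube_union (U : Finset TV) (P : TV → Prop) {ι : Type*} [DecidableEq ι] (T : Finset ι) (O : ι → Finset TV) :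
    bdyInv U P (T.biUnion O) = T.biUnion fun c => bdyInv U P (O c) := by
  ext v
  simp only [bdy_mem_inv, Finset.mem_biUnion]
  constructor
  · rintro ⟨hv, o, ⟨c, hc, ho⟩, hw⟩
    exact ⟨c, hc, hv, o, ho, hw⟩
  · rintro ⟨c, hc, hv, o, ho, hw⟩
    exact ⟨hv, o, ⟨c, hc, ho⟩, hw⟩

/-- the invasion of a connected seed is connected -/
theorem bdy_tube_conn {U O : Finset TV} {P : TV → Prop} (hO : TscConn tscG (↑O : Set TV)) (hOU : O ⊆ U) :
    TscConn tscG (↑(bdyInv U P O) : Set TV) := by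
  have hsub : (↑O : Set TV) ⊆ ↑(bdyInv U P O) := fun o ho => bdy_inv_seed ho (hOU ho)
  have hj : ∀ v ∈ bdyInv U P O, ∃ o ∈ O, TscR tscG (↑(bdyInv U P O) : Set TV) o v := by
    intro v hv
    obtain ⟨o, ho, -, hw⟩ := bdy_inv_conn hv
    exact ⟨o, ho, hw⟩
  intro u hu v hv
  obtain ⟨o, ho, hou⟩ := hj u hu
  obtain ⟨o', ho', hov⟩ := hj v hv
  exact tsc_R_trans (tsc_R_symm hou) (tsc_R_trans (tsc_R_mono hsub (hO o ho o' ho')) hov)

/-- the layer of `J` seen from the component of `x` in `U \ J` -/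
def bdyLay (U J : Finset TV) (x : TV) : Set TV :=
  {c | c ∈ (↑J : Set TV) ∧ ∃ d ∈ tscComp tscG ((↑U : Set TV) \ ↑J) x, tscG.Adj d c}

theorem bdy_bulk_eqns_cite3 : True := by
  have := @bdyLay.eq_1
  trivial

/-- every walk inside `U` from the component of `x` to `J` visits the layer -/
theorem bdy_tube_meets {U J : Finset TV} {x b c : TV} (hb : b ∈ tscComp tscG ((↑U : Set TV) \ ↑J) x) (hc : c ∈ J) {Q : Set TV}
    (hQ : Q ⊆ ↑U) (hw : TscR tscG Q b c) : (Q ∩ bdyLay U J x).Nonempty := by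
  have key : ∀ c' : TV, TscR tscG Q b c' → c' ∈ tscComp tscG ((↑U : Set TV) \ ↑J) x ∨ (Q ∩ bdyLay U J x).Nonempty := by
    intro c' hw'
    induction hw' with
    | refl => exact Or.inl hb
    | @tail u w _ hst ih =>
      rcases ih with hu | hne
      · obtain ⟨hadj, -, hwQ⟩ := hst
        by_cases hwJ : w ∈ J
        · exact Or.inr ⟨w, hwQ, hwJ, u, hu, hadj⟩
        · exact Or.inl (tsc_comp_adj hu ⟨hQ hwQ, hwJ⟩ hadj)
      · exact Or.inr hne
  rcases key c hw with h1 | h1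
  · exact absurd hc (tsc_comp_sub x h1).2
  · exact h1

/-- **THE TUBE LEMMA** (deterministic)      TEX[lem:bulk-tubes] (second half), R6 of helper173.
`T` = centres, tube core `∪ latBall c ρ` connected, inside the universe `U` whose triangles generate the cycles.   `J` = invasion of the core through the sites of height `< k`. -/
theorem bdy_tube_geo {U : Finset TV} (hU : TriSCOn (ZMod 2) tscG (↑U : Set TV)) (k : ℤ) (T : Finset TV) (ρ : ℕ) (h : TV → ℤ)
    (hcore : TscConn tscG (↑(T.biUnion fun c => latBall c ρ) : Set TV)) (hcU : (T.biUnion fun c => latBall c ρ) ⊆ U) :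
    bdyLo U k (T.biUnion fun c => latBall c ρ) h = (T.biUnion fun c => bdyLo U k (latBall c ρ) h) ∧
    TscConn tscG (↑(bdyLo U k (T.biUnion fun c => latBall c ρ) h) : Set TV) ∧
    ∀ x : TV, TscConn tscG (bdyLay U (bdyLo U k (T.biUnion fun c => latBall c ρ) h) x) ∧
      (∀ c ∈ bdyLay U (bdyLo U k (T.biUnion fun c => latBall c ρ) h) x, k ≤ h c) ∧
      ∀ (Q : Set TV) (b c : TV), Q ⊆ ↑U → b ∈ tscComp tscG ((↑U : Set TV) \ ↑(bdyLo U k (T.biUnion fun c => latBall c ρ) h)) x →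
        c ∈ bdyLo U k (T.biUnion fun c => latBall c ρ) h → TscR tscG Q b c →
        (Q ∩ bdyLay U (bdyLo U k (T.biUnion fun c => latBall c ρ) h) x).Nonempty := by
  have hJc : TscConn tscG (↑(bdyLo U k (T.biUnion fun c => latBall c ρ) h) : Set TV) := bdy_tube_conn hcore hcU
  refine ⟨bdy_tube_union U _ T _, hJc, fun x => ⟨?_, ?_, ?_⟩⟩
  · exact tsc_timar_in hU (fun v hv => bdy_inv_sub _ _ _ hv) hJc x
  · rintro c ⟨hc, d, hd, hadj⟩
    exact bdy_lo_rim hc (tsc_comp_sub x hd).1 (tsc_comp_sub x hd).2 (lat_adj_symm hadj)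
  · intro Q b c hQ hb hc hw
    exact bdy_tube_meets hb hc hQ hw

end Claimed.Agent.R291
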