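/-
# Row 291 (S0539), unit BDY, file Bdy/Flip.lean            OWNER: helper176

TEX[prop:bracket-collapse], TEX[prop:boundary-moments] (06-boundary.tex l.683-853): the probabilistic core.

The paper selects an extremal level-zero arch, uses the Gibbs property of the retained components and
height comparison.  All of this is replaced by ONE bijection: flip the sign of the NEGATIVE CLUSTER
`K_u(h)` (the `adj`-component of `u` in `{h ≤ -1}`).  Its outer boundary is at height `0`, so the flip keeps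
every `|h a - h b|`, it is injective, it fixes `h` on every set which `K_u(h)` misses and it can only
destroy negative paths.  Consequence (`bdy_flip_ge`): if `U ≥ 0` reads `h` on `A` only and `w ≥ 0` lives on `T`,
`∑ wt * U * Y * 1{no negative path from T to A} ≥ 0`.

Part 1: any graph `(V, adj)`, any finite family `Om` of heights with a weight `wt` stable under the flips.
Part 2: the height laws with boundary values of `Defs/Ht` (`htE x Λ b`; the frozen law is `Λ = latInt F`, `b = 0`):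
`bdy_ht_lower`, `bdy_ht_upper`, `bdy_ht_abs` (zero boundary values, signed spectator), `bdy_ht_mean_nonneg`.
-/
import Claimed.Agent.R291.Defs.Bdy

set_option autoImplicit false
set_option linter.unusedSectionVars false
set_option linter.unusedVariables false
set_option linter.unnecessarySeqFocus false

namespace Claimed.Agent.R291

open Finset Claims Claims.C0467

section Abstract

variable {V : Type*}

theorem bdy_conn_refl {adj : V → V → Prop} {p : V → Prop} {u : V} (hu : p u) : bdyConn adj p u u :=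
  ⟨hu, Relation.ReflTransGen.refl⟩

theorem bdy_conn_right {adj : V → V → Prop} {p : V → Prop} {u v : V} (h : bdyConn adj p u v) : p v := by
  obtain ⟨hu, hr⟩ := h
  cases hr with
  | refl => exact hu
  | tail _ hab => exact hab.2

theorem bdy_conn_step {adj : V → V → Prop} {p : V → Prop} {u a b : V} (h : bdyConn adj p u a)
    (hab : adj a b) (hb : p b) : bdyConn adj p u b :=
  ⟨h.1, h.2.tail ⟨hab, hb⟩⟩

theorem bdy_conn_mono {adj : V → V → Prop} {p q : V → Prop} (hpq : ∀ a, p a → q a) {u v : V}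
    (h : bdyConn adj p u v) : bdyConn adj q u v := by
  obtain ⟨hu, hr⟩ := h
  induction hr with
  | refl => exact bdy_conn_refl (hpq _ hu)
  | tail _ hab ih => exact bdy_conn_step ih hab.1 (hpq _ hab.2)

theorem bdy_conn_adj_mono {adj adj' : V → V → Prop} {p : V → Prop} (hadj : ∀ a b, adj a b → adj' a b)
    {u v : V} (h : bdyConn adj p u v) : bdyConn adj' p u v := by
  obtain ⟨hu, hr⟩ := h
  induction hr with
  | refl => exact bdy_conn_refl hu
  | tail _ hab ih => exact bdy_conn_step ih (hadj _ _ hab.1) hab.2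

/-- induction along a cluster. -/
theorem bdy_conn_induction {adj : V → V → Prop} {p : V → Prop} {u : V} {P : V → Prop} (h0 : P u)
    (hs : ∀ a b, bdyConn adj p u a → P a → adj a b → p b → P b) {v : V} (h : bdyConn adj p u v) : P v := by
  obtain ⟨hu, hr⟩ := h
  have key : bdyConn adj p u v ∧ P v := by
    induction hr with
    | refl => exact ⟨bdy_conn_refl hu, h0⟩
    | tail _ hab ih => exact ⟨bdy_conn_step ih.1 hab.1 hab.2, hs _ _ ih.1 ih.2 hab.1 hab.2⟩
  exact key.2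

theorem bdy_flip_in {adj : V → V → Prop} {h : V → ℤ} {u v : V}
    (hv : bdyConn adj (fun a => h a ≤ -1) u v) : bdyFlip adj h u v = - h v := by
  simp [bdyFlip, hv]

theorem bdy_flip_out {adj : V → V → Prop} {h : V → ℤ} {u v : V}
    (hv : ¬ bdyConn adj (fun a => h a ≤ -1) u v) : bdyFlip adj h u v = h v := by
  simp [bdyFlip, hv]

theorem bdy_flip_abs (adj : V → V → Prop) (h : V → ℤ) (u v : V) : |bdyFlip adj h u v| = |h v| := by
  by_cases hv : bdyConn adj (fun a => h a ≤ -1) u v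
  · rw [bdy_flip_in hv, abs_neg]
  · rw [bdy_flip_out hv]

theorem bdy_flip_ge (adj : V → V → Prop) (h : V → ℤ) (u v : V) : h v ≤ bdyFlip adj h u v := by
  by_cases hv : bdyConn adj (fun a => h a ≤ -1) u v
  · rw [bdy_flip_in hv]
    have : h v ≤ -1 := bdy_conn_right (p := fun a => h a ≤ -1) hv
    omega
  · rw [bdy_flip_out hv]

/-- across the boundary of the negative cluster the heights are `-1` and `0`. -/
theorem bdy_flip_bdry {adj : V → V → Prop} {h : V → ℤ} (hl : BdyLip adj h) {u a b : V}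
    (ha : bdyConn adj (fun a => h a ≤ -1) u a) (hb : ¬ bdyConn adj (fun a => h a ≤ -1) u b)
    (hab : adj a b) : h a = -1 ∧ h b = 0 := by
  have h1 : h a ≤ -1 := bdy_conn_right (p := fun a => h a ≤ -1) ha
  have h2 : ¬ h b ≤ -1 := fun hb' => hb (bdy_conn_step ha hab hb')
  have h3 := abs_le.mp (hl a b hab)
  constructor <;> omega

/-- the flip keeps every absolute increment. -/
theorem bdy_flip_incr {adj : V → V → Prop} (hs : ∀ a b, adj a b → adj b a) {h : V → ℤ} (hl : BdyLip adj h)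
    (u : V) {a b : V} (hab : adj a b) :
    |bdyFlip adj h u a - bdyFlip adj h u b| = |h a - h b| := by
  by_cases ha : bdyConn adj (fun a => h a ≤ -1) u a <;>
    by_cases hb : bdyConn adj (fun a => h a ≤ -1) u b
  · rw [bdy_flip_in ha, bdy_flip_in hb, ← abs_neg]
    congr 1
    ring
  · obtain ⟨e1, e2⟩ := bdy_flip_bdry hl ha hb hab
    rw [bdy_flip_in ha, bdy_flip_out hb, e1, e2]
    simp
  · obtain ⟨e1, e2⟩ := bdy_flip_bdry hl hb ha (hs _ _ hab)
    rw [bdy_flip_out ha, bdy_flip_in hb, e1, e2]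
    simp
  · rw [bdy_flip_out ha, bdy_flip_out hb]

theorem bdy_flip_lip {adj : V → V → Prop} (hs : ∀ a b, adj a b → adj b a) {h : V → ℤ} (hl : BdyLip adj h)
    (u : V) : BdyLip adj (bdyFlip adj h u) := fun a b hab => by
  rw [bdy_flip_incr hs hl u hab]
  exact hl a b hab

/-- the flip keeps the set of edges on which the height changes. -/
theorem bdy_flip_eq_iff {adj : V → V → Prop} (hs : ∀ a b, adj a b → adj b a) {h : V → ℤ} (hl : BdyLip adj h)
    (u : V) {a b : V} (hab : adj a b) :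
    bdyFlip adj h u a = bdyFlip adj h u b ↔ h a = h b := by
  have := bdy_flip_incr hs hl u hab
  constructor
  · intro e
    rw [e, sub_self, abs_zero] at this
    exact sub_eq_zero.mp (abs_eq_zero.mp this.symm)
  · intro e
    rw [e, sub_self, abs_zero] at this
    exact sub_eq_zero.mp (abs_eq_zero.mp this)

/-- the negative cluster of `u` for `h` is the positive cluster of `u` for the flipped height. -/
theorem bdy_flip_cluster {adj : V → V → Prop} {h : V → ℤ} (hl : BdyLip adj h) {u : V}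
    (hu : h u ≤ -1) (v : V) :
    bdyConn adj (fun a => 1 ≤ bdyFlip adj h u a) u v ↔ bdyConn adj (fun a => h a ≤ -1) u v := by
  constructor
  · intro hv
    refine bdy_conn_induction (P := fun v => bdyConn adj (fun a => h a ≤ -1) u v)
      (bdy_conn_refl hu) ?_ hv
    intro a b _ ha hab hb
    by_contra hb'
    obtain ⟨_, e2⟩ := bdy_flip_bdry hl ha hb' hab
    rw [bdy_flip_out hb', e2] at hb
    omega
  · intro hv
    have h0 : bdyConn adj (fun a => 1 ≤ bdyFlip adj h u a) u u := by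
      refine bdy_conn_refl ?_
      rw [bdy_flip_in (bdy_conn_refl hu)]
      omega
    refine bdy_conn_induction (P := fun v => bdyConn adj (fun a => 1 ≤ bdyFlip adj h u a) u v)
      h0 ?_ hv
    intro a b ha' ha hab hb
    refine bdy_conn_step ha hab ?_
    rw [bdy_flip_in (bdy_conn_step ha' hab hb)]
    omega

/-- the flip at `u` is injective on Lipschitz heights which are negative at `u`. -/
theorem bdy_flip_inj {adj : V → V → Prop} {h h' : V → ℤ} (hl : BdyLip adj h) (hl' : BdyLip adj h')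
    {u : V} (hu : h u ≤ -1) (hu' : h' u ≤ -1) (e : bdyFlip adj h u = bdyFlip adj h' u) : h = h' := by
  funext v
  have c1 := bdy_flip_cluster hl hu v
  have c2 := bdy_flip_cluster hl' hu' v
  rw [e] at c1
  have c3 := c1.symm.trans c2
  have ev := congrFun e v
  by_cases hv : bdyConn adj (fun a => h a ≤ -1) u v
  · rw [bdy_flip_in hv, bdy_flip_in (c3.mp hv)] at ev
    omega
  · rw [bdy_flip_out hv, bdy_flip_out (fun hv' => hv (c3.mpr hv'))] at ev
    exact ev

/-- the flip can only destroy negative paths. -/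
theorem bdy_flip_negX {adj : V → V → Prop} {h : V → ℤ} {u : V} {A T : Set V}
    (hx : BdyNegX adj (bdyFlip adj h u) A T) : BdyNegX adj h A T := by
  obtain ⟨a, ha, b, hb, hab⟩ := hx
  exact ⟨a, ha, b, hb, bdy_conn_mono (fun c hc => le_trans (bdy_flip_ge adj h u c) hc) hab⟩

open Classical in
/-- **FLIP, one site.**  `Om` a finite family of Lipschitz heights with a nonnegative weight, stable under the
flips of the negative clusters which miss `A`; `U ≥ 0` reads the heights on `A` only; `u ∈ T`. -/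
theorem bdy_flip_site {adj : V → V → Prop} (hs : ∀ a b, adj a b → adj b a) (Om : Finset (V → ℤ))
    (wt U : (V → ℤ) → ℝ) (hwt : ∀ h ∈ Om, 0 ≤ wt h) (hlip : ∀ h ∈ Om, BdyLip adj h) (A T : Set V)
    (hflip : ∀ h ∈ Om, ∀ u, h u ≤ -1 → (∀ v ∈ A, ¬ bdyConn adj (fun a => h a ≤ -1) u v) →
      bdyFlip adj h u ∈ Om ∧ wt (bdyFlip adj h u) = wt h)
    (hU0 : ∀ h, 0 ≤ U h) (hUA : ∀ h h' : V → ℤ, (∀ v ∈ A, h v = h' v) → U h = U h')
    {u : V} (hu : u ∈ T) :
    0 ≤ ∑ h ∈ Om.filter (fun h => ¬ BdyNegX adj h A T), wt h * U h * (h u : ℝ) := by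
  classical
  set G := Om.filter (fun h => ¬ BdyNegX adj h A T) with hG
  set f : (V → ℤ) → ℝ := fun h => wt h * U h * (h u : ℝ) with hf
  have hmiss : ∀ h ∈ G, ∀ v ∈ A, ¬ bdyConn adj (fun a => h a ≤ -1) u v := by
    intro h hh v hv hc
    exact (Finset.mem_filter.mp hh).2 ⟨u, hu, v, hv, hc⟩
  have hN : ∀ h ∈ G, h u ≤ -1 →
      bdyFlip adj h u ∈ G ∧ ¬ bdyFlip adj h u u ≤ -1 ∧ f (bdyFlip adj h u) = - f h := by
    intro h hh hneg
    have hO := (Finset.mem_filter.mp hh).1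
    obtain ⟨m1, m2⟩ := hflip h hO u hneg (hmiss h hh)
    have e0 : bdyFlip adj h u u = - h u := bdy_flip_in (bdy_conn_refl hneg)
    refine ⟨Finset.mem_filter.mpr ⟨m1, fun hx => (Finset.mem_filter.mp hh).2 (bdy_flip_negX hx)⟩,
      by rw [e0]; omega, ?_⟩
    have eU : U (bdyFlip adj h u) = U h :=
      hUA _ _ fun v hv => bdy_flip_out (hmiss h hh v hv)
    simp only [hf, m2, eU, e0]
    push_cast
    ring
  have split := (Finset.sum_filter_add_sum_filter_not G (fun h => h u ≤ -1) f).symm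
  have hinj : Set.InjOn (fun h => bdyFlip adj h u) (G.filter (fun h => h u ≤ -1) : Finset (V → ℤ)) := by
    intro h hh h' hh' e
    rw [Finset.mem_coe, Finset.mem_filter] at hh hh'
    exact bdy_flip_inj (hlip h (Finset.mem_filter.mp hh.1).1) (hlip h' (Finset.mem_filter.mp hh'.1).1)
      hh.2 hh'.2 e
  have e1 : ∑ h ∈ G.filter (fun h => h u ≤ -1), f h
      = - ∑ h ∈ (G.filter (fun h => h u ≤ -1)).image (fun h => bdyFlip adj h u), f h := by
    rw [Finset.sum_image hinj, ← Finset.sum_neg_distrib]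
    refine Finset.sum_congr rfl fun h hh => ?_
    rw [Finset.mem_filter] at hh
    rw [(hN h hh.1 hh.2).2.2, neg_neg]
  have e2 : ∑ h ∈ (G.filter (fun h => h u ≤ -1)).image (fun h => bdyFlip adj h u), f h
      ≤ ∑ h ∈ G.filter (fun h => ¬ h u ≤ -1), f h := by
    refine Finset.sum_le_sum_of_subset_of_nonneg ?_ ?_
    · intro g hg
      obtain ⟨h, hh, rfl⟩ := Finset.mem_image.mp hg
      rw [Finset.mem_filter] at hh
      exact Finset.mem_filter.mpr ⟨(hN h hh.1 hh.2).1, (hN h hh.1 hh.2).2.1⟩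
    · intro h hh _
      rw [Finset.mem_filter] at hh
      have h0 : (0 : ℝ) ≤ (h u : ℝ) := by
        have : 0 ≤ h u := by omega
        exact_mod_cast this
      exact mul_nonneg (mul_nonneg (hwt h (Finset.mem_filter.mp hh.1).1) (hU0 h)) h0
  rw [split, e1]
  linarith

open Classical in
/-- **FLIP.**  Same with a nonnegative average over sites of `T`. -/
theorem bdy_flip_sum {adj : V → V → Prop} (hs : ∀ a b, adj a b → adj b a) (Om : Finset (V → ℤ))
    (wt U : (V → ℤ) → ℝ) (hwt : ∀ h ∈ Om, 0 ≤ wt h) (hlip : ∀ h ∈ Om, BdyLip adj h) (A T : Set V)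
    (hflip : ∀ h ∈ Om, ∀ u, h u ≤ -1 → (∀ v ∈ A, ¬ bdyConn adj (fun a => h a ≤ -1) u v) →
      bdyFlip adj h u ∈ Om ∧ wt (bdyFlip adj h u) = wt h)
    (hU0 : ∀ h, 0 ≤ U h) (hUA : ∀ h h' : V → ℤ, (∀ v ∈ A, h v = h' v) → U h = U h')
    (s : Finset V) (w : V → ℝ) (hw : ∀ u ∈ s, 0 ≤ w u) (hsT : ∀ u ∈ s, u ∈ T) :
    0 ≤ ∑ h ∈ Om.filter (fun h => ¬ BdyNegX adj h A T), wt h * U h * ∑ u ∈ s, w u * (h u : ℝ) := by
  classical
  have e : ∑ h ∈ Om.filter (fun h => ¬ BdyNegX adj h A T), wt h * U h * ∑ u ∈ s, w u * (h u : ℝ)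
      = ∑ u ∈ s, w u * ∑ h ∈ Om.filter (fun h => ¬ BdyNegX adj h A T), wt h * U h * (h u : ℝ) := by
    simp only [Finset.mul_sum]
    rw [Finset.sum_comm]
    refine Finset.sum_congr rfl fun u _ => Finset.sum_congr rfl fun h _ => ?_
    ring
  rw [e]
  exact Finset.sum_nonneg fun u hu =>
    mul_nonneg (hw u hu) (bdy_flip_site hs Om wt U hwt hlip A T hflip hU0 hUA (hsT u hu))

open Classical in
/-- **FLIP, lower bound**: `∑ wt U Y ≥ - ∑ wt U |Y| 1{negative path from T to A}`. -/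
theorem bdy_flip_lower {adj : V → V → Prop} (hs : ∀ a b, adj a b → adj b a) (Om : Finset (V → ℤ))
    (wt U : (V → ℤ) → ℝ) (hwt : ∀ h ∈ Om, 0 ≤ wt h) (hlip : ∀ h ∈ Om, BdyLip adj h) (A T : Set V)
    (hflip : ∀ h ∈ Om, ∀ u, h u ≤ -1 → (∀ v ∈ A, ¬ bdyConn adj (fun a => h a ≤ -1) u v) →
      bdyFlip adj h u ∈ Om ∧ wt (bdyFlip adj h u) = wt h)
    (hU0 : ∀ h, 0 ≤ U h) (hUA : ∀ h h' : V → ℤ, (∀ v ∈ A, h v = h' v) → U h = U h')
    (s : Finset V) (w : V → ℝ) (hw : ∀ u ∈ s, 0 ≤ w u) (hsT : ∀ u ∈ s, u ∈ T) :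
    - ∑ h ∈ Om.filter (fun h => BdyNegX adj h A T), wt h * U h * |∑ u ∈ s, w u * (h u : ℝ)|
      ≤ ∑ h ∈ Om, wt h * U h * ∑ u ∈ s, w u * (h u : ℝ) := by
  classical
  have h1 := bdy_flip_sum hs Om wt U hwt hlip A T hflip hU0 hUA s w hw hsT
  have h2 := (Finset.sum_filter_add_sum_filter_not Om (fun h => BdyNegX adj h A T)
    (fun h => wt h * U h * ∑ u ∈ s, w u * (h u : ℝ))).symm
  have h3 : - ∑ h ∈ Om.filter (fun h => BdyNegX adj h A T), wt h * U h * |∑ u ∈ s, w u * (h u : ℝ)|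
      ≤ ∑ h ∈ Om.filter (fun h => BdyNegX adj h A T), wt h * U h * ∑ u ∈ s, w u * (h u : ℝ) := by
    rw [← Finset.sum_neg_distrib]
    refine Finset.sum_le_sum fun h hh => ?_
    have h0 : 0 ≤ wt h * U h := mul_nonneg (hwt h (Finset.mem_filter.mp hh).1) (hU0 h)
    have := neg_abs_le (∑ u ∈ s, w u * (h u : ℝ))
    nlinarith
  rw [h2]
  linarith

theorem bdy_abs_neg_aux {a b : ℤ} (h : |a - b| ≤ 1) : |(-a) - (-b)| ≤ 1 := by
  rw [abs_le] at h ⊢
  constructor <;> omega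

theorem bdy_posX_neg {adj : V → V → Prop} {h : V → ℤ} {A T : Set V} :
    BdyNegX adj (-h) A T ↔ BdyPosX adj h A T := by
  have e : (fun a => (-h) a ≤ -1) = fun a => 1 ≤ h a := by
    funext a
    simp only [Pi.neg_apply, eq_iff_iff]
    omega
  unfold BdyNegX BdyPosX
  rw [e]

open Classical in
/-- **FLIP, upper bound** (mirror image): the family is stable under the flips of the POSITIVE clusters which
miss `A`. -/
theorem bdy_flip_upper {adj : V → V → Prop} (hs : ∀ a b, adj a b → adj b a) (Om : Finset (V → ℤ))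
    (wt U : (V → ℤ) → ℝ) (hwt : ∀ h ∈ Om, 0 ≤ wt h) (hlip : ∀ h ∈ Om, BdyLip adj h) (A T : Set V)
    (hflip : ∀ h ∈ Om, ∀ u, 1 ≤ h u → (∀ v ∈ A, ¬ bdyConn adj (fun a => 1 ≤ h a) u v) →
      - bdyFlip adj (-h) u ∈ Om ∧ wt (- bdyFlip adj (-h) u) = wt h)
    (hU0 : ∀ h, 0 ≤ U h) (hUA : ∀ h h' : V → ℤ, (∀ v ∈ A, h v = h' v) → U h = U h')
    (s : Finset V) (w : V → ℝ) (hw : ∀ u ∈ s, 0 ≤ w u) (hsT : ∀ u ∈ s, u ∈ T) :
    ∑ h ∈ Om, wt h * U h * ∑ u ∈ s, w u * (h u : ℝ)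
      ≤ ∑ h ∈ Om.filter (fun h => BdyPosX adj h A T), wt h * U h * |∑ u ∈ s, w u * (h u : ℝ)| := by
  classical
  have hneg : Function.Injective (fun h : V → ℤ => -h) := neg_injective
  have epos : ∀ h : V → ℤ, (fun a => (-h) a ≤ -1) = fun a => 1 ≤ h a := by
    intro h
    funext a
    simp only [Pi.neg_apply, eq_iff_iff]
    omega
  have key := bdy_flip_lower hs (Om.image (fun h => -h)) (fun h => wt (-h)) (fun h => U (-h))
    (by
      intro g hg
      obtain ⟨h, hh, rfl⟩ := Finset.mem_image.mp hg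
      simpa using hwt h hh)
    (by
      intro g hg a b hab
      obtain ⟨h, hh, rfl⟩ := Finset.mem_image.mp hg
      have := bdy_abs_neg_aux (hlip h hh a b hab)
      simpa using this) A T
    (by
      intro g hg u hu hm
      obtain ⟨h, hh, rfl⟩ := Finset.mem_image.mp hg
      have hu' : 1 ≤ h u := by
        simp only [Pi.neg_apply] at hu
        omega
      rw [epos h] at hm
      obtain ⟨m1, m2⟩ := hflip h hh u hu' hm
      refine ⟨Finset.mem_image.mpr ⟨_, m1, by simp⟩, ?_⟩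
      simpa using m2)
    (fun h => hU0 _)
    (fun h h' hh => hUA _ _ fun v hv => by simp [hh v hv]) s w hw hsT
  rw [Finset.sum_image (fun a _ b _ e => hneg e), Finset.filter_image,
    Finset.sum_image (fun a _ b _ e => hneg e)] at key
  simp only [neg_neg, Pi.neg_apply, Int.cast_neg, mul_neg, Finset.sum_neg_distrib, abs_neg,
    bdy_posX_neg] at key
  linarith

end Abstract

section Ht

theorem bdy_adj_symm (Λ : Finset TV) (a b : TV) (h : bdyAdj Λ a b) : bdyAdj Λ b a :=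
  ⟨lat_adj_symm h.1, h.2.symm⟩

theorem bdy_ht_lip {Λ : Finset TV} {b h : TV → ℤ} (hh : HtAdm Λ b h) : BdyLip (bdyAdj Λ) h := by
  rintro u v ⟨huv, hu | hv⟩
  · have := hh.2 u hu (v - u) ((lat_adj_iff u v).1 huv)
    rw [add_sub_cancel] at this
    rwa [abs_sub_comm]
  · have := hh.2 v hv (u - v) ((lat_adj_iff v u).1 (lat_adj_symm huv))
    rwa [add_sub_cancel] at this

theorem bdy_ht_mem {Λ : Finset TV} {b h : TV → ℤ} (hh : h ∈ htCfg Λ b) : HtAdm Λ b h := by
  unfold htCfg at hh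
  split_ifs at hh with hf
  · simpa using hh
  · simp at hh

theorem bdy_ht_mem_of {Λ : Finset TV} {b h h' : TV → ℤ} (hh : h ∈ htCfg Λ b) (h1 : HtAdm Λ b h') :
    h' ∈ htCfg Λ b := by
  unfold htCfg at hh ⊢
  split_ifs at hh ⊢ with hf
  · simpa using h1
  · simp at hh

theorem bdy_ht_lip_adm {Λ : Finset TV} {b h : TV → ℤ} (h0 : ∀ u, u ∉ Λ → h u = b u)
    (hl : BdyLip (bdyAdj Λ) h) : HtAdm Λ b h := by
  refine ⟨h0, fun u hu d hd => ?_⟩
  exact hl (u + d) u ⟨lat_adj_symm (lat_adj_add u hd), Or.inr hu⟩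

/-- the flip of a negative cluster which misses `S` is admissible, if the boundary values are `≥ 0` off `S`. -/
theorem bdy_ht_flip_adm {Λ : Finset TV} {b h : TV → ℤ} (hh : HtAdm Λ b h) {S : Set TV}
    (hb : ∀ v, v ∉ Λ → v ∉ S → 0 ≤ b v) {u : TV}
    (hK : ∀ v ∈ S, ¬ bdyConn (bdyAdj Λ) (fun a => h a ≤ -1) u v) :
    HtAdm Λ b (bdyFlip (bdyAdj Λ) h u) := by
  refine bdy_ht_lip_adm (fun v hv => ?_) (bdy_flip_lip (bdy_adj_symm Λ) (bdy_ht_lip hh) u)
  by_cases hc : bdyConn (bdyAdj Λ) (fun a => h a ≤ -1) u v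
  · exfalso
    have h1 : h v ≤ -1 := bdy_conn_right (p := fun a => h a ≤ -1) hc
    have h2 : v ∉ S := fun hS => hK v hS hc
    have h3 := hb v hv h2
    rw [hh.1 v hv] at h1
    omega
  · rw [bdy_flip_out hc, hh.1 v hv]

theorem bdy_ht_flip_N {Λ : Finset TV} {b h : TV → ℤ} (hh : HtAdm Λ b h) (u : TV) :
    htN Λ (bdyFlip (bdyAdj Λ) h u) = htN Λ h := by
  unfold htN
  refine Finset.sum_congr rfl fun p hp => ?_
  obtain ⟨hp1, hp2⟩ := lat_mem_E.1 hp
  have hadj : bdyAdj Λ p.1 (p.1 + p.2) := ⟨lat_adj_add _ (lat_pos_sub hp1), hp2⟩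
  have := bdy_flip_eq_iff (bdy_adj_symm Λ) (bdy_ht_lip hh) u hadj
  simp only [ne_eq, this]

theorem bdy_ht_neg_adm {Λ : Finset TV} {b h : TV → ℤ} (hh : HtAdm Λ b h) : HtAdm Λ (-b) (-h) := by
  refine ⟨fun u hu => by simp [hh.1 u hu], fun u hu d hd => ?_⟩
  have := hh.2 u hu d hd
  simp only [Pi.neg_apply]
  exact bdy_abs_neg_aux this

theorem bdy_ht_neg_N (Λ : Finset TV) (h : TV → ℤ) : htN Λ (-h) = htN Λ h := by
  unfold htN
  refine Finset.sum_congr rfl fun p _ => ?_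
  simp only [Pi.neg_apply, ne_eq, neg_inj]

theorem bdy_ht_Z_nonneg {x : ℝ} (hx : 0 ≤ x) (Λ : Finset TV) (b : TV → ℤ) : 0 ≤ htZ x Λ b :=
  Finset.sum_nonneg fun h _ => pow_nonneg hx _

theorem bdy_negX_mono {adj adj' : TV → TV → Prop} (hadj : ∀ a b, adj a b → adj' a b) {h : TV → ℤ}
    {S T : Set TV} (hx : BdyNegX adj h S T) : BdyNegX adj' h S T := by
  obtain ⟨u, hu, v, hv, hc⟩ := hx
  exact ⟨u, hu, v, hv, bdy_conn_adj_mono hadj hc⟩

theorem bdy_posX_mono {adj adj' : TV → TV → Prop} (hadj : ∀ a b, adj a b → adj' a b) {h : TV → ℤ}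
    {S T : Set TV} (hx : BdyPosX adj h S T) : BdyPosX adj' h S T := by
  obtain ⟨u, hu, v, hv, hc⟩ := hx
  exact ⟨u, hu, v, hv, bdy_conn_adj_mono hadj hc⟩

open Classical in
/-- **FLIP for `Defs/Ht`, lower bound.**  Boundary values `≥ 0` off `S`; `U ≥ 0` reads `h` on `S` only; `w ≥ 0` on
`s ⊆ T`.  Then `E[U Y] ≥ - E[U |Y| ; there is a path of heights ≤ -1 from T to S]`. -/
theorem bdy_ht_lower {x : ℝ} (hx : 0 ≤ x) (Λ : Finset TV) (b : TV → ℤ) (S T : Set TV)
    (hb : ∀ v, v ∉ Λ → v ∉ S → 0 ≤ b v) (U : (TV → ℤ) → ℝ) (hU0 : ∀ h, 0 ≤ U h)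
    (hUS : ∀ h h' : TV → ℤ, (∀ v ∈ S, h v = h' v) → U h = U h')
    (s : Finset TV) (w : TV → ℝ) (hw : ∀ u ∈ s, 0 ≤ w u) (hsT : ∀ u ∈ s, u ∈ T) :
    - htE x Λ b (fun h => if BdyNegX triAdj h S T then U h * |∑ u ∈ s, w u * (h u : ℝ)| else 0)
      ≤ htE x Λ b (fun h => U h * ∑ u ∈ s, w u * (h u : ℝ)) := by
  have key := bdy_flip_lower (bdy_adj_symm Λ) (htCfg Λ b) (htWt x Λ) U
    (fun h _ => pow_nonneg hx _) (fun h hh => bdy_ht_lip (bdy_ht_mem hh)) S T
    (fun h hh u _ hK => ⟨bdy_ht_mem_of hh (bdy_ht_flip_adm (bdy_ht_mem hh) hb hK), by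
      unfold htWt; rw [bdy_ht_flip_N (bdy_ht_mem hh)]⟩) hU0 hUS s w hw hsT
  have h1 : ∑ h ∈ (htCfg Λ b).filter (fun h => BdyNegX (bdyAdj Λ) h S T),
        htWt x Λ h * U h * |∑ u ∈ s, w u * (h u : ℝ)|
      ≤ ∑ h ∈ htCfg Λ b, htWt x Λ h *
        (if BdyNegX triAdj h S T then U h * |∑ u ∈ s, w u * (h u : ℝ)| else 0) := by
    rw [Finset.sum_filter]
    refine Finset.sum_le_sum fun h _ => ?_
    have h0 : 0 ≤ htWt x Λ h * U h * |∑ u ∈ s, w u * (h u : ℝ)| :=
      mul_nonneg (mul_nonneg (pow_nonneg hx _) (hU0 h)) (abs_nonneg _)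
    by_cases c1 : BdyNegX (bdyAdj Λ) h S T
    · have c2 : BdyNegX triAdj h S T := bdy_negX_mono (fun a b hab => hab.1) c1
      rw [if_pos c1, if_pos c2, mul_assoc]
    · rw [if_neg c1]
      split_ifs
      · rw [← mul_assoc]; exact h0
      · simp
  unfold htE
  rw [← neg_div]
  refine div_le_div_of_nonneg_right ?_ (bdy_ht_Z_nonneg hx Λ b)
  have e : ∑ h ∈ htCfg Λ b, htWt x Λ h * (U h * ∑ u ∈ s, w u * (h u : ℝ))
      = ∑ h ∈ htCfg Λ b, htWt x Λ h * U h * ∑ u ∈ s, w u * (h u : ℝ) :=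
    Finset.sum_congr rfl fun h _ => by ring
  rw [e]
  linarith

open Classical in
/-- **FLIP for `Defs/Ht`, upper bound.**  Boundary values `≤ 0` off `S`. -/
theorem bdy_ht_upper {x : ℝ} (hx : 0 ≤ x) (Λ : Finset TV) (b : TV → ℤ) (S T : Set TV)
    (hb : ∀ v, v ∉ Λ → v ∉ S → b v ≤ 0) (U : (TV → ℤ) → ℝ) (hU0 : ∀ h, 0 ≤ U h)
    (hUS : ∀ h h' : TV → ℤ, (∀ v ∈ S, h v = h' v) → U h = U h')
    (s : Finset TV) (w : TV → ℝ) (hw : ∀ u ∈ s, 0 ≤ w u) (hsT : ∀ u ∈ s, u ∈ T) :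
    htE x Λ b (fun h => U h * ∑ u ∈ s, w u * (h u : ℝ))
      ≤ htE x Λ b (fun h => if BdyPosX triAdj h S T then U h * |∑ u ∈ s, w u * (h u : ℝ)| else 0) := by
  have epos : ∀ h : TV → ℤ, (fun a => (-h) a ≤ -1) = fun a => 1 ≤ h a := by
    intro h
    funext a
    simp only [Pi.neg_apply, eq_iff_iff]
    omega
  have key := bdy_flip_upper (bdy_adj_symm Λ) (htCfg Λ b) (htWt x Λ) U
    (fun h _ => pow_nonneg hx _) (fun h hh => bdy_ht_lip (bdy_ht_mem hh)) S T
    (fun h hh u _ hK => by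
      have a1 : HtAdm Λ (-b) (-h) := bdy_ht_neg_adm (bdy_ht_mem hh)
      have a2 : HtAdm Λ (-b) (bdyFlip (bdyAdj Λ) (-h) u) :=
        bdy_ht_flip_adm a1 (S := S) (fun v hv hS => by simpa using hb v hv hS)
          (by rw [epos h]; exact hK)
      have a3 := bdy_ht_neg_adm a2
      rw [neg_neg] at a3
      refine ⟨bdy_ht_mem_of hh a3, ?_⟩
      unfold htWt
      rw [bdy_ht_neg_N, bdy_ht_flip_N a1, bdy_ht_neg_N]) hU0 hUS s w hw hsT
  have h1 : ∑ h ∈ (htCfg Λ b).filter (fun h => BdyPosX (bdyAdj Λ) h S T),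
        htWt x Λ h * U h * |∑ u ∈ s, w u * (h u : ℝ)|
      ≤ ∑ h ∈ htCfg Λ b, htWt x Λ h *
        (if BdyPosX triAdj h S T then U h * |∑ u ∈ s, w u * (h u : ℝ)| else 0) := by
    rw [Finset.sum_filter]
    refine Finset.sum_le_sum fun h _ => ?_
    have h0 : 0 ≤ htWt x Λ h * U h * |∑ u ∈ s, w u * (h u : ℝ)| :=
      mul_nonneg (mul_nonneg (pow_nonneg hx _) (hU0 h)) (abs_nonneg _)
    by_cases c1 : BdyPosX (bdyAdj Λ) h S T
    · have c2 : BdyPosX triAdj h S T := bdy_posX_mono (fun a b hab => hab.1) c1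
      rw [if_pos c1, if_pos c2, mul_assoc]
    · rw [if_neg c1]
      split_ifs
      · rw [← mul_assoc]; exact h0
      · simp
  unfold htE
  refine div_le_div_of_nonneg_right ?_ (bdy_ht_Z_nonneg hx Λ b)
  have e : ∑ h ∈ htCfg Λ b, htWt x Λ h * (U h * ∑ u ∈ s, w u * (h u : ℝ))
      = ∑ h ∈ htCfg Λ b, htWt x Λ h * U h * ∑ u ∈ s, w u * (h u : ℝ) :=
    Finset.sum_congr rfl fun h _ => by ring
  rw [e]
  linarith

/-! ### small calculus of `htE` -/

theorem bdy_htE_add (x : ℝ) (Λ : Finset TV) (b : TV → ℤ) (G G' : (TV → ℤ) → ℝ) :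
    htE x Λ b (fun h => G h + G' h) = htE x Λ b G + htE x Λ b G' := by
  unfold htE
  rw [← add_div, ← Finset.sum_add_distrib]
  congr 1
  exact Finset.sum_congr rfl fun h _ => by ring

theorem bdy_htE_sub (x : ℝ) (Λ : Finset TV) (b : TV → ℤ) (G G' : (TV → ℤ) → ℝ) :
    htE x Λ b (fun h => G h - G' h) = htE x Λ b G - htE x Λ b G' := by
  unfold htE
  rw [← sub_div, ← Finset.sum_sub_distrib]
  congr 1
  exact Finset.sum_congr rfl fun h _ => by ring

theorem bdy_htE_smul (x : ℝ) (Λ : Finset TV) (b : TV → ℤ) (c : ℝ) (G : (TV → ℤ) → ℝ) :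
    htE x Λ b (fun h => c * G h) = c * htE x Λ b G := by
  unfold htE
  rw [← mul_div_assoc, Finset.mul_sum]
  congr 1
  exact Finset.sum_congr rfl fun h _ => by ring

theorem bdy_htE_mono {x : ℝ} (hx : 0 ≤ x) (Λ : Finset TV) (b : TV → ℤ) {G G' : (TV → ℤ) → ℝ}
    (hG : ∀ h ∈ htCfg Λ b, G h ≤ G' h) : htE x Λ b G ≤ htE x Λ b G' := by
  unfold htE
  refine div_le_div_of_nonneg_right ?_ (bdy_ht_Z_nonneg hx Λ b)
  exact Finset.sum_le_sum fun h hh => mul_le_mul_of_nonneg_left (hG h hh) (pow_nonneg hx _)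

theorem bdy_htE_nonneg {x : ℝ} (hx : 0 ≤ x) (Λ : Finset TV) (b : TV → ℤ) {G : (TV → ℤ) → ℝ}
    (hG : ∀ h ∈ htCfg Λ b, 0 ≤ G h) : 0 ≤ htE x Λ b G := by
  unfold htE
  refine div_nonneg ?_ (bdy_ht_Z_nonneg hx Λ b)
  exact Finset.sum_nonneg fun h hh => mul_nonneg (pow_nonneg hx _) (hG h hh)

theorem bdy_htE_congr (x : ℝ) (Λ : Finset TV) (b : TV → ℤ) {G G' : (TV → ℤ) → ℝ}
    (hG : ∀ h ∈ htCfg Λ b, G h = G' h) : htE x Λ b G = htE x Λ b G' := by
  unfold htE
  congr 1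
  exact Finset.sum_congr rfl fun h hh => by rw [hG h hh]

open Classical in
/-- Cauchy-Schwarz on an event, without square roots. -/
theorem bdy_htE_cs {x : ℝ} (hx : 0 ≤ x) (Λ : Finset TV) (b : TV → ℤ) (K : (TV → ℤ) → Prop)
    (G : (TV → ℤ) → ℝ) :
    (htE x Λ b (fun h => if K h then G h else 0)) ^ 2 ≤ htE x Λ b (fun h => G h ^ 2) * htP x Λ b K := by
  unfold htP htE
  rw [div_pow, div_mul_div_comm, ← sq]
  refine div_le_div_of_nonneg_right ?_ (sq_nonneg _)
  refine Finset.sum_sq_le_sum_mul_sum_of_sq_le_mul _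
    (fun h _ => mul_nonneg (pow_nonneg hx _) (sq_nonneg _))
    (fun h _ => mul_nonneg (pow_nonneg hx _) (by show (0 : ℝ) ≤ if K h then 1 else 0; split_ifs <;> norm_num))
    (fun h _ => le_of_eq ?_)
  by_cases hK : K h
  · simp only [if_pos hK]; ring
  · simp only [if_neg hK]; ring

open Classical in
theorem bdy_htP_or_le {x : ℝ} (hx : 0 ≤ x) (Λ : Finset TV) (b : TV → ℤ) (K K' : (TV → ℤ) → Prop) :
    htP x Λ b (fun h => K h ∨ K' h) ≤ htP x Λ b K + htP x Λ b K' := by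
  unfold htP
  rw [← bdy_htE_add]
  refine bdy_htE_mono hx Λ b fun h _ => ?_
  by_cases h1 : K h <;> by_cases h2 : K' h <;> simp [h1, h2]

/-- nonnegative boundary values give nonnegative means (no Holley inequality needed). -/
theorem bdy_ht_mean_nonneg {x : ℝ} (hx : 0 ≤ x) (Λ : Finset TV) (b : TV → ℤ)
    (hb : ∀ v, v ∉ Λ → 0 ≤ b v) (s : Finset TV) (w : TV → ℝ) (hw : ∀ u ∈ s, 0 ≤ w u) :
    0 ≤ htE x Λ b (fun h => ∑ u ∈ s, w u * (h u : ℝ)) := by
  classical
  have key := bdy_ht_lower hx Λ b ∅ Set.univ (fun v hv _ => hb v hv) (fun _ => 1)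
    (fun _ => zero_le_one) (fun _ _ _ => rfl) s w hw (fun _ _ => Set.mem_univ _)
  have e0 : htE x Λ b (fun h => if BdyNegX triAdj h ∅ Set.univ then
      (1 : ℝ) * |∑ u ∈ s, w u * (h u : ℝ)| else 0) = 0 := by
    have : (fun h : TV → ℤ => if BdyNegX triAdj h ∅ Set.univ then
        (1 : ℝ) * |∑ u ∈ s, w u * (h u : ℝ)| else 0) = fun _ => 0 := by
      funext h
      rw [if_neg]
      rintro ⟨u, _, v, hv, _⟩
      exact hv
    rw [this]
    unfold htE
    simp
  rw [e0] at key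
  simpa using key

open Classical in
/-- **The core of Prop. boundary-moments.**  Boundary values `0` off `S`; `Pi` (signed) reads `h` on `S` only; `w ≥ 0`
on `s ⊆ T`: `|E[Pi Y]| ≤ E[|Pi Y| ; a path of heights ≤ -1, or of heights ≥ 1, joins T to S]`. -/
theorem bdy_ht_abs {x : ℝ} (hx : 0 ≤ x) (Λ : Finset TV) (b : TV → ℤ) (S T : Set TV)
    (hb : ∀ v, v ∉ Λ → v ∉ S → b v = 0) (Pi : (TV → ℤ) → ℝ)
    (hPi : ∀ h h' : TV → ℤ, (∀ v ∈ S, h v = h' v) → Pi h = Pi h')
    (s : Finset TV) (w : TV → ℝ) (hw : ∀ u ∈ s, 0 ≤ w u) (hsT : ∀ u ∈ s, u ∈ T) :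
    |htE x Λ b (fun h => Pi h * ∑ u ∈ s, w u * (h u : ℝ))|
      ≤ htE x Λ b (fun h => if BdyNegX triAdj h S T ∨ BdyPosX triAdj h S T then
          |Pi h * ∑ u ∈ s, w u * (h u : ℝ)| else 0) := by
  set Y : (TV → ℤ) → ℝ := fun h => ∑ u ∈ s, w u * (h u : ℝ) with hY
  have hb1 : ∀ v, v ∉ Λ → v ∉ S → 0 ≤ b v := fun v h1 h2 => (hb v h1 h2).ge
  have hb2 : ∀ v, v ∉ Λ → v ∉ S → b v ≤ 0 := fun v h1 h2 => (hb v h1 h2).le
  have hp : ∀ h h' : TV → ℤ, (∀ v ∈ S, h v = h' v) → max (Pi h) 0 = max (Pi h') 0 :=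
    fun h h' hh => by rw [hPi h h' hh]
  have hm : ∀ h h' : TV → ℤ, (∀ v ∈ S, h v = h' v) → max (-Pi h) 0 = max (-Pi h') 0 :=
    fun h h' hh => by rw [hPi h h' hh]
  have lp := bdy_ht_lower hx Λ b S T hb1 (fun h => max (Pi h) 0) (fun h => le_max_right _ _) hp s w hw hsT
  have up := bdy_ht_upper hx Λ b S T hb2 (fun h => max (Pi h) 0) (fun h => le_max_right _ _) hp s w hw hsT
  have lm := bdy_ht_lower hx Λ b S T hb1 (fun h => max (-Pi h) 0) (fun h => le_max_right _ _) hm s w hw hsT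
  have um := bdy_ht_upper hx Λ b S T hb2 (fun h => max (-Pi h) 0) (fun h => le_max_right _ _) hm s w hw hsT
  have dec : htE x Λ b (fun h => Pi h * Y h)
      = htE x Λ b (fun h => max (Pi h) 0 * Y h) - htE x Λ b (fun h => max (-Pi h) 0 * Y h) := by
    rw [← bdy_htE_sub]
    refine bdy_htE_congr x Λ b fun h _ => ?_
    rcases le_total 0 (Pi h) with h0 | h0
    · rw [max_eq_left h0, max_eq_right (by linarith)]; ring
    · rw [max_eq_right h0, max_eq_left (by linarith)]; ring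
  have b1 : htE x Λ b (fun h => if BdyPosX triAdj h S T then max (Pi h) 0 * |Y h| else 0)
      + htE x Λ b (fun h => if BdyNegX triAdj h S T then max (-Pi h) 0 * |Y h| else 0)
      ≤ htE x Λ b (fun h => if BdyNegX triAdj h S T ∨ BdyPosX triAdj h S T then |Pi h * Y h| else 0) := by
    rw [← bdy_htE_add]
    refine bdy_htE_mono hx Λ b fun h _ => ?_
    have a0 := abs_nonneg (Y h)
    rw [abs_mul]
    rcases le_total 0 (Pi h) with h0 | h0
    · rw [max_eq_left h0, max_eq_right (by linarith : -Pi h ≤ 0), abs_of_nonneg h0]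
      by_cases c1 : BdyNegX triAdj h S T <;> by_cases c2 : BdyPosX triAdj h S T <;>
        simp [c1, c2] <;> positivity
    · rw [max_eq_right h0, max_eq_left (by linarith : 0 ≤ -Pi h), abs_of_nonpos h0]
      by_cases c1 : BdyNegX triAdj h S T <;> by_cases c2 : BdyPosX triAdj h S T <;>
        simp [c1, c2] <;> nlinarith
  have b2 : htE x Λ b (fun h => if BdyNegX triAdj h S T then max (Pi h) 0 * |Y h| else 0)
      + htE x Λ b (fun h => if BdyPosX triAdj h S T then max (-Pi h) 0 * |Y h| else 0)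
      ≤ htE x Λ b (fun h => if BdyNegX triAdj h S T ∨ BdyPosX triAdj h S T then |Pi h * Y h| else 0) := by
    rw [← bdy_htE_add]
    refine bdy_htE_mono hx Λ b fun h _ => ?_
    have a0 := abs_nonneg (Y h)
    rw [abs_mul]
    rcases le_total 0 (Pi h) with h0 | h0
    · rw [max_eq_left h0, max_eq_right (by linarith : -Pi h ≤ 0), abs_of_nonneg h0]
      by_cases c1 : BdyNegX triAdj h S T <;> by_cases c2 : BdyPosX triAdj h S T <;>
        simp [c1, c2] <;> positivity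
    · rw [max_eq_right h0, max_eq_left (by linarith : 0 ≤ -Pi h), abs_of_nonpos h0]
      by_cases c1 : BdyNegX triAdj h S T <;> by_cases c2 : BdyPosX triAdj h S T <;>
        simp [c1, c2] <;> nlinarith
  rw [dec, abs_le]
  constructor <;> linarith

open Classical in
/-- **Core of Prop. boundary-moments, squared form** (ready for [ARCH] and [SM]). -/
theorem bdy_ht_core {x : ℝ} (hx : 0 ≤ x) (Λ : Finset TV) (b : TV → ℤ) (S T : Set TV)
    (hb : ∀ v, v ∉ Λ → v ∉ S → b v = 0) (Pi : (TV → ℤ) → ℝ)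
    (hPi : ∀ h h' : TV → ℤ, (∀ v ∈ S, h v = h' v) → Pi h = Pi h')
    (s : Finset TV) (w : TV → ℝ) (hw : ∀ u ∈ s, 0 ≤ w u) (hsT : ∀ u ∈ s, u ∈ T) :
    (htE x Λ b (fun h => Pi h * ∑ u ∈ s, w u * (h u : ℝ))) ^ 2
      ≤ htE x Λ b (fun h => (Pi h * ∑ u ∈ s, w u * (h u : ℝ)) ^ 2) *
        (htP x Λ b (fun h => BdyNegX triAdj h S T) + htP x Λ b (fun h => BdyPosX triAdj h S T)) := by
  have h1 := bdy_ht_abs hx Λ b S T hb Pi hPi s w hw hsT
  have h2 := bdy_htE_cs hx Λ b (fun h => BdyNegX triAdj h S T ∨ BdyPosX triAdj h S T)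
    (fun h => |Pi h * ∑ u ∈ s, w u * (h u : ℝ)|)
  have h3 := bdy_htP_or_le hx Λ b (fun h => BdyNegX triAdj h S T) (fun h => BdyPosX triAdj h S T)
  have h4 : 0 ≤ htE x Λ b (fun h => (Pi h * ∑ u ∈ s, w u * (h u : ℝ)) ^ 2) :=
    bdy_htE_nonneg hx Λ b fun h _ => sq_nonneg _
  simp only [sq_abs] at h2
  calc (htE x Λ b (fun h => Pi h * ∑ u ∈ s, w u * (h u : ℝ))) ^ 2
      = |htE x Λ b (fun h => Pi h * ∑ u ∈ s, w u * (h u : ℝ))| ^ 2 := (sq_abs _).symm
    _ ≤ _ := pow_le_pow_left₀ (abs_nonneg _) h1 2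
    _ ≤ _ := by convert h2
    _ ≤ _ := mul_le_mul_of_nonneg_left h3 h4

open Classical in
/-- **Core of Prop. bracket-collapse (upper bracket), squared form.**  Boundary values `≤ 0` off `S`. -/
theorem bdy_ht_col {x : ℝ} (hx : 0 ≤ x) (Λ : Finset TV) (b : TV → ℤ) (S T : Set TV)
    (hb : ∀ v, v ∉ Λ → v ∉ S → b v ≤ 0)
    (s : Finset TV) (w : TV → ℝ) (hw : ∀ u ∈ s, 0 ≤ w u) (hsT : ∀ u ∈ s, u ∈ T)
    (h0 : 0 ≤ htE x Λ b (fun h => ∑ u ∈ s, w u * (h u : ℝ))) :
    (htE x Λ b (fun h => ∑ u ∈ s, w u * (h u : ℝ))) ^ 2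
      ≤ htE x Λ b (fun h => (∑ u ∈ s, w u * (h u : ℝ)) ^ 2) * htP x Λ b (fun h => BdyPosX triAdj h S T) := by
  have h1 := bdy_ht_upper hx Λ b S T hb (fun _ => 1) (fun _ => zero_le_one) (fun _ _ _ => rfl) s w hw hsT
  have h2 := bdy_htE_cs hx Λ b (fun h => BdyPosX triAdj h S T) (fun h => |∑ u ∈ s, w u * (h u : ℝ)|)
  simp only [sq_abs] at h2
  simp only [one_mul] at h1
  exact le_trans (pow_le_pow_left₀ h0 h1 2) h2

end Ht

end Claimed.Agent.R291
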