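/-
R291 (S0539), unit BDY, deterministic geometry of [ARCH], part A : THE LATTICE IN A FRAME.
owner: helper119  (with helper25, who builds `Bdy/GeoB.lean` on this file; consumer helper173)
spec: `origin/helper173:notes/R291/sec6b_173.md` R1, R5, R6, (TOP);  prefix `bga_`.

Frame at a boundary point `p`: tangent `t`, INWARD normal `J t = (-t.2, t.1)` (`Dict/C2a`, `Dict/C2`).
The DEPTH of a site `u` at mesh `dl` is `dc2Y p t (triPos dl u)`, its ABSCISSA `dc2X p t (triPos dl u)`.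

  1. `bgaT t d`, `bgaN t d` : tangential / normal component of the lattice vector `d` (mesh one);
     additivity, multiples, action on `dc2X`, `dc2Y`, norm, rotation by 60 degrees.
  2. `BgaBand F dl p t R a` : one-sided band;  `bga_band_ev` (eventually, from `dc2_band`).
  3. exterior direction `d` (`bga_ext_dir`), `e = -d`, `fm = latRot d`, `fp = latRot (latRot d)`.
  4. `bga_ray` : the exterior lattice ray.
  5. `bga_deep_ball` : deep hexagons are made of interior sites.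
  6. `bgaW` : the greedy horizontal walk;  straight walks.
-/
import Claimed.Agent.R291.Dict.C2c
import Claimed.Agent.R291.Geo.Lat

set_option autoImplicit false

namespace Claimed.Agent.R291

open Claims.C0467 Set Filter Topology

/-! ### 1. Components of lattice vectors in a frame -/

/-- tangential component of the lattice vector `d` (mesh one). -/
noncomputable def bgaT (t : ℝ × ℝ) (d : TV) : ℝ := (triPos 1 d).1 * t.1 + (triPos 1 d).2 * t.2

/-- normal component of the lattice vector `d` (mesh one). -/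
noncomputable def bgaN (t : ℝ × ℝ) (d : TV) : ℝ := -(triPos 1 d).1 * t.2 + (triPos 1 d).2 * t.1

/-- the one-sided band: in the disc of radius `R` about `p`, sites at depth `≤ -a` are outside `F`,
sites at depth `≥ a` are interior sites of `F`. -/
def BgaBand (F : Finset TV) (dl : ℝ) (p t : ℝ × ℝ) (R a : ℝ) : Prop :=
  (∀ u, sqDist (triPos dl u) p ≤ R ^ 2 → dc2Y p t (triPos dl u) ≤ -a → u ∉ F) ∧
  (∀ u, sqDist (triPos dl u) p ≤ R ^ 2 → a ≤ dc2Y p t (triPos dl u) → u ∈ latInt F)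

theorem bga_eqns_cite (t : ℝ × ℝ) (d : TV) (F : Finset TV) (dl : ℝ) (p : ℝ × ℝ) (R a : ℝ) :
    bgaT t d = (triPos 1 d).1 * t.1 + (triPos 1 d).2 * t.2 ∧
    bgaN t d = -(triPos 1 d).1 * t.2 + (triPos 1 d).2 * t.1 ∧
    (BgaBand F dl p t R a ↔
      (∀ u, sqDist (triPos dl u) p ≤ R ^ 2 → dc2Y p t (triPos dl u) ≤ -a → u ∉ F) ∧
      (∀ u, sqDist (triPos dl u) p ≤ R ^ 2 → a ≤ dc2Y p t (triPos dl u) → u ∈ latInt F)) :=
  ⟨rfl, rfl, Iff.rfl⟩

section comp

variable {t p : ℝ × ℝ}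

theorem bga_T_eq (t : ℝ × ℝ) (d : TV) :
    bgaT t d = ((d.1 : ℝ) + (d.2 : ℝ) / 2) * t.1 + ((d.2 : ℝ) * Real.sqrt 3 / 2) * t.2 := by
  unfold bgaT triPos; simp only [one_mul]

theorem bga_N_eq (t : ℝ × ℝ) (d : TV) :
    bgaN t d = -((d.1 : ℝ) + (d.2 : ℝ) / 2) * t.2 + ((d.2 : ℝ) * Real.sqrt 3 / 2) * t.1 := by
  unfold bgaN triPos; simp only [one_mul]

theorem bga_T_add (t : ℝ × ℝ) (d d' : TV) : bgaT t (d + d') = bgaT t d + bgaT t d' := by
  simp only [bga_T_eq, Prod.fst_add, Prod.snd_add]; push_cast; ring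

theorem bga_N_add (t : ℝ × ℝ) (d d' : TV) : bgaN t (d + d') = bgaN t d + bgaN t d' := by
  simp only [bga_N_eq, Prod.fst_add, Prod.snd_add]; push_cast; ring

theorem bga_T_neg (t : ℝ × ℝ) (d : TV) : bgaT t (-d) = -bgaT t d := by
  simp only [bga_T_eq, Prod.fst_neg, Prod.snd_neg]; push_cast; ring

theorem bga_N_neg (t : ℝ × ℝ) (d : TV) : bgaN t (-d) = -bgaN t d := by
  simp only [bga_N_eq, Prod.fst_neg, Prod.snd_neg]; push_cast; ring

theorem bga_T_sub (t : ℝ × ℝ) (d d' : TV) : bgaT t (d - d') = bgaT t d - bgaT t d' := by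
  rw [sub_eq_add_neg, bga_T_add, bga_T_neg]; ring

theorem bga_N_sub (t : ℝ × ℝ) (d d' : TV) : bgaN t (d - d') = bgaN t d - bgaN t d' := by
  rw [sub_eq_add_neg, bga_N_add, bga_N_neg]; ring

@[simp] theorem bga_T_zero (t : ℝ × ℝ) : bgaT t 0 = 0 := by simp [bga_T_eq]

@[simp] theorem bga_N_zero (t : ℝ × ℝ) : bgaN t 0 = 0 := by simp [bga_N_eq]

theorem bga_T_zsmul (t : ℝ × ℝ) (k : ℤ) (d : TV) : bgaT t (k • d) = k * bgaT t d := by
  simp only [bga_T_eq, Prod.smul_fst, Prod.smul_snd, smul_eq_mul]; push_cast; ring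

theorem bga_N_zsmul (t : ℝ × ℝ) (k : ℤ) (d : TV) : bgaN t (k • d) = k * bgaN t d := by
  simp only [bga_N_eq, Prod.smul_fst, Prod.smul_snd, smul_eq_mul]; push_cast; ring

theorem bga_T_nsmul (t : ℝ × ℝ) (k : ℕ) (d : TV) : bgaT t (k • d) = k * bgaT t d := by
  have := bga_T_zsmul t (k : ℤ) d
  rw [natCast_zsmul] at this
  simpa using this

theorem bga_N_nsmul (t : ℝ × ℝ) (k : ℕ) (d : TV) : bgaN t (k • d) = k * bgaN t d := by
  have := bga_N_zsmul t (k : ℤ) d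
  rw [natCast_zsmul] at this
  simpa using this

/-- flipping the frame. -/
theorem bga_T_flip (t : ℝ × ℝ) (d : TV) : bgaT (-t) d = -bgaT t d := by
  simp only [bga_T_eq, Prod.fst_neg, Prod.snd_neg]; ring

theorem bga_N_flip (t : ℝ × ℝ) (d : TV) : bgaN (-t) d = -bgaN t d := by
  simp only [bga_N_eq, Prod.fst_neg, Prod.snd_neg]; ring

/-- the abscissa of a translated site. -/
theorem bga_X_add (p t : ℝ × ℝ) (dl : ℝ) (u d : TV) :
    dc2X p t (triPos dl (u + d)) = dc2X p t (triPos dl u) + dl * bgaT t d := by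
  rw [bga_T_eq]
  unfold dc2X triPos
  simp only [Prod.fst_add, Prod.snd_add]; push_cast; ring

/-- the depth of a translated site. -/
theorem bga_Y_add (p t : ℝ × ℝ) (dl : ℝ) (u d : TV) :
    dc2Y p t (triPos dl (u + d)) = dc2Y p t (triPos dl u) + dl * bgaN t d := by
  rw [bga_N_eq]
  unfold dc2Y triPos
  simp only [Prod.fst_add, Prod.snd_add]; push_cast; ring

theorem bga_X_sub (p t : ℝ × ℝ) (dl : ℝ) (u v : TV) :
    dc2X p t (triPos dl u) - dc2X p t (triPos dl v) = dl * bgaT t (u - v) := by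
  have := bga_X_add p t dl v (u - v)
  rw [add_sub_cancel] at this
  linarith

theorem bga_Y_sub (p t : ℝ × ℝ) (dl : ℝ) (u v : TV) :
    dc2Y p t (triPos dl u) - dc2Y p t (triPos dl v) = dl * bgaN t (u - v) := by
  have := bga_Y_add p t dl v (u - v)
  rw [add_sub_cancel] at this
  linarith

/-- the Euclidean form in the frame. -/
theorem bga_sq_add_sq (ht : t.1 ^ 2 + t.2 ^ 2 = 1) (d : TV) :
    bgaT t d ^ 2 + bgaN t d ^ 2 = (d.1 : ℝ) ^ 2 + d.1 * d.2 + (d.2 : ℝ) ^ 2 := by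
  rw [bga_T_eq, bga_N_eq]
  have h3 : Real.sqrt 3 ^ 2 = 3 := Real.sq_sqrt (by norm_num)
  linear_combination (((d.1 : ℝ) + (d.2 : ℝ) / 2) ^ 2 + ((d.2 : ℝ) * Real.sqrt 3 / 2) ^ 2) * ht
    + ((d.2 : ℝ) ^ 2 / 4) * h3

/-- a lattice direction is a unit vector. -/
theorem bga_dir_unit (ht : t.1 ^ 2 + t.2 ^ 2 = 1) {d : TV} (hd : d ∈ latDirs) :
    bgaT t d ^ 2 + bgaN t d ^ 2 = 1 := by
  rw [bga_sq_add_sq ht]
  simp only [latDirs, Finset.mem_insert, Finset.mem_singleton] at hd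
  rcases hd with rfl | rfl | rfl | rfl | rfl | rfl <;> norm_num

theorem bga_dir_abs_le (ht : t.1 ^ 2 + t.2 ^ 2 = 1) {d : TV} (hd : d ∈ latDirs) :
    |bgaT t d| ≤ 1 ∧ |bgaN t d| ≤ 1 := by
  have h := bga_dir_unit ht hd
  constructor
  · exact abs_le_one_iff_mul_self_le_one.2 (by nlinarith [sq_nonneg (bgaN t d)])
  · exact abs_le_one_iff_mul_self_le_one.2 (by nlinarith [sq_nonneg (bgaT t d)])

/-- components are bounded by the hexagonal norm. -/
theorem bga_abs_le_latN (ht : t.1 ^ 2 + t.2 ^ 2 = 1) (d : TV) :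
    |bgaT t d| ≤ latN d ∧ |bgaN t d| ≤ latN d := by
  have h := bga_sq_add_sq ht d
  have h2 : ((d.1 : ℝ) ^ 2 + d.1 * d.2 + (d.2 : ℝ) ^ 2) ≤ (latN d : ℝ) ^ 2 := by
    have := hg_form_le_latN_sq d
    exact_mod_cast this
  constructor
  · exact abs_le_of_sq_le_sq (by nlinarith [sq_nonneg (bgaN t d)]) (by positivity)
  · exact abs_le_of_sq_le_sq (by nlinarith [sq_nonneg (bgaT t d)]) (by positivity)

/-- rotation by 60 degrees, tangential component. -/
theorem bga_T_rot (t : ℝ × ℝ) (d : TV) :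
    bgaT t (latRot d) = bgaT t d / 2 - Real.sqrt 3 / 2 * bgaN t d := by
  simp only [bga_T_eq, bga_N_eq, latRot]
  have h3 : Real.sqrt 3 ^ 2 = 3 := Real.sq_sqrt (by norm_num)
  push_cast
  linear_combination ((d.2 : ℝ) * t.1 / 4) * h3

/-- rotation by 60 degrees, normal component. -/
theorem bga_N_rot (t : ℝ × ℝ) (d : TV) :
    bgaN t (latRot d) = Real.sqrt 3 / 2 * bgaT t d + bgaN t d / 2 := by
  simp only [bga_T_eq, bga_N_eq, latRot]
  have h3 : Real.sqrt 3 ^ 2 = 3 := Real.sq_sqrt (by norm_num)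
  push_cast
  linear_combination (-(d.2 : ℝ) * t.2 / 4) * h3

/-- `R² = R - 1` for the rotation by 60 degrees. -/
theorem bga_rot_rot (d : TV) : latRot (latRot d) = latRot d + -d := by
  simp only [latRot, Prod.ext_iff, Prod.fst_add, Prod.snd_add, Prod.fst_neg, Prod.snd_neg]
  constructor <;> ring

/-- coordinates are 1-Lipschitz for the Euclidean distance. -/
theorem bga_X_lip (ht : t.1 ^ 2 + t.2 ^ 2 = 1) (z w : ℝ × ℝ) :
    |dc2X p t z - dc2X p t w| ≤ hgE z w := by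
  apply abs_le_of_sq_le_sq _ (hg_E_nonneg z w)
  rw [hg_E_sq]
  unfold dc2X sqDist
  nlinarith [sq_nonneg ((z.1 - w.1) * t.2 - (z.2 - w.2) * t.1), sq_nonneg (z.1 - w.1),
    sq_nonneg (z.2 - w.2)]

theorem bga_Y_lip (ht : t.1 ^ 2 + t.2 ^ 2 = 1) (z w : ℝ × ℝ) :
    |dc2Y p t z - dc2Y p t w| ≤ hgE z w := by
  apply abs_le_of_sq_le_sq _ (hg_E_nonneg z w)
  rw [hg_E_sq]
  unfold dc2Y sqDist
  nlinarith [sq_nonneg ((z.1 - w.1) * t.1 + (z.2 - w.2) * t.2), sq_nonneg (z.1 - w.1),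
    sq_nonneg (z.2 - w.2)]

theorem bga_X_abs_le (ht : t.1 ^ 2 + t.2 ^ 2 = 1) (z : ℝ × ℝ) : |dc2X p t z| ≤ hgE z p := by
  have := bga_X_lip (p := p) ht z p
  simpa using this

theorem bga_Y_abs_le (ht : t.1 ^ 2 + t.2 ^ 2 = 1) (z : ℝ × ℝ) : |dc2Y p t z| ≤ hgE z p := by
  have := bga_Y_lip (p := p) ht z p
  simpa using this

end comp

/-! ### 2. The band -/

section band

variable {D : Set (ℝ × ℝ)} {r C : ℝ} {p t : ℝ × ℝ} {g : ℝ → ℝ} {δ : ℕ → ℝ} {F : ℕ → Finset TV}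

/-- the band of one box, eventually. -/
theorem Dc2Box.bga_band (B : Dc2Box D r C p t g) (hDo : IsOpen D) (h : IsInsideApprox D δ F)
    (hC : 0 ≤ C) {R a : ℝ} (hR : 0 ≤ R) (hRr : R ≤ r) (ha : C * R ^ 2 < a) :
    ∀ᶠ n in atTop, BgaBand (F n) (δ n) p t R a := by
  filter_upwards [B.band_in hDo h hC hR hRr ha] with n hn
  exact ⟨fun u hz hd => B.band_out h hC hR hRr ha n hz hd, hn⟩

/-- **the band, eventually** (uniform constants `r0`, `C`). -/
theorem bga_band_ev {D : Set (ℝ × ℝ)} (hD : IsC2JordanDomain D) :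
    ∃ r0 : ℝ, 0 < r0 ∧ ∃ C : ℝ, 0 < C ∧ C * r0 ≤ 1 / 4 ∧ ∀ p ∈ frontier D, ∃ t g,
      Dc2Box D r0 C p t g ∧
      ∀ (δ : ℕ → ℝ) (F : ℕ → Finset TV), IsInsideApprox D δ F → ∀ R a : ℝ, 0 ≤ R → R ≤ r0 →
        C * R ^ 2 < a → ∀ᶠ n in atTop, BgaBand (F n) (δ n) p t R a := by
  obtain ⟨r0, hr0, C, hC, hCr, hB⟩ := dc2_boxes hD
  refine ⟨r0, hr0, C, hC, hCr, fun p hp => ?_⟩
  obtain ⟨t, g, B⟩ := hB p hp
  exact ⟨t, g, B, fun δ F h R a hR hRr ha => B.bga_band hD.1 h hC.le hR hRr ha⟩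

/-- the band is monotone: smaller radius, larger depth. -/
theorem BgaBand.mono {F : Finset TV} {dl R a R' a' : ℝ} (hB : BgaBand F dl p t R a)
    (hR0 : 0 ≤ R') (hR : R' ≤ R) (ha : a ≤ a') : BgaBand F dl p t R' a' := by
  have hsq : R' ^ 2 ≤ R ^ 2 := pow_le_pow_left₀ hR0 hR 2
  exact ⟨fun u h1 h2 => hB.1 u (h1.trans hsq) (by linarith),
    fun u h1 h2 => hB.2 u (h1.trans hsq) (by linarith)⟩

end band

/-! ### 3. The exterior direction and the two horizontal pairs -/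

section dirs

variable {t : ℝ × ℝ} {d : TV}

theorem bga_sqrt3 : Real.sqrt 3 ^ 2 = 3 ∧ 0 < Real.sqrt 3 ∧ Real.sqrt 3 ≤ 2 := by
  refine ⟨Real.sq_sqrt (by norm_num), Real.sqrt_pos.2 (by norm_num), ?_⟩
  rw [show (2 : ℝ) = Real.sqrt 4 by
    rw [show (4 : ℝ) = 2 ^ 2 by norm_num, Real.sqrt_sq (by norm_num)]]
  exact Real.sqrt_le_sqrt (by norm_num)

/-- **exterior direction**: a lattice direction within 30 degrees of the OUTWARD normal `-J t`. -/
theorem bga_ext_dir (ht : t.1 ^ 2 + t.2 ^ 2 = 1) :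
    ∃ d ∈ latDirs, bgaN t d ≤ -(Real.sqrt 3 / 2) := by
  obtain ⟨d, hd, h⟩ := dc2_lattice_dir (ν := (t.2, -t.1)) (by simp only [neg_sq]; linarith)
  refine ⟨d, hd, ?_⟩
  unfold bgaN
  simp only at h
  linarith

/-- the tangential component of the exterior direction is at most `1/2`. -/
theorem bga_ext_T (ht : t.1 ^ 2 + t.2 ^ 2 = 1) (hd : d ∈ latDirs)
    (hN : bgaN t d ≤ -(Real.sqrt 3 / 2)) : |bgaT t d| ≤ 1 / 2 := by
  have h := bga_dir_unit ht hd
  obtain ⟨s2, s0, -⟩ := bga_sqrt3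
  have h1 : 3 / 4 ≤ bgaN t d ^ 2 := by nlinarith
  exact abs_le_of_sq_le_sq (by nlinarith) (by norm_num)

/-- a unit vector with tangential component `≥ 1/2` has normal component `≤ √3/2`. -/
theorem bga_N_of_T {T N : ℝ} (h : T ^ 2 + N ^ 2 = 1) (hT : 1 / 2 ≤ |T|) :
    |N| ≤ Real.sqrt 3 / 2 := by
  obtain ⟨s2, s0, -⟩ := bga_sqrt3
  have h1 : (1 / 2 : ℝ) ^ 2 ≤ T ^ 2 := by
    rw [← sq_abs T]; exact pow_le_pow_left₀ (by norm_num) hT 2
  exact abs_le_of_sq_le_sq (by nlinarith) (by positivity)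

/-- the right-down direction `fm = latRot d`. -/
theorem bga_fm (ht : t.1 ^ 2 + t.2 ^ 2 = 1) (hd : d ∈ latDirs)
    (hN : bgaN t d ≤ -(Real.sqrt 3 / 2)) :
    latRot d ∈ latDirs ∧ 1 / 2 ≤ bgaT t (latRot d) ∧ bgaT t (latRot d) ≤ 1 ∧
      -(Real.sqrt 3 / 2) ≤ bgaN t (latRot d) ∧ bgaN t (latRot d) ≤ 0 := by
  obtain ⟨s2, s0, -⟩ := bga_sqrt3
  have hT := abs_le.1 (bga_ext_T ht hd hN)
  have hr := lat_rot_dirs hd
  have hu := bga_dir_unit ht hr
  have h1 : 1 / 2 ≤ bgaT t (latRot d) := by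
    rw [bga_T_rot]; nlinarith
  have h2 : bgaN t (latRot d) ≤ 0 := by
    rw [bga_N_rot]; nlinarith
  have h3 := abs_le.1 (bga_N_of_T hu (h1.trans (le_abs_self _)))
  exact ⟨hr, h1, (abs_le.1 (bga_dir_abs_le ht hr).1).2, h3.1, h2⟩

/-- the right-up direction `fp = latRot (latRot d)`. -/
theorem bga_fp (ht : t.1 ^ 2 + t.2 ^ 2 = 1) (hd : d ∈ latDirs)
    (hN : bgaN t d ≤ -(Real.sqrt 3 / 2)) :
    latRot (latRot d) ∈ latDirs ∧ 1 / 2 ≤ bgaT t (latRot (latRot d)) ∧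
      bgaT t (latRot (latRot d)) ≤ 1 ∧
      0 ≤ bgaN t (latRot (latRot d)) ∧ bgaN t (latRot (latRot d)) ≤ Real.sqrt 3 / 2 := by
  obtain ⟨s2, s0, -⟩ := bga_sqrt3
  have hT := abs_le.1 (bga_ext_T ht hd hN)
  have hr := lat_rot_dirs (lat_rot_dirs hd)
  have hu := bga_dir_unit ht hr
  have h1 : 1 / 2 ≤ bgaT t (latRot (latRot d)) := by
    rw [bga_T_rot, bga_T_rot, bga_N_rot]; nlinarith
  have h2 : 0 ≤ bgaN t (latRot (latRot d)) := by
    rw [bga_N_rot, bga_T_rot, bga_N_rot]; nlinarith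
  have h3 := abs_le.1 (bga_N_of_T hu (h1.trans (le_abs_self _)))
  exact ⟨hr, h1, (abs_le.1 (bga_dir_abs_le ht hr).1).2, h2, h3.2⟩

/-- the inward direction `e = -d`. -/
theorem bga_e (ht : t.1 ^ 2 + t.2 ^ 2 = 1) (hd : d ∈ latDirs)
    (hN : bgaN t d ≤ -(Real.sqrt 3 / 2)) :
    -d ∈ latDirs ∧ |bgaT t (-d)| ≤ 1 / 2 ∧ Real.sqrt 3 / 2 ≤ bgaN t (-d) ∧ bgaN t (-d) ≤ 1 := by
  refine ⟨lat_dirs_neg hd, ?_, ?_, ?_⟩
  · rw [bga_T_neg, abs_neg]; exact bga_ext_T ht hd hN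
  · rw [bga_N_neg]; linarith
  · exact (abs_le.1 (bga_dir_abs_le ht (lat_dirs_neg hd)).2).2

/-- `fp = fm + e`. -/
theorem bga_fp_eq (d : TV) : latRot (latRot d) = latRot d + -d := bga_rot_rot d

/-- the left-down direction `-fp`. -/
theorem bga_neg_fp (ht : t.1 ^ 2 + t.2 ^ 2 = 1) (hd : d ∈ latDirs)
    (hN : bgaN t d ≤ -(Real.sqrt 3 / 2)) :
    -latRot (latRot d) ∈ latDirs ∧ -1 ≤ bgaT t (-latRot (latRot d)) ∧
      bgaT t (-latRot (latRot d)) ≤ -(1 / 2) ∧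
      -(Real.sqrt 3 / 2) ≤ bgaN t (-latRot (latRot d)) ∧ bgaN t (-latRot (latRot d)) ≤ 0 := by
  obtain ⟨h0, h1, h2, h3, h4⟩ := bga_fp ht hd hN
  rw [bga_T_neg, bga_N_neg]
  exact ⟨lat_dirs_neg h0, by linarith, by linarith, by linarith, by linarith⟩

/-- the left-up direction `-fm`. -/
theorem bga_neg_fm (ht : t.1 ^ 2 + t.2 ^ 2 = 1) (hd : d ∈ latDirs)
    (hN : bgaN t d ≤ -(Real.sqrt 3 / 2)) :
    -latRot d ∈ latDirs ∧ -1 ≤ bgaT t (-latRot d) ∧ bgaT t (-latRot d) ≤ -(1 / 2) ∧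
      0 ≤ bgaN t (-latRot d) ∧ bgaN t (-latRot d) ≤ Real.sqrt 3 / 2 := by
  obtain ⟨h0, h1, h2, h3, h4⟩ := bga_fm ht hd hN
  rw [bga_T_neg, bga_N_neg]
  exact ⟨lat_dirs_neg h0, by linarith, by linarith, by linarith, by linarith⟩

end dirs

/-! ### 4. Distances to the base site, the exterior ray -/

section ray

variable {F : Finset TV} {dl R a : ℝ} {p t : ℝ × ℝ} {c d : TV}

/-- Euclidean distance to `p` of a site, through the base site `c` (`p` in the face of `c`). -/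
theorem bga_E_le (hdl : 0 < dl) (hc : p ∈ hexFace dl c) (u : TV) :
    hgE (triPos dl u) p ≤ (latN (u - c) + 1) * dl := by
  have h1 := hg_E_triangle (triPos dl u) (triPos dl c) p
  have h2 := hg_E_le_latN hdl u c
  have h3 := hg_E_face_le hdl hc
  rw [hg_E_comm] at h3
  nlinarith

theorem bga_sqDist_le (hdl : 0 < dl) (hc : p ∈ hexFace dl c) {u : TV}
    (h : (latN (u - c) + 1) * dl ≤ R) : sqDist (triPos dl u) p ≤ R ^ 2 := by
  have hR : 0 ≤ R := le_trans (by positivity) h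
  rw [← hg_E_le_iff hR]
  exact (bga_E_le hdl hc u).trans h

/-- the base site is at depth and abscissa at most `dl`. -/
theorem bga_base (ht : t.1 ^ 2 + t.2 ^ 2 = 1) (hdl : 0 < dl) (hc : p ∈ hexFace dl c) :
    |dc2X p t (triPos dl c)| ≤ dl ∧ |dc2Y p t (triPos dl c)| ≤ dl := by
  have h3 := hg_E_face_le hdl hc
  rw [hg_E_comm] at h3
  exact ⟨(bga_X_abs_le ht _).trans h3, (bga_Y_abs_le ht _).trans h3⟩

theorem bga_latN_nsmul {d : TV} (hd : d ∈ latDirs) (k : ℕ) : latN (k • d) = k := by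
  simp only [latDirs, Finset.mem_insert, Finset.mem_singleton] at hd
  rcases hd with rfl | rfl | rfl | rfl | rfl | rfl <;>
    simp only [latN, Prod.smul_mk, nsmul_eq_mul] <;> omega

/-- depth and abscissa along a straight lattice walk. -/
theorem bga_Y_nsmul (p t : ℝ × ℝ) (dl : ℝ) (z d : TV) (k : ℕ) :
    dc2Y p t (triPos dl (z + k • d)) = dc2Y p t (triPos dl z) + k * (dl * bgaN t d) := by
  rw [bga_Y_add, bga_N_nsmul]; ring

theorem bga_X_nsmul (p t : ℝ × ℝ) (dl : ℝ) (z d : TV) (k : ℕ) :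
    dc2X p t (triPos dl (z + k • d)) = dc2X p t (triPos dl z) + k * (dl * bgaT t d) := by
  rw [bga_X_add, bga_T_nsmul]; ring

/-- **the exterior ray**: the sites `c + k d` with `a + dl ≤ (√3/2) k dl`, `(k+1) dl ≤ R` are
outside `F`. -/
theorem bga_ray (hB : BgaBand F dl p t R a) (ht : t.1 ^ 2 + t.2 ^ 2 = 1) (hdl : 0 < dl)
    (hc : p ∈ hexFace dl c) (hd : d ∈ latDirs) (hN : bgaN t d ≤ -(Real.sqrt 3 / 2)) {k : ℕ}
    (h1 : a + dl ≤ Real.sqrt 3 / 2 * k * dl) (h2 : ((k : ℝ) + 1) * dl ≤ R) : c + k • d ∉ F := by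
  refine hB.1 _ (bga_sqDist_le hdl hc ?_) ?_
  · rw [add_sub_cancel_left, bga_latN_nsmul hd]; exact h2
  · rw [bga_Y_nsmul]
    have h3 := (abs_le.1 (bga_base ht hdl hc).2).2
    have h4 : (k : ℝ) * (dl * bgaN t d) ≤ (k : ℝ) * (dl * -(Real.sqrt 3 / 2)) :=
      mul_le_mul_of_nonneg_left (mul_le_mul_of_nonneg_left hN hdl.le) (by positivity)
    nlinarith

/-! ### 5. Deep hexagons -/

/-- **deep balls**: a hexagon whose centre is at depth `≥ a + m dl` consists of interior sites. -/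
theorem bga_deep_ball (hB : BgaBand F dl p t R a) (ht : t.1 ^ 2 + t.2 ^ 2 = 1) (hdl : 0 < dl)
    (hc : p ∈ hexFace dl c) {z : TV} {m : ℕ} (h1 : ((latN (z - c) : ℝ) + m + 1) * dl ≤ R)
    (h2 : a + m * dl ≤ dc2Y p t (triPos dl z)) : latBall z m ⊆ latInt F := by
  intro u hu
  rw [lat_mem_ball] at hu
  have hum : (latN (u - z) : ℝ) ≤ m := by exact_mod_cast hu
  refine hB.2 u (bga_sqDist_le hdl hc ?_) ?_
  · have h3 : latN (u - c) ≤ latN (u - z) + latN (z - c) := by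
      have := hg_latN_add_le (u - z) (z - c)
      rwa [sub_add_sub_cancel] at this
    have h4 : (latN (u - c) : ℝ) ≤ latN (u - z) + latN (z - c) := by exact_mod_cast h3
    refine le_trans (mul_le_mul_of_nonneg_right ?_ hdl.le) h1
    linarith
  · have h3 := bga_Y_sub p t dl u z
    have h4 := (abs_le.1 (bga_abs_le_latN ht (u - z)).2).1
    have h5 : dl * -(m : ℝ) ≤ dl * bgaN t (u - z) :=
      mul_le_mul_of_nonneg_left (by linarith) hdl.le
    linarith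

/-- a deep site is an interior site. -/
theorem bga_deep_site (hB : BgaBand F dl p t R a) (hdl : 0 < dl)
    (hc : p ∈ hexFace dl c) {z : TV} (h1 : ((latN (z - c) : ℝ) + 1) * dl ≤ R)
    (h2 : a ≤ dc2Y p t (triPos dl z)) : z ∈ latInt F :=
  hB.2 z (bga_sqDist_le hdl hc h1) h2

/-- a site far below is outside. -/
theorem bga_low_site (hB : BgaBand F dl p t R a) (hdl : 0 < dl)
    (hc : p ∈ hexFace dl c) {z : TV} (h1 : ((latN (z - c) : ℝ) + 1) * dl ≤ R)
    (h2 : dc2Y p t (triPos dl z) ≤ -a) : z ∉ F :=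
  hB.1 z (bga_sqDist_le hdl hc h1) h2

end ray

/-! ### 6. The greedy horizontal walk -/

/-- the greedy walk at depth `Y0`: step `fm` (down) when at depth `≥ Y0`, step `fp` (up) otherwise. -/
noncomputable def bgaW (dl : ℝ) (p t : ℝ × ℝ) (fp fm : TV) (Y0 : ℝ) (z : TV) : ℕ → TV
  | 0 => z
  | (i + 1) =>
    if Y0 ≤ dc2Y p t (triPos dl (bgaW dl p t fp fm Y0 z i)) then bgaW dl p t fp fm Y0 z i + fm
    else bgaW dl p t fp fm Y0 z i + fp

section walk

variable {dl : ℝ} {p t : ℝ × ℝ} {fp fm : TV} {Y0 : ℝ} {z : TV}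

@[simp] theorem bga_W_zero : bgaW dl p t fp fm Y0 z 0 = z := rfl

theorem bga_W_succ (i : ℕ) : bgaW dl p t fp fm Y0 z (i + 1) =
    if Y0 ≤ dc2Y p t (triPos dl (bgaW dl p t fp fm Y0 z i)) then bgaW dl p t fp fm Y0 z i + fm
    else bgaW dl p t fp fm Y0 z i + fp := rfl

theorem bgaW_eqns_cite (i : ℕ) : bgaW dl p t fp fm Y0 z 0 = z ∧ bgaW dl p t fp fm Y0 z (i + 1) =
    if Y0 ≤ dc2Y p t (triPos dl (bgaW dl p t fp fm Y0 z i)) then bgaW dl p t fp fm Y0 z i + fm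
    else bgaW dl p t fp fm Y0 z i + fp := ⟨rfl, rfl⟩

/-- every step is `fm` or `fp`. -/
theorem bga_W_step (i : ℕ) :
    (Y0 ≤ dc2Y p t (triPos dl (bgaW dl p t fp fm Y0 z i)) ∧
      bgaW dl p t fp fm Y0 z (i + 1) = bgaW dl p t fp fm Y0 z i + fm) ∨
    (dc2Y p t (triPos dl (bgaW dl p t fp fm Y0 z i)) < Y0 ∧
      bgaW dl p t fp fm Y0 z (i + 1) = bgaW dl p t fp fm Y0 z i + fp) := by
  rw [bga_W_succ]
  by_cases h : Y0 ≤ dc2Y p t (triPos dl (bgaW dl p t fp fm Y0 z i))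
  · left; exact ⟨h, by rw [if_pos h]⟩
  · right; exact ⟨not_le.1 h, by rw [if_neg h]⟩

/-- the steps are lattice edges. -/
theorem bga_W_adj (hp : fp ∈ latDirs) (hm : fm ∈ latDirs) (i : ℕ) :
    triAdj (bgaW dl p t fp fm Y0 z i) (bgaW dl p t fp fm Y0 z (i + 1)) := by
  rcases bga_W_step (dl := dl) (p := p) (t := t) (fp := fp) (fm := fm) (Y0 := Y0) (z := z) i
    with ⟨-, h⟩ | ⟨-, h⟩
  · rw [h]; exact lat_adj_add _ hm
  · rw [h]; exact lat_adj_add _ hp

/-- the walk stays within `i` steps of its origin. -/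
theorem bga_W_latN (hp : fp ∈ latDirs) (hm : fm ∈ latDirs) (i : ℕ) :
    latN (bgaW dl p t fp fm Y0 z i - z) ≤ i := by
  induction i with
  | zero => simp [latN]
  | succ i ih =>
    rcases bga_W_step (dl := dl) (p := p) (t := t) (fp := fp) (fm := fm) (Y0 := Y0) (z := z) i
      with ⟨-, h⟩ | ⟨-, h⟩
    · rw [h, add_sub_right_comm]
      have := hg_latN_add_le (bgaW dl p t fp fm Y0 z i - z) fm
      rw [hg_latN_dir hm] at this
      omega
    · rw [h, add_sub_right_comm]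
      have := hg_latN_add_le (bgaW dl p t fp fm Y0 z i - z) fp
      rw [hg_latN_dir hp] at this
      omega

/-- **depth control**: the depth of the greedy walk stays within `max (b dl) |depth z - Y0|` of
`Y0` (`b` = bound of the normal components; `b = √3/2` for the horizontal pairs). -/
theorem bga_W_depth (hdl : 0 ≤ dl) {b : ℝ} (hp0 : 0 ≤ bgaN t fp) (hp1 : bgaN t fp ≤ b)
    (hm0 : bgaN t fm ≤ 0) (hm1 : -b ≤ bgaN t fm) (i : ℕ) :
    |dc2Y p t (triPos dl (bgaW dl p t fp fm Y0 z i)) - Y0|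
      ≤ max (b * dl) |dc2Y p t (triPos dl z) - Y0| := by
  induction i with
  | zero => exact le_max_right _ _
  | succ i ih =>
    set M := max (b * dl) |dc2Y p t (triPos dl z) - Y0| with hM
    have hbM : b * dl ≤ M := le_max_left _ _
    obtain ⟨i1, i2⟩ := abs_le.1 ih
    rcases bga_W_step (dl := dl) (p := p) (t := t) (fp := fp) (fm := fm) (Y0 := Y0) (z := z) i
      with ⟨h0, h⟩ | ⟨h0, h⟩
    · rw [h, bga_Y_add, abs_le]
      have e1 : dl * bgaN t fm ≤ 0 := mul_nonpos_of_nonneg_of_nonpos hdl hm0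
      have e2 : dl * -b ≤ dl * bgaN t fm := mul_le_mul_of_nonneg_left hm1 hdl
      constructor <;> nlinarith
    · rw [h, bga_Y_add, abs_le]
      have e1 : 0 ≤ dl * bgaN t fp := mul_nonneg hdl hp0
      have e2 : dl * bgaN t fp ≤ dl * b := mul_le_mul_of_nonneg_left hp1 hdl
      constructor <;> nlinarith

/-- **abscissa, one step to the right**. -/
theorem bga_W_X_step (hdl : 0 ≤ dl) {lo hi : ℝ} (hp0 : lo ≤ bgaT t fp) (hp1 : bgaT t fp ≤ hi)
    (hm0 : lo ≤ bgaT t fm) (hm1 : bgaT t fm ≤ hi) (i : ℕ) :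
    dc2X p t (triPos dl (bgaW dl p t fp fm Y0 z i)) + lo * dl
        ≤ dc2X p t (triPos dl (bgaW dl p t fp fm Y0 z (i + 1))) ∧
      dc2X p t (triPos dl (bgaW dl p t fp fm Y0 z (i + 1)))
        ≤ dc2X p t (triPos dl (bgaW dl p t fp fm Y0 z i)) + hi * dl := by
  rcases bga_W_step (dl := dl) (p := p) (t := t) (fp := fp) (fm := fm) (Y0 := Y0) (z := z) i
    with ⟨-, h⟩ | ⟨-, h⟩
  · rw [h, bga_X_add]
    have e1 : dl * lo ≤ dl * bgaT t fm := mul_le_mul_of_nonneg_left hm0 hdl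
    have e2 : dl * bgaT t fm ≤ dl * hi := mul_le_mul_of_nonneg_left hm1 hdl
    constructor <;> linarith
  · rw [h, bga_X_add]
    have e1 : dl * lo ≤ dl * bgaT t fp := mul_le_mul_of_nonneg_left hp0 hdl
    have e2 : dl * bgaT t fp ≤ dl * hi := mul_le_mul_of_nonneg_left hp1 hdl
    constructor <;> linarith

/-- **abscissa after `i` steps**. -/
theorem bga_W_X (hdl : 0 ≤ dl) {lo hi : ℝ} (hp0 : lo ≤ bgaT t fp) (hp1 : bgaT t fp ≤ hi)
    (hm0 : lo ≤ bgaT t fm) (hm1 : bgaT t fm ≤ hi) (i : ℕ) :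
    dc2X p t (triPos dl z) + i * (lo * dl) ≤ dc2X p t (triPos dl (bgaW dl p t fp fm Y0 z i)) ∧
      dc2X p t (triPos dl (bgaW dl p t fp fm Y0 z i)) ≤ dc2X p t (triPos dl z) + i * (hi * dl) := by
  induction i with
  | zero => simp
  | succ i ih =>
    obtain ⟨s1, s2⟩ := bga_W_X_step (p := p) (Y0 := Y0) (z := z) hdl hp0 hp1 hm0 hm1 i
    push_cast
    constructor <;> nlinarith [ih.1, ih.2]

/-- the greedy walk as a chain of lattice edges inside a set `S` stable under the control. -/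
theorem bga_W_reach (hp : fp ∈ latDirs) (hm : fm ∈ latDirs) {S : Set TV} {k : ℕ}
    (hS : ∀ i ≤ k, bgaW dl p t fp fm Y0 z i ∈ S) :
    Relation.ReflTransGen (fun a b => triAdj a b ∧ b ∈ S) z (bgaW dl p t fp fm Y0 z k) := by
  induction k with
  | zero => exact Relation.ReflTransGen.refl
  | succ k ih =>
    exact (ih fun i hi => hS i (Nat.le_succ_of_le hi)).tail
      ⟨bga_W_adj hp hm k, hS (k + 1) le_rfl⟩

/-- straight walks as chains of lattice edges. -/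
theorem bga_line_reach {d : TV} (hd : d ∈ latDirs) {S : Set TV} {z : TV} {k : ℕ}
    (hS : ∀ i ≤ k, z + i • d ∈ S) :
    Relation.ReflTransGen (fun a b => triAdj a b ∧ b ∈ S) z (z + k • d) := by
  induction k with
  | zero => simp only [zero_smul, add_zero]; exact Relation.ReflTransGen.refl
  | succ k ih =>
    refine (ih fun i hi => hS i (Nat.le_succ_of_le hi)).tail ⟨?_, hS (k + 1) le_rfl⟩
    rw [succ_nsmul, ← add_assoc]
    exact lat_adj_add _ hd

end walk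

end Claimed.Agent.R291
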