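import Claimed.Agent.R291.Bdy.GeoB

/-!
# Row 291 (S0539), unit BDY, file Bdy/GeoArch: proof of `exit_bdy_geo`      (owner helper25; prefix `bgd_`)

Deterministic geometry of TEX[prop:boundary-arch] (06-boundary.tex l.540-682): existence of `BdyPack` (Defs/BdyGeo) at every fine mesh.
Inputs: `Bdy/GeoB` (context `BgcCtx`, scale `BgcSc`, arcs), `Bdy/GeoF` (helper172: frame, anchors), `Bdy/GeoK` (helper119: one block).

* `bgd_co`      the complement of the free set `latInt (F n)` is connected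
* `bgd_c_off`   the base site is not free
* `bgd_in`      the window arc `Sin`, with `start`, `win`
* `bgd_out`     the far arc `Sout`, with `stop`, `far`, `sout_ray`
* `bgd_scale`   the numerics of the scales `a_j = κ^j a_0`
* `bgd_pack`    the package at one mesh
* `bgd_main`    the statement of `exit_bdy_geo`
-/

set_option autoImplicit false

open Set Filter Topology
open Claims Claims.C0467

namespace Claimed.Agent.R291

/-! ### the complement of the free set -/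

/-- the complement of `F n` is connected. -/
theorem bgd_co_F {D : Set (ℝ × ℝ)} {δ : ℕ → ℝ} {F : ℕ → Finset TV} (h : IsInsideApprox D δ F) (n : ℕ) : MomCo (F n) := by
  intro u hu v hv
  have h1 := hg_compl_reach h n (u := u) (v := v) hu hv
  have key : ∀ w, Relation.ReflTransGen (fun a b => triAdj a b ∧ b ∉ F n) u w →
      w ∉ F n ∧ TscR tscG ((F n : Set TV)ᶜ) u w := by
    intro w hw
    induction hw with
    | refl => exact ⟨hu, Relation.ReflTransGen.refl⟩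
    | tail _ hbc ih => exact ⟨hbc.2, ih.2.tail ⟨hbc.1, ih.1, hbc.2⟩⟩
  exact (key v h1).2

/-- passing to the interior keeps the complement connected. -/
theorem bgd_co_int {A : Finset TV} (hA : MomCo A) : MomCo (latInt A) := by
  have hsub : ((↑A : Set TV)ᶜ) ⊆ ((↑(latInt A) : Set TV)ᶜ) := fun a ha hc => ha (lat_int_sub A hc)
  obtain ⟨o, ho⟩ := Infinite.exists_notMem_finset A
  have key : ∀ a, a ∉ latInt A → TscR tscG ((↑(latInt A) : Set TV)ᶜ) a o := by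
    intro a ha
    by_cases haD : a ∈ A
    · have hb : a ∈ latBd A := by
        rw [lat_int_eq, Finset.mem_sdiff] at ha
        by_contra hc
        exact ha ⟨haD, hc⟩
      obtain ⟨_, v, hav, hv⟩ := lat_mem_bd.1 hb
      exact Relation.ReflTransGen.head ⟨hav, ha, hsub hv⟩ (tsc_R_mono hsub (hA v hv o ho))
    · exact tsc_R_mono hsub (hA a haD o ho)
  intro a ha b hb
  exact tsc_R_trans (key a ha) (tsc_R_symm (key b hb))

/-- **the complement of the free set is connected.** -/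
theorem bgd_co {D : Set (ℝ × ℝ)} {δ : ℕ → ℝ} {F : ℕ → Finset TV} (h : IsInsideApprox D δ F) (n : ℕ) :
    MomCo (latInt (F n)) := bgd_co_int (bgd_co_F h n)

/-- **the base site is not free.** -/
theorem bgd_c_off {D : Set (ℝ × ℝ)} (hDo : IsOpen D) {δ : ℝ} (hδ : 0 < δ) {F : Finset TV} (hF : faceRegion δ F ⊆ D)
    {p : ℝ × ℝ} (hp : p ∈ frontier D) {c : TV} (hc : p ∈ hexFace δ c) : c ∉ latInt F := by
  intro h
  obtain ⟨h1, h2⟩ := lat_mem_int.1 h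
  have h3 : p ∈ D := hF (hg_hexFace_subset_faceRegion hδ h1 h2 hc)
  rw [hDo.frontier_eq] at hp
  exact hp.2 h3

section ctx

variable {D : Set (ℝ × ℝ)} {F : Finset TV} {δ ε : ℝ} {γ gs : Circle → ℝ × ℝ} {r C η : ℝ} {p t : ℝ × ℝ} {g : ℝ → ℝ}
  {c d : TV} {k a M : ℕ}

/-! ### the window arc -/

/-- **the window arc** `Sin`, with the fields `start`, `win`. -/
theorem bgd_in (X : BgcCtx D F δ ε γ gs r C p t g c d k) (S : BgcSc F δ ε r C η p t a M) {ri : ℝ} (hri : 0 < ri)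
    (hia : 4 * ri ≤ a * δ) :
    (∀ u ∈ bdyIn δ p ri, latN (u - c) < a) ∧
    ∃ Sin : Finset TV, TscConn tscG (Sin : Set TV) ∧ Disjoint Sin (latInt F) ∧ Sin ⊆ latBall c a ∧
      ∀ u ∈ latOut (latInt F), u ∈ bdyIn δ p ri → u ∈ Sin := by
  have hδ := X.apx.dpos
  obtain ⟨n1, n2, n3, n4⟩ := S.num hδ X.apx.epos
  have hηa := S.eta_a
  have eW : (2 * (M:ℝ) + 2) * δ = 2 * (M * δ) + 2 * δ := by ring
  have hr : (2 * (M:ℝ) + 2) * δ ≤ r := by linarith [S.box]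
  have hin : ∀ u ∈ bdyIn δ p ri, |dc2X p t (triPos δ u)| ≤ ri ∧ |dc2Y p t (triPos δ u)| ≤ ri := by
    intro u hu
    exact dc2_XY_le X.gr.unit hri.le (le_of_lt hu)
  have hstart : ∀ u ∈ bdyIn δ p ri, latN (u - c) < a := by
    intro u hu
    obtain ⟨b1, b2⟩ := hin u hu
    have q1 := bgc_rad_le X b1 b2
    have : (latN (u - c) : ℝ) * δ < (a : ℝ) * δ := by linarith
    have := lt_of_mul_lt_mul_right this hδ.le
    exact_mod_cast this
  have hw1 : -((2 * (M:ℝ) + 2) * δ) ≤ -(ri + 2 * η) := by rw [eW]; linarith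
  have hw2 : ri + 2 * η ≤ (2 * (M:ℝ) + 2) * δ := by rw [eW]; linarith
  refine ⟨hstart, bgcArc δ F gs γ p t g (-(ri + 2 * η)) (ri + 2 * η), bgc_arc_conn X (by linarith) (by linarith),
    bgc_bd_off (bgc_arc_sub _ _ _ _ _ _ _ _ _), fun u hu => ?_, fun u hu hi => ?_⟩
  · obtain ⟨l1, l2, l3⟩ := bgc_arc_loc X S hw1 hw2 hu
    have q1 := bgc_rad_le X (e1 := ri + 3 * η) (abs_le.2 ⟨by linarith, by linarith⟩) l3
    rw [lat_mem_ball]
    have : (latN (u - c) : ℝ) * δ ≤ (a : ℝ) * δ := by linarith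
    have := le_of_mul_le_mul_right this hδ
    exact_mod_cast this
  · have b1 := abs_le.1 (hin u hi).1
    exact bgc_arc_capture X S hw1 hw2 (bgc_out_bd F hu) ((hstart u hi).le.trans S.aM) (by linarith [b1.1]) (by linarith [b1.2])

/-! ### the far arc -/

/-- a deep site on the inward ray. -/
theorem bgd_deep_ray (X : BgcCtx D F δ ε γ gs r C p t g c d k) (S : BgcSc F δ ε r C η p t a M) :
    c + M • (-d) ∈ F ∧ latN (c + M • (-d) - c) = M := by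
  have hδ := X.apx.dpos
  obtain ⟨n1, n2, n3, n4⟩ := S.num hδ X.apx.epos
  obtain ⟨he, -, heN, -⟩ := bga_e X.gr.unit X.hd X.hN
  have hl : latN (c + M • (-d) - c) = M := by rw [add_sub_cancel_left, bga_latN_nsmul he]
  refine ⟨lat_int_sub F (bgc_deep X S (by omega) ?_), hl⟩
  rw [bga_Y_nsmul]
  have h3 := (abs_le.1 (bga_base (p := p) X.gr.unit hδ X.hc).2).1
  obtain ⟨s2, s0, -⟩ := bga_sqrt3
  have s3 : (1 : ℝ) ≤ Real.sqrt 3 := by nlinarith
  have h4 : (M : ℝ) * δ * (1 / 2) ≤ (M : ℝ) * (δ * bgaN t (-d)) := by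
    have : (1:ℝ) / 2 ≤ bgaN t (-d) := by linarith
    have hM : 0 ≤ (M:ℝ) * δ := by positivity
    nlinarith
  linarith

/-- **the far arc** `Sout`, with the fields `stop`, `far`, `sout_ray`. -/
theorem bgd_out (X : BgcCtx D F δ ε γ gs r C p t g c d k) (S : BgcSc F δ ε r C η p t a M) {Ro : ℝ} {Rtop : ℕ}
    (hM : 2 * (Rtop + 1) + a ≤ M) (hRo : (Rtop + 1) * δ + 5 * η < Ro) :
    (∀ u ∈ bdyOut δ p Ro, u ∉ latBall c Rtop) ∧
    ∃ Sout : Finset TV, TscConn tscG (Sout : Set TV) ∧ Disjoint Sout (latInt F) ∧ Disjoint Sout (latBall c Rtop) ∧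
      (∃ u ∈ Sout, ∃ e ∈ latDirs, ∀ j : ℕ, u + j • e ∉ latInt F ∧ u + j • e ∉ latBall c Rtop) ∧
      ∀ u ∈ latOut (latInt F), u ∈ bdyOut δ p Ro → u ∈ Sout := by
  have hδ := X.apx.dpos
  obtain ⟨n1, n2, n3, n4⟩ := S.num hδ X.apx.epos
  have hηa := S.eta_a
  have eW : (2 * (M:ℝ) + 2) * δ = 2 * (M * δ) + 2 * δ := by ring
  have hr : (2 * (M:ℝ) + 2) * δ ≤ r := by linarith [S.box]
  have hM' : 2 * (((Rtop:ℝ) + 1) * δ) + a * δ ≤ M * δ := by
    have : 2 * ((Rtop:ℝ) + 1) + a ≤ M := by exact_mod_cast hM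
    nlinarith
  set T := ((Rtop:ℝ) + 1) * δ with hT
  have hT0 : 0 ≤ T := by positivity
  have hw1 : -((2 * (M:ℝ) + 2) * δ) ≤ -(T + 2 * η) := by rw [eW]; linarith
  have hw2 : T + 2 * η ≤ (2 * (M:ℝ) + 2) * δ := by rw [eW]; linarith
  have hball : ∀ u, latN (u - c) ≤ Rtop → |dc2X p t (triPos δ u)| ≤ T ∧ |dc2Y p t (triPos δ u)| ≤ T := by
    intro u hu
    exact bgb_ball_coord (p := p) X.gr.unit hδ X.hc hu
  -- sites of the arc over the window are close to `p`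
  have hloc : ∀ u ∈ bgcArc δ F gs γ p t g (-(T + 2 * η)) (T + 2 * η),
      sqDist (triPos δ u) p < Ro ^ 2 ∧ (latN (u - c) : ℝ) * δ < M * δ := by
    intro u hu
    obtain ⟨l1, l2, l3⟩ := bgc_arc_loc X S hw1 hw2 hu
    have hX : |dc2X p t (triPos δ u)| ≤ T + 3 * η := abs_le.2 ⟨by linarith, by linarith⟩
    have q1 := bgc_rad_le X hX l3
    refine ⟨?_, by linarith⟩
    rw [dc2_sqDist_XY X.gr.unit]
    have a1 : dc2X p t (triPos δ u) ^ 2 ≤ (T + 3 * η) ^ 2 := sq_le_sq' (by linarith [(abs_le.1 hX).1]) (abs_le.1 hX).2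
    have a2 : dc2Y p t (triPos δ u) ^ 2 ≤ (2 * η) ^ 2 := sq_le_sq' (by linarith [(abs_le.1 l3).1]) (abs_le.1 l3).2
    have a3 : (T + 3 * η) ^ 2 + (2 * η) ^ 2 ≤ (T + 5 * η) ^ 2 := by nlinarith
    have a4 : (T + 5 * η) ^ 2 < Ro ^ 2 := pow_lt_pow_left₀ hRo (by positivity) (by norm_num)
    linarith
  have hunion : ∀ u ∈ latBd F, u ∉ bgcArc δ F gs γ p t g (-(T + 2 * η)) (T + 2 * η) →
      u ∈ bgcCo δ F gs γ p t g (-(T + 2 * η)) (T + 2 * η) := by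
    intro u hu hn
    have h1 : u ∈ bgbPatch δ F gs γ p t g (-(T + 2 * η)) (T + 2 * η) ∪ bgbRest δ F gs γ p t g (-(T + 2 * η)) (T + 2 * η) := by
      rw [X.apx.patch_union]; exact hu
    rcases h1 with h1 | h1
    · exact absurd ((bgc_mem_arc X.apx).2 h1) hn
    · exact (bgc_mem_co X.apx).2 h1
  refine ⟨fun u hu hb => ?_, bgcCo δ F gs γ p t g (-(T + 2 * η)) (T + 2 * η), bgc_co_conn X (by linarith) (by linarith),
    bgc_bd_off (bgc_co_sub _ _ _ _ _ _ _ _ _), ?_, ?_, fun u hu ho => ?_⟩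
  · have h1 := bgb_ball_sqDist (p := p) hδ X.hc (lat_mem_ball.1 hb)
    have h2 : Ro ^ 2 ≤ sqDist (triPos δ u) p := hu
    have h3 : T ^ 2 < Ro ^ 2 := pow_lt_pow_left₀ (by linarith) hT0 (by norm_num)
    linarith
  · rw [Finset.disjoint_left]
    intro u hu hb
    have hb' := lat_mem_ball.1 hb
    have b1 := abs_le.1 (hball u hb').1
    exact bgc_co_far X S hw1 hw2 (by omega) (by linarith [b1.1]) (by linarith [b1.2]) hu
  · obtain ⟨hw0, hw0M⟩ := bgd_deep_ray X S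
    obtain ⟨u, huF, e, he, h1, h2⟩ := bgb_extreme (c := c) hw0
    rw [hw0M] at h1 h2
    have hubd : u ∈ latBd F := by
      refine lat_mem_bd.2 ⟨huF, u + e, lat_adj_add u he, ?_⟩
      have := (h2 1 le_rfl).1
      rwa [one_smul] at this
    refine ⟨u, hunion u hubd fun hn => ?_, e, he, fun j => ?_⟩
    · have := (hloc u hn).2
      have h3 := lt_of_mul_lt_mul_right this hδ.le
      have : latN (u - c) < M := by exact_mod_cast h3
      omega
    · rcases Nat.eq_zero_or_pos j with rfl | hj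
      · rw [zero_smul, add_zero, lat_mem_ball]
        refine ⟨fun hi => ?_, by omega⟩
        rw [lat_int_eq, Finset.mem_sdiff] at hi
        exact hi.2 hubd
      · obtain ⟨g1, g2⟩ := h2 j hj
        rw [lat_mem_ball]
        exact ⟨fun hi => g1 (lat_int_sub F hi), by omega⟩
  · refine hunion u (bgc_out_bd F hu) fun hn => ?_
    have h2 : Ro ^ 2 ≤ sqDist (triPos δ u) p := ho
    linarith [(hloc u hn).1]

end ctx

/-! ### the package at one mesh -/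

/-- the ratio of two consecutive blocks. -/
def bgdK (Lq ms : ℕ) : ℕ := 576 * (Lq * ms * ms) + 3

theorem bgd_eqns_cite : True := by
  have := @bgdK.eq_1
  trivial

theorem bgd_M_eq (Lq ms a : ℕ) : bgcM Lq ms a = 576 * (Lq * ms * ms) * a + 1 := by
  unfold bgcM bgcL; ring

section ctx

variable {D : Set (ℝ × ℝ)} {F : Finset TV} {δ ε : ℝ} {γ gs : Circle → ℝ × ℝ} {r C : ℝ} {p t : ℝ × ℝ} {g : ℝ → ℝ}
  {c d : TV} {k : ℕ}

/-- **the package at one mesh.** -/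
theorem bgd_pack (X : BgcCtx D F δ ε γ gs r C p t g c d k) (hco : MomCo (latInt F)) (hcoff : c ∉ latInt F)
    {K1 Lq n0 ms N a0 : ℕ} (hLq : 1 ≤ Lq) (hms : 1 ≤ ms) (ha0 : 1 ≤ a0) (hn0 : n0 ≤ a0)
    (S : ∀ j ≤ N, ∃ η, BgcSc F δ ε r C η p t (bgdK Lq ms ^ j * a0) (bgcM Lq ms (bgdK Lq ms ^ j * a0)))
    (hblk : ∀ (a : ℕ) (η : ℝ), BgcSc F δ ε r C η p t a (bgcM Lq ms a) → 1 ≤ a → n0 ≤ a →
      ∃ B : BdyBlkD, B.a = a ∧ B.b3 = 24 * ms * bgcL Lq ms a ∧ BdyBlk (latInt F) c k K1 Lq n0 ms B)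
    {ri Ro : ℝ} (hri : 0 < ri) (hia : 4 * ri ≤ a0 * δ)
    (hRo : 2 * (((bgdK Lq ms ^ N * a0 : ℕ) : ℝ) * δ) + δ < Ro) :
    ∃ (Sin Sout : Finset TV) (Rtop : ℕ) (B : ℕ → BdyBlkD),
      BdyPack δ p ri Ro (latInt F) K1 Lq n0 ms N c k Sin Sout Rtop B := by
  have hδ := X.apx.dpos
  set κ := bgdK Lq ms with hκ
  have hκ1 : 1 ≤ κ := by rw [hκ]; unfold bgdK; omega
  have hq : 1 ≤ Lq * ms * ms := Nat.mul_pos (Nat.mul_pos hLq hms) hms
  have hpow : ∀ j, 1 ≤ κ ^ j := fun j => Nat.one_le_pow _ _ hκ1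
  have haj : ∀ j, a0 ≤ κ ^ j * a0 := fun j => Nat.le_mul_of_pos_left _ (hpow j)
  have hB : ∀ j, ∃ B : BdyBlkD, B.a = κ ^ j * a0 ∧ B.b3 = 24 * ms * bgcL Lq ms (κ ^ j * a0) ∧
      (j ≤ N → BdyBlk (latInt F) c k K1 Lq n0 ms B) := by
    intro j
    by_cases hj : j ≤ N
    · obtain ⟨η, Sj⟩ := S j hj
      obtain ⟨B, h1, h2, h⟩ := hblk _ η Sj (ha0.trans (haj j)) (hn0.trans (haj j))
      exact ⟨B, h1, h2, fun _ => h⟩
    · exact ⟨bgcBlk Lq ms (κ ^ j * a0) [] 0 0 ∅ ∅, rfl, rfl, fun h => absurd h hj⟩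
  choose B ea eb hB using hB
  obtain ⟨η0, S0⟩ := S 0 (Nat.zero_le N)
  rw [pow_zero, one_mul] at S0
  obtain ⟨hstart, Sin, i1, i2, i3, i4⟩ := bgd_in X S0 hri hia
  obtain ⟨ηN, SN⟩ := S N le_rfl
  have hMN : 2 * (κ ^ N * a0 + 1) + κ ^ N * a0 ≤ bgcM Lq ms (κ ^ N * a0) := by
    rw [bgd_M_eq]
    have h1 : 1 ≤ κ ^ N * a0 := ha0.trans (haj N)
    have h2 : 1 * (κ ^ N * a0) ≤ Lq * ms * ms * (κ ^ N * a0) := Nat.mul_le_mul_right _ hq
    nlinarith
  have hRo' : (((κ ^ N * a0 : ℕ) : ℝ) + 1) * δ + 5 * ηN < Ro := by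
    have := SN.eta_a
    have h0 : 0 ≤ ((κ ^ N * a0 : ℕ) : ℝ) * δ := by positivity
    nlinarith
  obtain ⟨hstop, Sout, o1, o2, o3, o4, o5⟩ := bgd_out X SN hMN hRo'
  refine ⟨Sin, Sout, κ ^ N * a0, B, ?_⟩
  have hnest : ∀ j, 3 * (B j).b3 + 3 ≤ κ ^ (j + 1) * a0 := by
    intro j
    rw [eb, pow_succ]
    have h1 : 1 ≤ κ ^ j * a0 := ha0.trans (haj j)
    have e : κ ^ j * κ * a0 = 576 * (Lq * ms * ms) * (κ ^ j * a0) + 3 * (κ ^ j * a0) := by
      rw [hκ]; unfold bgdK; ring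
    have e' : 3 * (24 * ms * bgcL Lq ms (κ ^ j * a0)) = 576 * (Lq * ms * ms) * (κ ^ j * a0) := by
      unfold bgcL; ring
    rw [e, e']; omega
  have e0 : (B 0).a = a0 := by rw [ea, pow_zero, one_mul]
  refine ⟨⟨hco, hcoff, i1, i2, ?_, o1, o2, o3, o4⟩, fun j hj => hB j hj.le, fun j _ => ?_, fun j hj => ?_, ?_, hstop, i4, o5⟩
  · rw [e0]; exact i3
  · rw [ea]; exact hnest j
  · have h1 := hnest j
    have h2 : κ ^ (j + 1) * a0 ≤ κ ^ N * a0 := Nat.mul_le_mul_right _ (Nat.pow_le_pow_right hκ1 hj)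
    omega
  · rw [e0]; exact hstart

end ctx

/-! ### the scales and the final statement -/

/-- **the numerics of one scale** `a = κj a0`, `4 ri ≤ a0 δ ≤ 5 ri`, `η = κj ri / 50`. -/
theorem bgd_scale {F : Finset TV} {δ ε r C ri : ℝ} {p t : ℝ × ℝ} {Lq ms a0 κj : ℕ} (hδ : 0 < δ) (hri : 0 < ri)
    (hC : 0 ≤ C) (hLq : 1 ≤ Lq) (hms : 1 ≤ ms) (h1 : δ + ε ≤ ri / 50) (ha1 : 4 * ri ≤ a0 * δ) (ha2 : a0 * δ ≤ 5 * ri)
    (ha0 : 1 ≤ a0) (hκj : 1 ≤ κj)
    (hflat : C * (10 * (bgdK Lq ms : ℝ) * κj * ri) ^ 2 ≤ κj * ri / 50) (hbox : 10 * (bgdK Lq ms : ℝ) * κj * ri ≤ r)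
    (hband : BgaBand F δ p t (10 * (bgdK Lq ms : ℝ) * κj * ri) (κj * ri / 50)) :
    BgcSc F δ ε r C (κj * ri / 50) p t (κj * a0) (bgcM Lq ms (κj * a0)) := by
  have hq : 1 ≤ Lq * ms * ms := Nat.mul_pos (Nat.mul_pos hLq hms) hms
  have ha : 1 ≤ κj * a0 := Nat.mul_pos hκj ha0
  have hκj' : (1:ℝ) ≤ κj := by exact_mod_cast hκj
  -- `2 M + 3 ≤ 2 κ a`
  have hM : 2 * bgcM Lq ms (κj * a0) + 3 ≤ 2 * (bgdK Lq ms * (κj * a0)) := by
    rw [bgd_M_eq]; unfold bgdK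
    have : (576 * (Lq * ms * ms) + 3) * (κj * a0) = 576 * (Lq * ms * ms) * (κj * a0) + 3 * (κj * a0) := by ring
    rw [this]; omega
  have hM' : 2 * (bgcM Lq ms (κj * a0) : ℝ) + 3 ≤ 2 * ((bgdK Lq ms : ℝ) * (κj * a0)) := by exact_mod_cast hM
  have hκ0 : (0:ℝ) ≤ bgdK Lq ms := Nat.cast_nonneg _
  have hbig : 2 * ((bgdK Lq ms : ℝ) * (κj * a0)) * δ ≤ 10 * (bgdK Lq ms : ℝ) * κj * ri := by
    have : (bgdK Lq ms : ℝ) * κj * (a0 * δ) ≤ (bgdK Lq ms : ℝ) * κj * (5 * ri) :=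
      mul_le_mul_of_nonneg_left ha2 (by positivity)
    nlinarith
  have hM3 : (2 * (bgcM Lq ms (κj * a0) : ℝ) + 3) * δ ≤ 10 * (bgdK Lq ms : ℝ) * κj * ri :=
    (mul_le_mul_of_nonneg_right hM' hδ.le).trans hbig
  have hMnn : (0:ℝ) ≤ bgcM Lq ms (κj * a0) := Nat.cast_nonneg _
  refine ⟨?_, ?_, ?_, ?_, ?_, ?_⟩
  · have : ri / 50 ≤ κj * ri / 50 := by nlinarith
    linarith
  · push_cast
    have : (κj:ℝ) * (4 * ri) ≤ κj * (a0 * δ) := mul_le_mul_of_nonneg_left ha1 (by positivity)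
    nlinarith
  · rw [bgd_M_eq]
    have : 1 * (κj * a0) ≤ Lq * ms * ms * (κj * a0) := Nat.mul_le_mul_right _ hq
    nlinarith
  · refine le_trans (mul_le_mul_of_nonneg_left (pow_le_pow_left₀ (by positivity) ?_ 2) hC) hflat
    nlinarith
  · exact hM3.trans hbox
  · refine hband.mono (by positivity) ?_ le_rfl
    nlinarith

/-- **the statement of `exit_bdy_geo`**, from the frame lemma and the block lemma. -/
theorem bgd_main_of
    (hframe : ∀ c d : TV, d ∈ latDirs → ∃ k : ℕ,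
      (∀ u, u = c + (bdyFr c k u).1 • (-latRot (latRot d)) + (bdyFr c k u).2 • d) ∧
      ∀ X Y : ℤ, bdyFr c k (c + X • (-latRot (latRot d)) + Y • d) = (X, Y))
    (D : Set (ℝ × ℝ)) (hD : IsC2JordanDomain D) (δ : ℕ → ℝ) (F : ℕ → Finset (ℤ × ℤ)) (hF : IsInsideApprox D δ F)
    (p : ℝ × ℝ) (hp : p ∈ frontier D) (R : ℝ) (hR : 0 < R) (K1 Lq n0 ms N : ℕ) (hK1 : 3 ≤ K1) (hLq : 4 * K1 ≤ Lq) (hms : 2 ≤ ms)
    (hblk : ∀ (F : Finset TV) (δ ε : ℝ) (γ gs : Circle → ℝ × ℝ) (r C : ℝ) (t : ℝ × ℝ) (g : ℝ → ℝ) (c d : TV) (k : ℕ),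
      BgcCtx D F δ ε γ gs r C p t g c d k → ∀ (a : ℕ) (η : ℝ), BgcSc F δ ε r C η p t a (bgcM Lq ms a) → 1 ≤ a → n0 ≤ a →
      ∃ B : BdyBlkD, B.a = a ∧ B.b3 = 24 * ms * bgcL Lq ms a ∧ BdyBlk (latInt F) c k K1 Lq n0 ms B) :
    ∃ r : ℝ, 0 < r ∧ r < R ∧ ∀ᶠ n in atTop, ∃ (c : TV) (k : ℕ) (Sin Sout : Finset TV) (Rtop : ℕ) (B : ℕ → BdyBlkD),
      BdyPack (δ n) p r R (latInt (F n)) K1 Lq n0 ms N c k Sin Sout Rtop B := by
  obtain ⟨r0, hr0, C, hC, hCr, hB⟩ := bga_band_ev hD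
  obtain ⟨t, g, Bx, hband⟩ := hB p hp
  obtain ⟨γ, γs, hb⟩ : ∃ γ γs, HgBd D δ F γ γs := hF.2.2.2.2
  obtain ⟨d, hd, hN⟩ := bga_ext_dir Bx.graph.unit
  have hLq1 : 1 ≤ Lq := by omega
  have hms1 : 1 ≤ ms := by omega
  set κ : ℝ := (bgdK Lq ms : ℝ) with hκ
  have hκ1 : (1:ℝ) ≤ κ := by
    rw [hκ]
    have : 1 ≤ bgdK Lq ms := by unfold bgdK; omega
    exact_mod_cast this
  set K : ℝ := κ ^ N with hK
  have hK1' : (1:ℝ) ≤ K := one_le_pow₀ hκ1
  -- the inner radius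
  set m : ℝ := min R (min r0 (1 / C)) with hm
  have hm0 : 0 < m := lt_min hR (lt_min hr0 (by positivity))
  have hmR : m ≤ R := min_le_left _ _
  have hmr : m ≤ r0 := (min_le_right _ _).trans (min_le_left _ _)
  have hmC : C * m ≤ 1 := by
    have : m ≤ 1 / C := (min_le_right _ _).trans (min_le_right _ _)
    calc C * m ≤ C * (1 / C) := mul_le_mul_of_nonneg_left this hC.le
      _ = 1 := by field_simp
  set ri : ℝ := m / (10000 * κ ^ 2 * K) with hri_def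
  have hden : 0 < 10000 * κ ^ 2 * K := by positivity
  have hri : 0 < ri := div_pos hm0 hden
  have hrim : 10000 * κ ^ 2 * K * ri = m := by rw [hri_def]; field_simp
  have hκ2 : κ ≤ κ ^ 2 := by nlinarith
  have hκK : 0 < κ * K := by positivity
  have hKri : 0 < K * ri := by positivity
  have hκKri : K * ri ≤ κ * (K * ri) := by nlinarith
  have hκ2Kri : κ * (K * ri) ≤ κ ^ 2 * (K * ri) := by nlinarith
  have e1 : 10000 * (κ ^ 2 * (K * ri)) = m := by rw [← hrim]; ring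
  have hriK : ri ≤ K * ri := by nlinarith
  refine ⟨ri, hri, by linarith, ?_⟩
  -- the eventual facts
  have E1 := bgb_apx_ev hF hb (ε := ri / 100) (by positivity)
  have hpowle : ∀ j ≤ N, κ ^ j ≤ K := fun j hj => pow_le_pow_right₀ hκ1 hj
  have hpow1 : ∀ j : ℕ, 1 ≤ κ ^ j := fun j => one_le_pow₀ hκ1
  have hfl : ∀ j ≤ N, C * (10 * κ * κ ^ j * ri) ^ 2 < κ ^ j * ri / 50 := by
    intro j hj
    have h1 := hpowle j hj
    have h2 := hpow1 j
    have h3 : 0 < κ ^ j * ri := by positivity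
    -- `5000 C κ² κ^j ri ≤ 1/2`
    have h4 : κ ^ 2 * (κ ^ j * ri) ≤ κ ^ 2 * (K * ri) :=
      mul_le_mul_of_nonneg_left (mul_le_mul_of_nonneg_right h1 hri.le) (by positivity)
    have h5 : C * (5000 * (κ ^ 2 * (κ ^ j * ri))) ≤ 1 / 2 := by
      have : C * (5000 * (κ ^ 2 * (κ ^ j * ri))) ≤ C * (m / 2) := mul_le_mul_of_nonneg_left (by linarith) hC.le
      linarith
    have e : C * (10 * κ * κ ^ j * ri) ^ 2 = C * (5000 * (κ ^ 2 * (κ ^ j * ri))) * (κ ^ j * ri / 50) := by ring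
    rw [e]
    nlinarith
  have hbx : ∀ j ≤ N, 10 * κ * κ ^ j * ri ≤ r0 := by
    intro j hj
    have h1 := hpowle j hj
    have h4 : κ * (κ ^ j * ri) ≤ κ * (K * ri) :=
      mul_le_mul_of_nonneg_left (mul_le_mul_of_nonneg_right h1 hri.le) (by positivity)
    nlinarith
  have E2 : ∀ᶠ n in atTop, ∀ j ∈ Finset.range (N + 1), BgaBand (F n) (δ n) p t (10 * κ * κ ^ j * ri) (κ ^ j * ri / 50) := by
    rw [Filter.eventually_all_finset]
    intro j hj
    have hj' : j ≤ N := by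
      have := Finset.mem_range.1 hj
      omega
    exact hband δ F hF _ _ (by positivity) (hbx j hj') (hfl j hj')
  have E3 : ∀ᶠ n in atTop, δ n < 4 * ri / (n0 + 1) := hF.2.1.eventually (gt_mem_nhds (by positivity))
  filter_upwards [E1, E2, E3] with n h1 h2 h3
  obtain ⟨A, hδε⟩ := h1
  have hδ := A.dpos
  obtain ⟨c, hc⟩ := hg_cover hδ p
  obtain ⟨k, hk1, hk2⟩ := hframe c d hd
  have X : BgcCtx D (F n) (δ n) (ri / 100) γ (γs n) r0 C p t g c d k :=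
    ⟨A, Bx.graph, hr0, hCr, hC.le, hc, hd, hN, hk1, hk2⟩
  -- the smallest scale
  set a0 : ℕ := ⌈4 * ri / δ n⌉₊ with ha0
  have ha1 : 4 * ri ≤ a0 * δ n := by
    have := Nat.le_ceil (4 * ri / δ n)
    rw [div_le_iff₀ hδ] at this
    exact this
  have ha2 : a0 * δ n ≤ 5 * ri := by
    have := Nat.ceil_lt_add_one (a := 4 * ri / δ n) (by positivity)
    have h4 : (a0 : ℝ) * δ n < (4 * ri / δ n + 1) * δ n := mul_lt_mul_of_pos_right this hδ
    have h5 : (4 * ri / δ n + 1) * δ n = 4 * ri + δ n := by field_simp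
    linarith
  have ha0' : 1 ≤ a0 := by
    by_contra hcon
    have : a0 = 0 := by omega
    rw [this] at ha1
    simp at ha1
    linarith
  have hn0 : n0 ≤ a0 := by
    have h4 : (n0 + 1 : ℝ) * δ n < 4 * ri := by
      rw [lt_div_iff₀ (by positivity)] at h3
      linarith
    have h5 : (n0 : ℝ) * δ n ≤ a0 * δ n := by nlinarith
    have := le_of_mul_le_mul_right h5 hδ
    exact_mod_cast this
  have hcast : ∀ j : ℕ, ((bgdK Lq ms ^ j : ℕ) : ℝ) = κ ^ j := fun j => by push_cast; rfl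
  obtain ⟨Sin, Sout, Rtop, B, hP⟩ := bgd_pack X (bgd_co hF n) (bgd_c_off hD.1 hδ (hF.2.2.1 n) hp hc) (K1 := K1) (n0 := n0)
    (N := N) hLq1 hms1 ha0' hn0
    (fun j hj => ⟨_, bgd_scale (κj := bgdK Lq ms ^ j) hδ hri hC.le hLq1 hms1 (by linarith) ha1 ha2 ha0'
      (Nat.one_le_pow _ _ (by unfold bgdK; omega))
      (by rw [hcast]; exact (hfl j hj).le) (by rw [hcast]; exact hbx j hj)
      (by rw [hcast]; exact h2 j (Finset.mem_range.2 (by omega)))⟩)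
    (hblk (F n) (δ n) (ri / 100) γ (γs n) r0 C t g c d k X) hri ha1 (Ro := R)
    (by
      push_cast
      have h6 : K * (a0 * δ n) ≤ K * (5 * ri) := mul_le_mul_of_nonneg_left ha2 (by positivity)
      have e6 : (bgdK Lq ms : ℝ) ^ N * (a0 : ℝ) * δ n = K * (a0 * δ n) := by rw [hK, hκ]; ring
      rw [e6]
      nlinarith)
  exact ⟨c, k, Sin, Sout, Rtop, B, hP⟩

end Claimed.Agent.R291
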