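import Claimed.Agent.R291.Dict.C2c
import Claimed.Agent.R291.Geo.Lat
import Claimed.Agent.R291.Tool.TriSCLat
import Claimed.Agent.R291.Bdy.GeoA
import Claimed.Agent.R291.Defs.BdyGeo

/-!
# Row 291 (S0539), unit BDY, file Bdy/GeoB: boundary patches in a graph box, at a FIXED mesh      (owner helper25; prefix `bgb_`)

Deterministic geometry of TEX[prop:boundary-arch] (06-boundary.tex l.45-65, 226 ff.), design `origin/helper173:notes/R291/sec6b_173.md` (R5, R6).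
Companions: `Bdy/GeoA.lean` (helper119: the lattice in a frame, band, exterior ray, deep balls), `Bdy/GeoT.lean` (helper172: tube).

* `BgbApx D F δ ε γ gs`    the approximation data at one mesh: `gs` parametrises the frontier of `faceRegion δ F`, `ε`-close to `γ`;
  `bgb_apx_ev` : eventually true for every `ε > 0`
* `bgb_coord_sqDist`, `bgb_X_close`, `bgb_Y_close`   the frame coordinates are 1-Lipschitz for the Euclidean distance
* `bgbPatch … x₁ x₂ = hgVis δ F gs (dc2Par γ p t g (Ioo x₁ x₂))`   the patch of the boundary layer over the abscissas `(x₁,x₂)`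
* (P1) `bgb_patch_reach`     the patch is connected;  `bgb_patch_compl_reach` : so is the piece of the complementary arc
* (P2) `bgb_patch_capture`   every boundary site of the box whose abscissa is in `(x₁+δ+ε, x₂-δ-ε)` is in the patch, with ALL its visits
* (P3) `bgb_patch_loc`       every site of the patch is within `δ+ε` of the graph over `(x₁,x₂)`
* (P4) `bgb_patch_hit`       over every abscissa of `(x₁,x₂)` there is a site of the patch within `δ+ε`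
* (P5) `bgb_bd_near_graph`   boundary sites of the box are within `δ+ε` of the graph
* (P6) `bgb_patch_disjoint`  a site of the patch whose abscissa is well inside is not in the piece of the complementary arc
-/

set_option autoImplicit false

open Set Filter Topology
open Claims.C0467

namespace Claimed.Agent.R291

/-! ### the data at one mesh -/

/-- the approximation data at one mesh. -/
structure BgbApx (D : Set (ℝ × ℝ)) (F : Finset TV) (δ ε : ℝ) (γ gs : Circle → ℝ × ℝ) : Prop where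
  dpos : 0 < δ
  epos : 0 ≤ ε
  cont : Continuous γ
  inj : Function.Injective γ
  rng : range γ = frontier D
  conts : Continuous gs
  rngs : range gs = frontier (faceRegion δ F)
  close : ∀ θ, sqDist (gs θ) (γ θ) ≤ ε ^ 2

theorem bgb_apx_ev {D : Set (ℝ × ℝ)} {δ : ℕ → ℝ} {F : ℕ → Finset TV} {γ : Circle → ℝ × ℝ} {γs : ℕ → Circle → ℝ × ℝ}
    (h : IsInsideApprox D δ F) (hb : HgBd D δ F γ γs) {ε : ℝ} (hε : 0 < ε) :
    ∀ᶠ n in atTop, BgbApx D (F n) (δ n) ε γ (γs n) ∧ δ n ≤ ε := by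
  have h1 : ∀ᶠ n in atTop, δ n < ε := h.2.1.eventually (gt_mem_nhds hε)
  filter_upwards [h1, hb.2.2.2.2 ε hε] with n a b
  exact ⟨⟨h.1 n, hε.le, hb.1, hb.2.1, hb.2.2.1, (hb.2.2.2.1 n).1, (hb.2.2.2.1 n).2.2, fun θ => (b θ).le⟩, a.le⟩

/-! ### the frame coordinates are 1-Lipschitz -/

theorem bgb_coord_sqDist {p t : ℝ × ℝ} (ht : t.1 ^ 2 + t.2 ^ 2 = 1) (z w : ℝ × ℝ) :
    (dc2X p t z - dc2X p t w) ^ 2 + (dc2Y p t z - dc2Y p t w) ^ 2 = sqDist z w := by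
  unfold dc2X dc2Y sqDist
  linear_combination ((z.1 - w.1) ^ 2 + (z.2 - w.2) ^ 2) * ht

theorem bgb_X_close {p t : ℝ × ℝ} (ht : t.1 ^ 2 + t.2 ^ 2 = 1) {z w : ℝ × ℝ} {e : ℝ} (he : 0 ≤ e)
    (h : sqDist z w ≤ e ^ 2) : |dc2X p t z - dc2X p t w| ≤ e := by
  rw [← bgb_coord_sqDist (p := p) ht] at h
  exact abs_le_of_sq_le_sq (by nlinarith [sq_nonneg (dc2Y p t z - dc2Y p t w)]) he

theorem bgb_Y_close {p t : ℝ × ℝ} (ht : t.1 ^ 2 + t.2 ^ 2 = 1) {z w : ℝ × ℝ} {e : ℝ} (he : 0 ≤ e)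
    (h : sqDist z w ≤ e ^ 2) : |dc2Y p t z - dc2Y p t w| ≤ e := by
  rw [← bgb_coord_sqDist (p := p) ht] at h
  exact abs_le_of_sq_le_sq (by nlinarith [sq_nonneg (dc2X p t z - dc2X p t w)]) he

section patch

variable {D : Set (ℝ × ℝ)} {F : Finset TV} {δ ε : ℝ} {γ gs : Circle → ℝ × ℝ} {r C : ℝ} {p t : ℝ × ℝ} {g : ℝ → ℝ}

/-- a visit of the face `u`: the limiting point is within `δ + ε` of the centre. -/
theorem BgbApx.visit (A : BgbApx D F δ ε γ gs) {u : TV} {θ : Circle} (h : gs θ ∈ hexFace δ u) :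
    sqDist (triPos δ u) (γ θ) ≤ (δ + ε) ^ 2 :=
  dct_visit_near_lim A.dpos A.epos A.close h

/-- every boundary site is visited. -/
theorem BgbApx.bd_visit (A : BgbApx D F δ ε γ gs) {u : TV} (hu : u ∈ latBd F) : ∃ θ, gs θ ∈ hexFace δ u := by
  obtain ⟨huF, v, huv, hv⟩ := lat_mem_bd.1 hu
  obtain ⟨-, θ, -, hz⟩ := hg_boundary_vis A.dpos A.rngs huF hv huv
  exact ⟨θ, hz⟩

/-- visited sites of `F` are boundary sites. -/
theorem BgbApx.vis_bd (A : BgbApx D F δ ε γ gs) {I : Set Circle} {u : TV} (hu : u ∈ hgVis δ F gs I) : u ∈ latBd F :=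
  lat_mem_bd.2 (hg_vis_boundary A.dpos A.rngs hu)

/-- the patch of the boundary layer over the abscissas `(x₁, x₂)` of a box. -/
def bgbPatch (δ : ℝ) (F : Finset TV) (gs γ : Circle → ℝ × ℝ) (p t : ℝ × ℝ) (g : ℝ → ℝ) (x1 x2 : ℝ) : Set TV :=
  hgVis δ F gs (dc2Par γ p t g (Ioo x1 x2))

/-- the rest of the boundary layer: the piece of the complementary arc. -/
def bgbRest (δ : ℝ) (F : Finset TV) (gs γ : Circle → ℝ × ℝ) (p t : ℝ × ℝ) (g : ℝ → ℝ) (x1 x2 : ℝ) : Set TV :=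
  hgVis δ F gs (dc2Par γ p t g (Ioo x1 x2))ᶜ

theorem bgb_eqns_cite : True := by
  have := @bgbPatch.eq_1; have := @bgbRest.eq_1
  trivial

theorem bgb_Ioo_sub {x1 x2 : ℝ} (h1 : -r ≤ x1) (h2 : x2 ≤ r) : Ioo x1 x2 ⊆ Icc (-r) r :=
  fun x hx => ⟨by linarith [hx.1], by linarith [hx.2]⟩

/-- the boundary layer is the union of the patch and of the rest. -/
theorem BgbApx.patch_union (A : BgbApx D F δ ε γ gs) (p t : ℝ × ℝ) (g : ℝ → ℝ) (x1 x2 : ℝ) :
    bgbPatch δ F gs γ p t g x1 x2 ∪ bgbRest δ F gs γ p t g x1 x2 = (latBd F : Set TV) := by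
  unfold bgbPatch bgbRest
  rw [← hg_vis_union, union_compl_self, hg_vis_univ_eq A.dpos A.rngs]
  ext u
  exact lat_mem_bd.symm

/-- **(P1)** the patch is connected. -/
theorem bgb_patch_reach (A : BgbApx D F δ ε γ gs) (G : Dc2Graph (frontier D) r C p t g) (hr : 0 < r)
    (hCr : C * r ≤ 1 / 4) {x1 x2 : ℝ} (h1 : -r ≤ x1) (h2 : x2 ≤ r) {u v : TV}
    (hu : u ∈ bgbPatch δ F gs γ p t g x1 x2) (hv : v ∈ bgbPatch δ F gs γ p t g x1 x2) :
    Relation.ReflTransGen (fun a b => triAdj a b ∧ a ∈ bgbPatch δ F gs γ p t g x1 x2 ∧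
      b ∈ bgbPatch δ F gs γ p t g x1 x2) u v :=
  hg_vis_reach' A.dpos A.conts A.rngs
    (G.par_preconnected hr hCr A.cont A.inj A.rng (bgb_Ioo_sub h1 h2) ordConnected_Ioo) hu hv

/-- **(P1')** the rest of the boundary layer is connected. -/
theorem bgb_rest_reach (A : BgbApx D F δ ε γ gs) (G : Dc2Graph (frontier D) r C p t g) (hr : 0 < r)
    (hCr : C * r ≤ 1 / 4) {x1 x2 : ℝ} (h1 : -r ≤ x1) (h2 : x2 ≤ r) {u v : TV}
    (hu : u ∈ bgbRest δ F gs γ p t g x1 x2) (hv : v ∈ bgbRest δ F gs γ p t g x1 x2) :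
    Relation.ReflTransGen (fun a b => triAdj a b ∧ a ∈ bgbRest δ F gs γ p t g x1 x2 ∧
      b ∈ bgbRest δ F gs γ p t g x1 x2) u v :=
  hg_vis_reach' A.dpos A.conts A.rngs
    (G.par_compl_preconnected hr hCr A.cont A.inj A.rng (bgb_Ioo_sub h1 h2) ordConnected_Ioo) hu hv

/-- all the visits of a site of the box whose abscissa is well inside `(x₁,x₂)` have their parameter over `(x₁,x₂)`. -/
theorem bgb_visit_par (A : BgbApx D F δ ε γ gs) (G : Dc2Graph (frontier D) r C p t g) (hr : 0 < r)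
    (hCr : C * r ≤ 1 / 4) {x1 x2 : ℝ} (h1 : -r ≤ x1) (h2 : x2 ≤ r) {u : TV}
    (hX1 : x1 + (δ + ε) < dc2X p t (triPos δ u)) (hX2 : dc2X p t (triPos δ u) < x2 - (δ + ε))
    (hY : |dc2Y p t (triPos δ u)| ≤ r - (δ + ε)) {θ : Circle} (hθ : gs θ ∈ hexFace δ u) :
    θ ∈ dc2Par γ p t g (Ioo x1 x2) := by
  have hv := A.visit hθ
  have he : 0 ≤ δ + ε := add_nonneg A.dpos.le A.epos
  have a1 := abs_le.1 (bgb_X_close (p := p) G.unit he hv)
  have a2 := abs_le.1 (bgb_Y_close (p := p) G.unit he hv)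
  have a3 := abs_le.1 hY
  rw [G.mem_par hr hCr A.rng (bgb_Ioo_sub h1 h2)]
  exact ⟨⟨by linarith [a1.2], by linarith [a1.1]⟩, abs_le.2 ⟨by linarith [a2.2, a3.1], by linarith [a2.1, a3.2]⟩⟩

/-- **(P2)** capture. -/
theorem bgb_patch_capture (A : BgbApx D F δ ε γ gs) (G : Dc2Graph (frontier D) r C p t g) (hr : 0 < r)
    (hCr : C * r ≤ 1 / 4) {x1 x2 : ℝ} (h1 : -r ≤ x1) (h2 : x2 ≤ r) {u : TV} (hu : u ∈ latBd F)
    (hX1 : x1 + (δ + ε) < dc2X p t (triPos δ u)) (hX2 : dc2X p t (triPos δ u) < x2 - (δ + ε))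
    (hY : |dc2Y p t (triPos δ u)| ≤ r - (δ + ε)) : u ∈ bgbPatch δ F gs γ p t g x1 x2 := by
  obtain ⟨θ, hθ⟩ := A.bd_visit hu
  exact ⟨(lat_mem_bd.1 hu).1, θ, bgb_visit_par A G hr hCr h1 h2 hX1 hX2 hY hθ, hθ⟩

/-- **(P6)** such a site is not in the rest. -/
theorem bgb_patch_not_rest (A : BgbApx D F δ ε γ gs) (G : Dc2Graph (frontier D) r C p t g) (hr : 0 < r)
    (hCr : C * r ≤ 1 / 4) {x1 x2 : ℝ} (h1 : -r ≤ x1) (h2 : x2 ≤ r) {u : TV}
    (hX1 : x1 + (δ + ε) < dc2X p t (triPos δ u)) (hX2 : dc2X p t (triPos δ u) < x2 - (δ + ε))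
    (hY : |dc2Y p t (triPos δ u)| ≤ r - (δ + ε)) : u ∉ bgbRest δ F gs γ p t g x1 x2 := by
  rintro ⟨-, θ, hθ, hz⟩
  exact hθ (bgb_visit_par A G hr hCr h1 h2 hX1 hX2 hY hz)

/-- **(P3)** location of the patch. -/
theorem bgb_patch_loc (A : BgbApx D F δ ε γ gs) {x1 x2 : ℝ} {u : TV} (hu : u ∈ bgbPatch δ F gs γ p t g x1 x2) :
    ∃ x ∈ Ioo x1 x2, sqDist (triPos δ u) (dc2Gr p t g x) ≤ (δ + ε) ^ 2 := by
  obtain ⟨-, θ, ⟨x, hx, hxθ⟩, hz⟩ := hu
  refine ⟨x, hx, ?_⟩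
  have := A.visit hz
  rwa [← hxθ] at this

/-- (P3) in coordinates. -/
theorem bgb_patch_coord (A : BgbApx D F δ ε γ gs) (G : Dc2Graph (frontier D) r C p t g) {x1 x2 : ℝ} {u : TV}
    (hu : u ∈ bgbPatch δ F gs γ p t g x1 x2) :
    ∃ x ∈ Ioo x1 x2, |dc2X p t (triPos δ u) - x| ≤ δ + ε ∧ |dc2Y p t (triPos δ u) - g x| ≤ δ + ε := by
  obtain ⟨x, hx, h⟩ := bgb_patch_loc A hu
  have he : 0 ≤ δ + ε := add_nonneg A.dpos.le A.epos
  have a1 := bgb_X_close (p := p) G.unit he h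
  have a2 := bgb_Y_close (p := p) G.unit he h
  unfold dc2Gr at a1 a2
  rw [dc2X_Fr G.unit] at a1
  rw [dc2Y_Fr G.unit] at a2
  exact ⟨x, hx, a1, a2⟩

/-- **(P4)** the patch is present over every abscissa. -/
theorem bgb_patch_hit (A : BgbApx D F δ ε γ gs) (G : Dc2Graph (frontier D) r C p t g) (hr : 0 < r)
    (hCr : C * r ≤ 1 / 4) {x1 x2 : ℝ} (h1 : -r ≤ x1) (h2 : x2 ≤ r) {x : ℝ} (hx : x ∈ Ioo x1 x2) :
    ∃ u ∈ bgbPatch δ F gs γ p t g x1 x2, sqDist (triPos δ u) (dc2Gr p t g x) ≤ (δ + ε) ^ 2 := by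
  obtain ⟨θ, hθ, hθx⟩ := G.par_nonempty (γ := γ) hr hCr A.rng hx (abs_le.2 (bgb_Ioo_sub h1 h2 hx))
  obtain ⟨u, hu, hz⟩ := hg_param_vis A.dpos A.rngs hθ
  refine ⟨u, hu, ?_⟩
  have := A.visit hz
  rwa [hθx] at this

/-- **(P5)** boundary sites of the box are within `δ + ε` of the graph. -/
theorem bgb_bd_near_graph (A : BgbApx D F δ ε γ gs) (G : Dc2Graph (frontier D) r C p t g) {u : TV} (hu : u ∈ latBd F)
    (hX : |dc2X p t (triPos δ u)| ≤ r - (δ + ε)) (hY : |dc2Y p t (triPos δ u)| ≤ r - (δ + ε)) :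
    ∃ x, |x| ≤ r ∧ |dc2X p t (triPos δ u) - x| ≤ δ + ε ∧ |dc2Y p t (triPos δ u) - g x| ≤ δ + ε := by
  obtain ⟨θ, hθ⟩ := A.bd_visit hu
  have hv := A.visit hθ
  have he : 0 ≤ δ + ε := add_nonneg A.dpos.le A.epos
  have b1 := bgb_X_close (p := p) G.unit he hv
  have b2 := bgb_Y_close (p := p) G.unit he hv
  have a1 := abs_le.1 b1
  have a2 := abs_le.1 b2
  have a3 := abs_le.1 hX
  have a4 := abs_le.1 hY
  have hXr : |dc2X p t (γ θ)| ≤ r := abs_le.2 ⟨by linarith [a1.2, a3.1], by linarith [a1.1, a3.2]⟩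
  have hYr : |dc2Y p t (γ θ)| ≤ r := abs_le.2 ⟨by linarith [a2.2, a4.1], by linarith [a2.1, a4.2]⟩
  have hf : γ θ ∈ frontier D := A.rng ▸ mem_range_self θ
  rw [← dc2Fr_XY (p := p) G.unit (γ θ), G.fr _ _ hXr hYr] at hf
  refine ⟨dc2X p t (γ θ), hXr, b1, ?_⟩
  rw [← hf]; exact b2

end patch

/-! ### one block at one mesh: numerical set-up -/

/-- numerical set-up of one block (centre `c`, lattice scale `a`, attachment scale `s`) at one mesh; `η` is the small physical length: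
mesh and parametric error `≤ η ≤ s δ / 20`, `10 s ≤ a`, the graph is `η`-flat on `|x| ≤ 16 a δ`, the box contains the block. -/
structure BgbNum (δ ε r C η : ℝ) (a s : ℕ) : Prop where
  eta : δ + ε ≤ η
  s_eta : 20 * η ≤ s * δ
  sa : 10 * s ≤ a
  flat : C * (16 * a * δ) ^ 2 ≤ η
  box : 17 * a * δ ≤ r
  Cnn : 0 ≤ C

section block

variable {D : Set (ℝ × ℝ)} {F : Finset TV} {δ ε : ℝ} {γ gs : Circle → ℝ × ℝ} {r C η : ℝ} {p t : ℝ × ℝ} {g : ℝ → ℝ}
  {a s : ℕ} {c : TV}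

theorem BgbNum.sa' (N : BgbNum δ ε r C η a s) : 10 * (s : ℝ) ≤ a := by exact_mod_cast N.sa

/-- `200 η ≤ a δ`. -/
theorem BgbNum.eta_a (N : BgbNum δ ε r C η a s) (hδ : 0 < δ) : 200 * η ≤ a * δ := by
  have h1 := N.s_eta
  have h2 : 10 * (s : ℝ) * δ ≤ a * δ := mul_le_mul_of_nonneg_right N.sa' hδ.le
  linarith

/-- a site of the hexagon of radius `k` about `c` is within `(k+1) δ` of `p`. -/
theorem bgb_ball_sqDist (hδ : 0 < δ) (hc : p ∈ hexFace δ c) {u : TV} {k : ℕ} (hu : latN (u - c) ≤ k) :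
    sqDist (triPos δ u) p ≤ ((k + 1) * δ) ^ 2 := by
  have h1 : sqDist (triPos δ u) (triPos δ c) ≤ (k * δ) ^ 2 := by
    refine (hg_sqDist_le_latN δ u c).trans ?_
    have : (latN (u - c) : ℝ) ≤ k := by exact_mod_cast hu
    have h2 : (latN (u - c) : ℝ) ^ 2 ≤ (k : ℝ) ^ 2 := pow_le_pow_left₀ (by positivity) this 2
    calc δ ^ 2 * (latN (u - c) : ℝ) ^ 2 ≤ δ ^ 2 * (k : ℝ) ^ 2 := mul_le_mul_of_nonneg_left h2 (by positivity)
      _ = (k * δ) ^ 2 := by ring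
  have h3 : sqDist (triPos δ c) p ≤ δ ^ 2 := by rw [hg_sqDist_comm]; exact dct_face_le hδ hc
  have := dct_sqDist_tri (by positivity) hδ.le h1 h3
  have e : (k : ℝ) * δ + δ = (k + 1) * δ := by ring
  rwa [e] at this

/-- coordinates of a site of the hexagon of radius `k` about `c`. -/
theorem bgb_ball_coord (ht : t.1 ^ 2 + t.2 ^ 2 = 1) (hδ : 0 < δ) (hc : p ∈ hexFace δ c) {u : TV} {k : ℕ}
    (hu : latN (u - c) ≤ k) : |dc2X p t (triPos δ u)| ≤ (k + 1) * δ ∧ |dc2Y p t (triPos δ u)| ≤ (k + 1) * δ :=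
  dc2_XY_le ht (by positivity) (bgb_ball_sqDist hδ hc hu)

/-- coordinates of two sites at lattice distance `≤ k`. -/
theorem bgb_lat_coord (ht : t.1 ^ 2 + t.2 ^ 2 = 1) (hδ : 0 < δ) {u v : TV} {k : ℝ} (hu : (latN (u - v) : ℝ) ≤ k) :
    |dc2X p t (triPos δ u) - dc2X p t (triPos δ v)| ≤ k * δ ∧
      |dc2Y p t (triPos δ u) - dc2Y p t (triPos δ v)| ≤ k * δ := by
  have hk : 0 ≤ k := le_trans (by positivity) hu
  have h1 : sqDist (triPos δ u) (triPos δ v) ≤ (k * δ) ^ 2 := by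
    refine (hg_sqDist_le_latN δ u v).trans ?_
    have h2 : (latN (u - v) : ℝ) ^ 2 ≤ k ^ 2 := pow_le_pow_left₀ (by positivity) hu 2
    calc δ ^ 2 * (latN (u - v) : ℝ) ^ 2 ≤ δ ^ 2 * k ^ 2 := mul_le_mul_of_nonneg_left h2 (by positivity)
      _ = (k * δ) ^ 2 := by ring
  exact ⟨bgb_X_close ht (by positivity) h1, bgb_Y_close ht (by positivity) h1⟩

/-- lattice distance from the coordinates. -/
theorem bgb_latN_le (ht : t.1 ^ 2 + t.2 ^ 2 = 1) (hδ : 0 < δ) {u v : TV} {e1 e2 : ℝ}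
    (h1 : |dc2X p t (triPos δ u) - dc2X p t (triPos δ v)| ≤ e1)
    (h2 : |dc2Y p t (triPos δ u) - dc2Y p t (triPos δ v)| ≤ e2) : 3 * (δ * latN (u - v)) ≤ 4 * (e1 + e2) := by
  have he1 : 0 ≤ e1 := (abs_nonneg _).trans h1
  have he2 : 0 ≤ e2 := (abs_nonneg _).trans h2
  have h3 := hg_latN_le_sqDist δ u v
  rw [← bgb_coord_sqDist (p := p) ht] at h3
  have a1 : (dc2X p t (triPos δ u) - dc2X p t (triPos δ v)) ^ 2 ≤ e1 ^ 2 := sq_le_sq' (by linarith [(abs_le.1 h1).1]) (abs_le.1 h1).2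
  have a2 : (dc2Y p t (triPos δ u) - dc2Y p t (triPos δ v)) ^ 2 ≤ e2 ^ 2 := sq_le_sq' (by linarith [(abs_le.1 h2).1]) (abs_le.1 h2).2
  set L := δ * (latN (u - v) : ℝ) with hL
  have hL0 : 0 ≤ L := by positivity
  have h4 : 3 / 4 * L ^ 2 ≤ (e1 + e2) ^ 2 := by
    have : δ ^ 2 * (latN (u - v) : ℝ) ^ 2 = L ^ 2 := by rw [hL]; ring
    rw [this] at h3
    nlinarith [mul_nonneg he1 he2]
  -- `(3L)² = 9 L² ≤ 12 (e1+e2)² ≤ (4 (e1+e2))²`
  have h5 : (3 * L) ^ 2 ≤ (4 * (e1 + e2)) ^ 2 := by nlinarith [sq_nonneg (e1 + e2)]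
  exact abs_le_of_sq_le_sq' h5 (by positivity) |>.2

/-- **the boundary layer is flat in the block**: boundary sites of the hexagon of radius `15 a` have depth `≤ 2 η` in absolute value. -/
theorem bgb_bd_flat (A : BgbApx D F δ ε γ gs) (G : Dc2Graph (frontier D) r C p t g) (N : BgbNum δ ε r C η a s)
    (hc : p ∈ hexFace δ c) {u : TV} (hu : u ∈ latBd F) (huc : latN (u - c) ≤ 15 * a) :
    |dc2Y p t (triPos δ u)| ≤ 2 * η := by
  have hδ := A.dpos
  have hηa := N.eta_a hδ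
  have hε := A.epos
  have hη := N.eta
  obtain ⟨hX, hY⟩ := bgb_ball_coord (p := p) G.unit hδ hc huc
  push_cast at hX hY
  have hbox := N.box
  have e1 : (15 * (a:ℝ) + 1) * δ = 15 * (a * δ) + δ := by ring
  have e2 : 17 * (a:ℝ) * δ = 17 * (a * δ) := by ring
  rw [e1] at hX hY
  rw [e2] at hbox
  obtain ⟨x, -, h1, h2⟩ := bgb_bd_near_graph A G hu (hX.trans (by linarith)) (hY.trans (by linarith))
  have hx : |x| ≤ 16 * a * δ := by
    have a1 := abs_le.1 h1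
    have a2 := abs_le.1 hX
    have e3 : 16 * (a:ℝ) * δ = 16 * (a * δ) := by ring
    rw [e3]
    exact abs_le.2 ⟨by linarith [a1.2, a2.1], by linarith [a1.1, a2.2]⟩
  have hg : |g x| ≤ η := (G.g_le_sq N.Cnn (by linarith) hx).trans N.flat
  have a3 := abs_le.1 h2
  have a4 := abs_le.1 hg
  exact abs_le.2 ⟨by linarith [a3.1, a4.1], by linarith [a3.2, a4.2]⟩

/-! ### the patch around a boundary site `q` of the block -/

/-- the patch of half width `a δ / 4` around the boundary site `q`. -/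
def bgbQ (δ : ℝ) (F : Finset TV) (gs γ : Circle → ℝ × ℝ) (p t : ℝ × ℝ) (g : ℝ → ℝ) (a : ℕ) (q : TV) : Set TV :=
  bgbPatch δ F gs γ p t g (dc2X p t (triPos δ q) - a * δ / 4) (dc2X p t (triPos δ q) + a * δ / 4)

/-- the rest of the boundary layer. -/
def bgbQr (δ : ℝ) (F : Finset TV) (gs γ : Circle → ℝ × ℝ) (p t : ℝ × ℝ) (g : ℝ → ℝ) (a : ℕ) (q : TV) : Set TV :=
  bgbRest δ F gs γ p t g (dc2X p t (triPos δ q) - a * δ / 4) (dc2X p t (triPos δ q) + a * δ / 4)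

theorem bgb_eqns_cite2 : True := by
  have := @bgbQ.eq_1; have := @bgbQr.eq_1
  trivial

/-- the window of the patch lies in the box. -/
theorem bgb_Q_window (A : BgbApx D F δ ε γ gs) (G : Dc2Graph (frontier D) r C p t g) (N : BgbNum δ ε r C η a s)
    (hc : p ∈ hexFace δ c) {q : TV} (hq : latN (q - c) ≤ 5 * a) :
    -(6 * (a * δ)) ≤ dc2X p t (triPos δ q) - a * δ / 4 ∧ dc2X p t (triPos δ q) + a * δ / 4 ≤ 6 * (a * δ) ∧
      6 * (a * δ) ≤ r := by
  have hδ := A.dpos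
  have hηa := N.eta_a hδ
  have hε := A.epos
  have hη := N.eta
  obtain ⟨hX, -⟩ := bgb_ball_coord (p := p) G.unit hδ hc hq
  push_cast at hX
  have a1 := abs_le.1 hX
  have hbox := N.box
  have e1 : (5 * (a:ℝ) + 1) * δ = 5 * (a * δ) + δ := by ring
  have e2 : 17 * (a:ℝ) * δ = 17 * (a * δ) := by ring
  rw [e1] at a1
  rw [e2] at hbox
  have haδ : 0 ≤ (a:ℝ) * δ := by positivity
  refine ⟨by linarith [a1.1], by linarith [a1.2], by linarith⟩

theorem bgb_Q_union (A : BgbApx D F δ ε γ gs) (p t : ℝ × ℝ) (g : ℝ → ℝ) (a : ℕ) (q : TV) :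
    bgbQ δ F gs γ p t g a q ∪ bgbQr δ F gs γ p t g a q = (latBd F : Set TV) := A.patch_union p t g _ _

/-- the patch is connected. -/
theorem bgb_Q_reach (A : BgbApx D F δ ε γ gs) (G : Dc2Graph (frontier D) r C p t g) (hr : 0 < r) (hCr : C * r ≤ 1 / 4)
    (N : BgbNum δ ε r C η a s) (hc : p ∈ hexFace δ c) {q : TV} (hq : latN (q - c) ≤ 5 * a) {u v : TV}
    (hu : u ∈ bgbQ δ F gs γ p t g a q) (hv : v ∈ bgbQ δ F gs γ p t g a q) :
    Relation.ReflTransGen (fun x y => triAdj x y ∧ x ∈ bgbQ δ F gs γ p t g a q ∧ y ∈ bgbQ δ F gs γ p t g a q) u v := by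
  obtain ⟨w1, w2, w3⟩ := bgb_Q_window A G N hc hq
  exact bgb_patch_reach A G hr hCr (by linarith) (by linarith) hu hv

/-- the rest of the boundary layer is connected. -/
theorem bgb_Qr_reach (A : BgbApx D F δ ε γ gs) (G : Dc2Graph (frontier D) r C p t g) (hr : 0 < r) (hCr : C * r ≤ 1 / 4)
    (N : BgbNum δ ε r C η a s) (hc : p ∈ hexFace δ c) {q : TV} (hq : latN (q - c) ≤ 5 * a) {u v : TV}
    (hu : u ∈ bgbQr δ F gs γ p t g a q) (hv : v ∈ bgbQr δ F gs γ p t g a q) :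
    Relation.ReflTransGen (fun x y => triAdj x y ∧ x ∈ bgbQr δ F gs γ p t g a q ∧ y ∈ bgbQr δ F gs γ p t g a q) u v := by
  obtain ⟨w1, w2, w3⟩ := bgb_Q_window A G N hc hq
  exact bgb_rest_reach A G hr hCr (by linarith) (by linarith) hu hv

/-- the coordinate conditions of the capture lemmas, for a site within `a/16` of `q`. -/
theorem bgb_Q_near (A : BgbApx D F δ ε γ gs) (G : Dc2Graph (frontier D) r C p t g) (N : BgbNum δ ε r C η a s)
    (hc : p ∈ hexFace δ c) {q : TV} (hq : latN (q - c) ≤ 5 * a) {u : TV} (hu : 16 * latN (u - q) ≤ a) :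
    dc2X p t (triPos δ q) - a * δ / 4 + (δ + ε) < dc2X p t (triPos δ u) ∧
      dc2X p t (triPos δ u) < dc2X p t (triPos δ q) + a * δ / 4 - (δ + ε) ∧
      |dc2Y p t (triPos δ u)| ≤ r - (δ + ε) := by
  have hδ := A.dpos
  have hηa := N.eta_a hδ
  have hε := A.epos
  have hη := N.eta
  have hη0 : 0 < η := by linarith
  have hu' : (latN (u - q) : ℝ) ≤ a / 16 := by
    have : (16:ℝ) * latN (u - q) ≤ a := by exact_mod_cast hu
    linarith
  obtain ⟨b1, b2⟩ := bgb_lat_coord (p := p) G.unit hδ hu'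
  obtain ⟨-, hY⟩ := bgb_ball_coord (p := p) G.unit hδ hc hq
  push_cast at hY
  have a1 := abs_le.1 b1
  have a2 := abs_le.1 b2
  have a3 := abs_le.1 hY
  have hbox := N.box
  have e1 : (5 * (a:ℝ) + 1) * δ = 5 * (a * δ) + δ := by ring
  have e2 : 17 * (a:ℝ) * δ = 17 * (a * δ) := by ring
  have e3 : (a:ℝ) / 16 * δ = a * δ / 16 := by ring
  rw [e1] at a3
  rw [e2] at hbox
  rw [e3] at a1 a2
  refine ⟨by linarith [a1.1], by linarith [a1.2], abs_le.2 ⟨by linarith [a2.1, a3.1], by linarith [a2.2, a3.2]⟩⟩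

/-- **capture**: every boundary site within `a/16` of `q` belongs to the patch. -/
theorem bgb_Q_capture (A : BgbApx D F δ ε γ gs) (G : Dc2Graph (frontier D) r C p t g) (hr : 0 < r) (hCr : C * r ≤ 1 / 4)
    (N : BgbNum δ ε r C η a s) (hc : p ∈ hexFace δ c) {q : TV} (hq : latN (q - c) ≤ 5 * a) {u : TV} (hu : u ∈ latBd F)
    (huq : 16 * latN (u - q) ≤ a) : u ∈ bgbQ δ F gs γ p t g a q := by
  obtain ⟨w1, w2, w3⟩ := bgb_Q_window A G N hc hq
  obtain ⟨n1, n2, n3⟩ := bgb_Q_near A G N hc hq huq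
  exact bgb_patch_capture A G hr hCr (by linarith) (by linarith) hu n1 n2 n3

theorem bgb_Q_self (A : BgbApx D F δ ε γ gs) (G : Dc2Graph (frontier D) r C p t g) (hr : 0 < r) (hCr : C * r ≤ 1 / 4)
    (N : BgbNum δ ε r C η a s) (hc : p ∈ hexFace δ c) {q : TV} (hq : latN (q - c) ≤ 5 * a) (hqF : q ∈ latBd F) :
    q ∈ bgbQ δ F gs γ p t g a q :=
  bgb_Q_capture A G hr hCr N hc hq hqF (by rw [sub_self]; simp [latN])

/-- the rest of the boundary layer misses the hexagon of radius `a/16` about `q`. -/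
theorem bgb_Qr_far (A : BgbApx D F δ ε γ gs) (G : Dc2Graph (frontier D) r C p t g) (hr : 0 < r) (hCr : C * r ≤ 1 / 4)
    (N : BgbNum δ ε r C η a s) (hc : p ∈ hexFace δ c) {q : TV} (hq : latN (q - c) ≤ 5 * a) {u : TV}
    (huq : 16 * latN (u - q) ≤ a) : u ∉ bgbQr δ F gs γ p t g a q := by
  obtain ⟨w1, w2, w3⟩ := bgb_Q_window A G N hc hq
  obtain ⟨n1, n2, n3⟩ := bgb_Q_near A G N hc hq huq
  exact bgb_patch_not_rest A G hr hCr (by linarith) (by linarith) n1 n2 n3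

/-- **location**: the patch consists of boundary sites within `a/2` of `q`, of depth `≤ 2 η`. -/
theorem bgb_Q_loc (A : BgbApx D F δ ε γ gs) (G : Dc2Graph (frontier D) r C p t g) (N : BgbNum δ ε r C η a s)
    (hc : p ∈ hexFace δ c) {q : TV} (hq : latN (q - c) ≤ 5 * a) (hqF : q ∈ latBd F) {u : TV}
    (hu : u ∈ bgbQ δ F gs γ p t g a q) :
    u ∈ latBd F ∧ 2 * latN (u - q) ≤ a ∧ |dc2Y p t (triPos δ u)| ≤ 2 * η ∧
      |dc2X p t (triPos δ u) - dc2X p t (triPos δ q)| ≤ a * δ / 4 + η := by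
  have hδ := A.dpos
  have hηa := N.eta_a hδ
  have hε := A.epos
  have hη := N.eta
  obtain ⟨w1, w2, w3⟩ := bgb_Q_window A G N hc hq
  obtain ⟨x, hx, h1, h2⟩ := bgb_patch_coord A G hu
  have hx6 : |x| ≤ 16 * a * δ := by
    have e3 : 16 * (a:ℝ) * δ = 16 * (a * δ) := by ring
    have haδ : 0 ≤ (a:ℝ) * δ := by positivity
    rw [e3]
    exact abs_le.2 ⟨by linarith [hx.1], by linarith [hx.2]⟩
  have hbox := N.box
  have hg : |g x| ≤ η := (G.g_le_sq N.Cnn (by nlinarith [A.dpos, (Nat.cast_nonneg a : (0:ℝ) ≤ a)]) hx6).trans N.flat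
  have a1 := abs_le.1 h1
  have a2 := abs_le.1 h2
  have a4 := abs_le.1 hg
  have hYu : |dc2Y p t (triPos δ u)| ≤ 2 * η := abs_le.2 ⟨by linarith [a2.1, a4.1], by linarith [a2.2, a4.2]⟩
  have hYq : |dc2Y p t (triPos δ q)| ≤ 2 * η := bgb_bd_flat A G N hc hqF (hq.trans (by omega))
  have hX : |dc2X p t (triPos δ u) - dc2X p t (triPos δ q)| ≤ a * δ / 4 + η :=
    abs_le.2 ⟨by linarith [a1.1, hx.1], by linarith [a1.2, hx.2]⟩
  have hY : |dc2Y p t (triPos δ u) - dc2Y p t (triPos δ q)| ≤ 4 * η := by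
    have b1 := abs_le.1 hYu
    have b2 := abs_le.1 hYq
    exact abs_le.2 ⟨by linarith [b1.1, b2.2], by linarith [b1.2, b2.1]⟩
  refine ⟨A.vis_bd hu, ?_, hYu, hX⟩
  have h3 := bgb_latN_le (p := p) G.unit hδ hX hY
  -- `3 δ L ≤ a δ + 20 η ≤ 1.1 a δ`
  have h4 : δ * (2 * (latN (u - q) : ℝ)) ≤ δ * a := by nlinarith
  have h5 : 2 * (latN (u - q) : ℝ) ≤ a := le_of_mul_le_mul_left h4 hδ
  exact_mod_cast h5

/-- the patch leaves the hexagon of radius `a/16` about `q`, on both sides. -/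
theorem bgb_Q_leaves (A : BgbApx D F δ ε γ gs) (G : Dc2Graph (frontier D) r C p t g) (hr : 0 < r) (hCr : C * r ≤ 1 / 4)
    (N : BgbNum δ ε r C η a s) (hc : p ∈ hexFace δ c) {q : TV} (hq : latN (q - c) ≤ 5 * a) :
    (∃ u ∈ bgbQ δ F gs γ p t g a q, a < 16 * latN (u - q) ∧ dc2X p t (triPos δ q) < dc2X p t (triPos δ u)) ∧
    (∃ u ∈ bgbQ δ F gs γ p t g a q, a < 16 * latN (u - q) ∧ dc2X p t (triPos δ u) < dc2X p t (triPos δ q)) := by
  have hδ := A.dpos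
  have hηa := N.eta_a hδ
  have hε := A.epos
  have hη := N.eta
  have hη0 : 0 < η := by linarith
  have he : 0 ≤ δ + ε := by linarith
  obtain ⟨w1, w2, w3⟩ := bgb_Q_window A G N hc hq
  have key : ∀ x : ℝ, x ∈ Ioo (dc2X p t (triPos δ q) - a * δ / 4) (dc2X p t (triPos δ q) + a * δ / 4) →
      ∃ u ∈ bgbQ δ F gs γ p t g a q, |dc2X p t (triPos δ u) - x| ≤ δ + ε := by
    intro x hx
    obtain ⟨u, hu, h⟩ := bgb_patch_hit A G hr hCr (by linarith) (by linarith) hx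
    refine ⟨u, hu, ?_⟩
    have := bgb_X_close (p := p) G.unit he h
    unfold dc2Gr at this
    rwa [dc2X_Fr G.unit] at this
  have far : ∀ u : TV, a * δ / 8 ≤ |dc2X p t (triPos δ u) - dc2X p t (triPos δ q)| → a < 16 * latN (u - q) := by
    intro u hu
    by_contra hcon
    have h1 : (latN (u - q) : ℝ) ≤ a / 16 := by
      have : (16:ℝ) * latN (u - q) ≤ a := by exact_mod_cast not_lt.1 hcon
      linarith
    have h2 := (bgb_lat_coord (p := p) G.unit hδ h1).1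
    have e3 : (a:ℝ) / 16 * δ = a * δ / 16 := by ring
    rw [e3] at h2
    linarith
  constructor
  · obtain ⟨u, hu, h⟩ := key (dc2X p t (triPos δ q) + 3 * (a * δ) / 16) ⟨by linarith, by linarith⟩
    have a1 := abs_le.1 h
    have h2 : a * δ / 8 ≤ dc2X p t (triPos δ u) - dc2X p t (triPos δ q) := by linarith [a1.1]
    exact ⟨u, hu, far u (h2.trans (le_abs_self _)), by linarith⟩
  · obtain ⟨u, hu, h⟩ := key (dc2X p t (triPos δ q) - 3 * (a * δ) / 16) ⟨by linarith, by linarith⟩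
    have a1 := abs_le.1 h
    have h2 : a * δ / 8 ≤ -(dc2X p t (triPos δ u) - dc2X p t (triPos δ q)) := by linarith [a1.2]
    exact ⟨u, hu, far u (h2.trans (neg_le_abs _)), by linarith⟩

end block

/-! ### (G5) escape to infinity along the rest of the boundary layer -/

/-- from the `ReflTransGen` carrier to `TscConn`. -/
theorem bgb_conn_of_reach {S : Set TV}
    (h : ∀ u ∈ S, ∀ v ∈ S, Relation.ReflTransGen (fun x y => triAdj x y ∧ x ∈ S ∧ y ∈ S) u v) : TscConn tscG S :=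
  fun u hu v hv => h u hu v hv

/-- an extreme site of `F` for a hex functional `φ`. -/
theorem bgb_extreme_aux {F : Finset TV} {c w0 : TV} (hw : w0 ∈ F) (φ : TV → ℤ) (hadd : ∀ u v, φ (u + v) = φ u + φ v)
    (hle : ∀ v, φ v ≤ latN v) {d : TV} (hφd : φ d = 1) (hφ : φ (w0 - c) = latN (w0 - c)) :
    ∃ u ∈ F, latN (w0 - c) ≤ latN (u - c) ∧
      ∀ k : ℕ, 1 ≤ k → u + k • d ∉ F ∧ latN (w0 - c) < latN (u + k • d - c) := by
  obtain ⟨u, hu, hmax⟩ := Finset.exists_max_image F φ ⟨w0, hw⟩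
  have hsub : ∀ a b, φ (a - b) = φ a - φ b := by
    intro a b
    have := hadd (a - b) b
    rw [sub_add_cancel] at this
    linarith
  have hk : ∀ k : ℕ, φ (k • d) = k := by
    intro k
    induction k with
    | zero =>
      have := hadd 0 0
      simp only [add_zero] at this
      simp only [zero_smul, Nat.cast_zero]
      linarith
    | succ k ih => rw [succ_nsmul, hadd, ih, hφd]; push_cast; ring
  have h1 : (latN (w0 - c) : ℤ) ≤ φ (u - c) := by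
    rw [← hφ, hsub, hsub]
    linarith [hmax w0 hw]
  refine ⟨u, hu, by exact_mod_cast h1.trans (hle _), fun k hk1 => ⟨fun hF => ?_, ?_⟩⟩
  · have := hmax _ hF
    rw [hadd, hk] at this
    have : (1:ℤ) ≤ k := by exact_mod_cast hk1
    linarith
  · have h2 : φ (u + k • d - c) = φ (u - c) + k := by
      rw [hsub, hadd, hk, hsub]; ring
    have h3 := hle (u + k • d - c)
    have h4 : (1:ℤ) ≤ k := by exact_mod_cast hk1
    have : (latN (w0 - c) : ℤ) < latN (u + k • d - c) := by linarith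
    exact_mod_cast this

/-- **an extreme site**: a site `u` of `F` at least as far from `c` as `w0`, with a lattice ray off `F` going away from `c`. -/
theorem bgb_extreme {F : Finset TV} {c w0 : TV} (hw : w0 ∈ F) :
    ∃ u ∈ F, ∃ d ∈ latDirs, latN (w0 - c) ≤ latN (u - c) ∧
      ∀ k : ℕ, 1 ≤ k → u + k • d ∉ F ∧ latN (w0 - c) < latN (u + k • d - c) := by
  obtain ⟨-, -, -, h⟩ := hg_latN_spec (w0 - c)
  have L : ∀ v : TV, |v.1| ≤ (latN v : ℤ) ∧ |v.2| ≤ (latN v : ℤ) ∧ |v.1 + v.2| ≤ (latN v : ℤ) := fun v =>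
    ⟨(hg_latN_spec v).1, (hg_latN_spec v).2.1, (hg_latN_spec v).2.2.1⟩
  rcases h with h | h | h
  · rcases abs_cases (w0 - c).1 with ⟨e, -⟩ | ⟨e, -⟩
    · obtain ⟨u, hu, h1, h2⟩ := bgb_extreme_aux hw (fun v => v.1) (fun _ _ => rfl)
        (fun v => (le_abs_self _).trans (L v).1) (d := (1, 0)) rfl (by rw [h, e])
      exact ⟨u, hu, (1, 0), by decide, h1, h2⟩
    · obtain ⟨u, hu, h1, h2⟩ := bgb_extreme_aux hw (fun v => -v.1) (fun u v => by simp only [Prod.fst_add]; ring)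
        (fun v => (neg_le_abs _).trans (L v).1) (d := (-1, 0)) rfl (by rw [h, e])
      exact ⟨u, hu, (-1, 0), by decide, h1, h2⟩
  · rcases abs_cases (w0 - c).2 with ⟨e, -⟩ | ⟨e, -⟩
    · obtain ⟨u, hu, h1, h2⟩ := bgb_extreme_aux hw (fun v => v.2) (fun _ _ => rfl)
        (fun v => (le_abs_self _).trans (L v).2.1) (d := (0, 1)) rfl (by rw [h, e])
      exact ⟨u, hu, (0, 1), by decide, h1, h2⟩
    · obtain ⟨u, hu, h1, h2⟩ := bgb_extreme_aux hw (fun v => -v.2) (fun u v => by simp only [Prod.snd_add]; ring)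
        (fun v => (neg_le_abs _).trans (L v).2.1) (d := (0, -1)) rfl (by rw [h, e])
      exact ⟨u, hu, (0, -1), by decide, h1, h2⟩
  · rcases abs_cases ((w0 - c).1 + (w0 - c).2) with ⟨e, -⟩ | ⟨e, -⟩
    · obtain ⟨u, hu, h1, h2⟩ := bgb_extreme_aux hw (fun v => v.1 + v.2)
        (fun u v => by simp only [Prod.fst_add, Prod.snd_add]; ring)
        (fun v => (le_abs_self _).trans (L v).2.2) (d := (1, 0)) rfl (by rw [h, e])
      exact ⟨u, hu, (1, 0), by decide, h1, h2⟩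
    · obtain ⟨u, hu, h1, h2⟩ := bgb_extreme_aux hw (fun v => -(v.1 + v.2))
        (fun u v => by simp only [Prod.fst_add, Prod.snd_add]; ring)
        (fun v => (neg_le_abs _).trans (L v).2.2) (d := (-1, 0)) rfl (by rw [h, e])
      exact ⟨u, hu, (-1, 0), by decide, h1, h2⟩

/-! ### (v2) THE SHARED CONTEXT OF `exit_bdy_geo` (Defs/BdyGeo): one mesh, one block      (consumers: Bdy/GeoF (172), Bdy/GeoK (119), Bdy/GeoArch (25)) -/

/-- **the context at one mesh**: approximation data, graph box at `p`, base site `c`, exterior lattice direction `d`, frame index `k`.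
Frame coordinates `(X, Y) = bdyFr c k u`:  `u = c + X • f + Y • d`, `f = - latRot (latRot d)` (`bga_neg_fp`: `bgaT t f ∈ [-1,-1/2]`, `bgaN t f ∈ [-√3/2, 0]`).
So LEFT (`X < 0`) is `dc2X > 0`, and the exterior is `Y → +∞`. -/
structure BgcCtx (D : Set (ℝ × ℝ)) (F : Finset TV) (δ ε : ℝ) (γ gs : Circle → ℝ × ℝ) (r C : ℝ) (p t : ℝ × ℝ) (g : ℝ → ℝ)
    (c d : TV) (k : ℕ) : Prop where
  apx : BgbApx D F δ ε γ gs
  gr : Dc2Graph (frontier D) r C p t g
  rpos : 0 < r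
  Cr : C * r ≤ 1 / 4
  Cnn : 0 ≤ C
  hc : p ∈ hexFace δ c
  hd : d ∈ latDirs
  hN : bgaN t d ≤ -(Real.sqrt 3 / 2)
  fr : ∀ u, u = c + (bdyFr c k u).1 • (-latRot (latRot d)) + (bdyFr c k u).2 • d
  fr' : ∀ X Y : ℤ, bdyFr c k (c + X • (-latRot (latRot d)) + Y • d) = (X, Y)

/-- **one block scale**: `η` = small physical length, `a` = smallest lattice radius of the block, `M` = largest lattice radius. -/
structure BgcSc (F : Finset TV) (δ ε r C η : ℝ) (p t : ℝ × ℝ) (a M : ℕ) : Prop where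
  eta : δ + ε ≤ η
  eta_a : 200 * η ≤ a * δ
  aM : a ≤ M
  flat : C * ((2 * M + 2) * δ) ^ 2 ≤ η
  box : (2 * M + 3) * δ ≤ r
  band : BgaBand F δ p t ((M + 2) * δ) η

/-- the patch radius of the block of scale `a`: `L = 2 Lq ρ`, `ρ = 4 ms a`. -/
def bgcL (Lq ms a : ℕ) : ℕ := 8 * Lq * ms * a

/-- the data of the block of scale `a`. -/
def bgcBlk (Lq ms a : ℕ) (zs : List TV) (aL aR : TV) (PL PR : Finset TV) : BdyBlkD where
  a := a
  b0 := 3 * a
  r0 := 6 * a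
  r1 := 2 * bgcL Lq ms a
  r2 := 10 * bgcL Lq ms a
  r3 := 12 * ms * bgcL Lq ms a
  b3 := 24 * ms * bgcL Lq ms a
  ρ := 4 * ms * a
  L := bgcL Lq ms a
  zs := zs
  qL := aL
  qR := aR
  aL := aL
  aR := aR
  PL := PL
  PR := PR

/-- the largest radius of the block of scale `a`. -/
def bgcM (Lq ms a : ℕ) : ℕ := 3 * (24 * ms * bgcL Lq ms a) + 1

theorem bgc_eqns_cite : True := by
  have := @bgcL.eq_1; have := @bgcBlk.eq_1; have := @bgcM.eq_1
  trivial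

section ctx

variable {D : Set (ℝ × ℝ)} {F : Finset TV} {δ ε : ℝ} {γ gs : Circle → ℝ × ℝ} {r C η : ℝ} {p t : ℝ × ℝ} {g : ℝ → ℝ}
  {c d : TV} {k a M : ℕ}

/-- the outer layer of the free set consists of boundary sites. -/
theorem bgc_out_bd (F : Finset TV) : latOut (latInt F) ⊆ latBd F := by
  intro u hu
  unfold latOut at hu
  rw [Finset.mem_sdiff, Finset.mem_biUnion] at hu
  obtain ⟨⟨v, hv, hvu⟩, hn⟩ := hu
  have huF : u ∈ F := (lat_mem_int.1 hv).2 u (lat_mem_nb.1 hvu)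
  rw [lat_int_eq, Finset.mem_sdiff] at hn
  by_contra h
  exact hn ⟨huF, h⟩

/-- elementary numerics of a scale. -/
theorem BgcSc.num (S : BgcSc F δ ε r C η p t a M) (hδ : 0 < δ) (hε : 0 ≤ ε) :
    0 < η ∧ δ ≤ η ∧ (a : ℝ) * δ ≤ M * δ ∧ 200 * η ≤ M * δ := by
  have h1 := S.eta
  have h2 := S.eta_a
  have h3 : (a : ℝ) * δ ≤ M * δ := mul_le_mul_of_nonneg_right (by exact_mod_cast S.aM) hδ.le
  exact ⟨by linarith, by linarith, h3, by linarith⟩

/-- abscissa and depth from the lattice radius. -/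
theorem bgc_coord_le (X : BgcCtx D F δ ε γ gs r C p t g c d k) (u : TV) :
    |dc2X p t (triPos δ u)| ≤ latN (u - c) * δ + δ ∧ |dc2Y p t (triPos δ u)| ≤ latN (u - c) * δ + δ := by
  have := bgb_ball_coord (p := p) X.gr.unit X.apx.dpos X.hc (le_refl (latN (u - c)))
  have e : ((latN (u - c) : ℝ) + 1) * δ = latN (u - c) * δ + δ := by ring
  rwa [e] at this

/-- the lattice radius from abscissa and depth. -/
theorem bgc_rad_le (X : BgcCtx D F δ ε γ gs r C p t g c d k) {u : TV} {e1 e2 : ℝ} (h1 : |dc2X p t (triPos δ u)| ≤ e1)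
    (h2 : |dc2Y p t (triPos δ u)| ≤ e2) : 3 * (latN (u - c) * δ) ≤ 4 * (e1 + e2 + 2 * δ) := by
  obtain ⟨b1, b2⟩ := bga_base (p := p) X.gr.unit X.apx.dpos X.hc
  have a1 := abs_le.1 h1
  have a2 := abs_le.1 h2
  have a3 := abs_le.1 b1
  have a4 := abs_le.1 b2
  have := bgb_latN_le (p := p) (u := u) (v := c) (e1 := e1 + δ) (e2 := e2 + δ) X.gr.unit X.apx.dpos
    (abs_le.2 ⟨by linarith [a1.1, a3.2], by linarith [a1.2, a3.1]⟩)
    (abs_le.2 ⟨by linarith [a2.1, a4.2], by linarith [a2.2, a4.1]⟩)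
  linarith

/-- the graph is `η`-flat on the block. -/
theorem bgc_g_le (X : BgcCtx D F δ ε γ gs r C p t g c d k) (S : BgcSc F δ ε r C η p t a M) {x : ℝ}
    (hx : |x| ≤ (2 * M + 2) * δ) : |g x| ≤ η := by
  have hδ := X.apx.dpos
  exact (X.gr.g_le_sq X.Cnn (by linarith [S.box]) hx).trans S.flat

/-- **flatness**: boundary sites of the block have depth `≤ 2 η` in absolute value. -/
theorem bgc_flat (X : BgcCtx D F δ ε γ gs r C p t g c d k) (S : BgcSc F δ ε r C η p t a M) {u : TV} (hu : u ∈ latBd F)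
    (huc : latN (u - c) ≤ M) : |dc2Y p t (triPos δ u)| ≤ 2 * η := by
  have hδ := X.apx.dpos
  obtain ⟨n1, n2, n3, n4⟩ := S.num hδ X.apx.epos
  have hη := S.eta
  obtain ⟨hX, hY⟩ := bgc_coord_le X u
  have hM : (latN (u - c) : ℝ) * δ ≤ M * δ := mul_le_mul_of_nonneg_right (by exact_mod_cast huc) hδ.le
  have hbox := S.box
  have e2 : (2 * (M:ℝ) + 3) * δ = 2 * (M * δ) + 3 * δ := by ring
  rw [e2] at hbox
  obtain ⟨x, -, h1, h2⟩ := bgb_bd_near_graph X.apx X.gr hu (hX.trans (by linarith)) (hY.trans (by linarith))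
  have hx : |x| ≤ (2 * M + 2) * δ := by
    have a1 := abs_le.1 h1
    have a2 := abs_le.1 hX
    have e3 : (2 * (M:ℝ) + 2) * δ = 2 * (M * δ) + 2 * δ := by ring
    rw [e3]
    exact abs_le.2 ⟨by linarith [a1.2, a2.1], by linarith [a1.1, a2.2]⟩
  have a3 := abs_le.1 h2
  have a4 := abs_le.1 (bgc_g_le X S hx)
  exact abs_le.2 ⟨by linarith [a3.1, a4.1], by linarith [a3.2, a4.2]⟩

/-- the band of the block: deep sites are free. -/
theorem bgc_deep (X : BgcCtx D F δ ε γ gs r C p t g c d k) (S : BgcSc F δ ε r C η p t a M) {u : TV}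
    (huc : latN (u - c) ≤ M + 1) (h : η ≤ dc2Y p t (triPos δ u)) : u ∈ latInt F := by
  refine bga_deep_site S.band X.apx.dpos X.hc ?_ h
  have : (latN (u - c) : ℝ) ≤ M + 1 := by exact_mod_cast huc
  nlinarith [X.apx.dpos]

/-- the band of the block: sites below the band are outside. -/
theorem bgc_low (X : BgcCtx D F δ ε γ gs r C p t g c d k) (S : BgcSc F δ ε r C η p t a M) {u : TV}
    (huc : latN (u - c) ≤ M + 1) (h : dc2Y p t (triPos δ u) ≤ -η) : u ∉ F := by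
  refine bga_low_site S.band X.apx.dpos X.hc ?_ h
  have : (latN (u - c) : ℝ) ≤ M + 1 := by exact_mod_cast huc
  nlinarith [X.apx.dpos]

/-! #### arcs as finite sets -/

open Classical in
/-- the patch over `(x₁,x₂)` as a finite set. -/
noncomputable def bgcArc (δ : ℝ) (F : Finset TV) (gs γ : Circle → ℝ × ℝ) (p t : ℝ × ℝ) (g : ℝ → ℝ) (x1 x2 : ℝ) : Finset TV :=
  (latBd F).filter (fun u => u ∈ bgbPatch δ F gs γ p t g x1 x2)

open Classical in
/-- the rest of the boundary layer as a finite set. -/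
noncomputable def bgcCo (δ : ℝ) (F : Finset TV) (gs γ : Circle → ℝ × ℝ) (p t : ℝ × ℝ) (g : ℝ → ℝ) (x1 x2 : ℝ) : Finset TV :=
  (latBd F).filter (fun u => u ∈ bgbRest δ F gs γ p t g x1 x2)

theorem bgc_eqns_cite2 : True := by
  have := @bgcArc.eq_1; have := @bgcCo.eq_1
  trivial

theorem bgc_mem_arc (A : BgbApx D F δ ε γ gs) {x1 x2 : ℝ} {u : TV} :
    u ∈ bgcArc δ F gs γ p t g x1 x2 ↔ u ∈ bgbPatch δ F gs γ p t g x1 x2 := by
  classical
  unfold bgcArc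
  rw [Finset.mem_filter]
  exact ⟨fun h => h.2, fun h => ⟨A.vis_bd h, h⟩⟩

theorem bgc_mem_co (A : BgbApx D F δ ε γ gs) {x1 x2 : ℝ} {u : TV} :
    u ∈ bgcCo δ F gs γ p t g x1 x2 ↔ u ∈ bgbRest δ F gs γ p t g x1 x2 := by
  classical
  unfold bgcCo
  rw [Finset.mem_filter]
  exact ⟨fun h => h.2, fun h => ⟨A.vis_bd h, h⟩⟩

theorem bgc_arc_sub (δ : ℝ) (F : Finset TV) (gs γ : Circle → ℝ × ℝ) (p t : ℝ × ℝ) (g : ℝ → ℝ) (x1 x2 : ℝ) :
    bgcArc δ F gs γ p t g x1 x2 ⊆ latBd F := by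
  classical
  exact Finset.filter_subset _ _

theorem bgc_co_sub (δ : ℝ) (F : Finset TV) (gs γ : Circle → ℝ × ℝ) (p t : ℝ × ℝ) (g : ℝ → ℝ) (x1 x2 : ℝ) :
    bgcCo δ F gs γ p t g x1 x2 ⊆ latBd F := by
  classical
  exact Finset.filter_subset _ _

/-- arcs are connected. -/
theorem bgc_arc_conn (X : BgcCtx D F δ ε γ gs r C p t g c d k) {x1 x2 : ℝ} (h1 : -r ≤ x1) (h2 : x2 ≤ r) :
    TscConn tscG (bgcArc δ F gs γ p t g x1 x2 : Set TV) := by
  have e : (bgcArc δ F gs γ p t g x1 x2 : Set TV) = bgbPatch δ F gs γ p t g x1 x2 := by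
    ext u; exact bgc_mem_arc X.apx
  rw [e]
  exact bgb_conn_of_reach fun u hu v hv => bgb_patch_reach X.apx X.gr X.rpos X.Cr h1 h2 hu hv

/-- complementary arcs are connected. -/
theorem bgc_co_conn (X : BgcCtx D F δ ε γ gs r C p t g c d k) {x1 x2 : ℝ} (h1 : -r ≤ x1) (h2 : x2 ≤ r) :
    TscConn tscG (bgcCo δ F gs γ p t g x1 x2 : Set TV) := by
  have e : (bgcCo δ F gs γ p t g x1 x2 : Set TV) = bgbRest δ F gs γ p t g x1 x2 := by
    ext u; exact bgc_mem_co X.apx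
  rw [e]
  exact bgb_conn_of_reach fun u hu v hv => bgb_rest_reach X.apx X.gr X.rpos X.Cr h1 h2 hu hv

/-- boundary sites are off the free set. -/
theorem bgc_bd_off {P : Finset TV} (h : P ⊆ latBd F) : Disjoint P (latInt F) := by
  rw [Finset.disjoint_left]
  intro u hu hi
  rw [lat_int_eq, Finset.mem_sdiff] at hi
  exact hi.2 (h hu)

/-- location of an arc of the block. -/
theorem bgc_arc_loc (X : BgcCtx D F δ ε γ gs r C p t g c d k) (S : BgcSc F δ ε r C η p t a M) {x1 x2 : ℝ}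
    (h1 : -((2 * M + 2) * δ) ≤ x1) (h2 : x2 ≤ (2 * M + 2) * δ) {u : TV} (hu : u ∈ bgcArc δ F gs γ p t g x1 x2) :
    x1 - η ≤ dc2X p t (triPos δ u) ∧ dc2X p t (triPos δ u) ≤ x2 + η ∧ |dc2Y p t (triPos δ u)| ≤ 2 * η := by
  have hη := S.eta
  obtain ⟨x, hx, b1, b2⟩ := bgb_patch_coord X.apx X.gr ((bgc_mem_arc X.apx).1 hu)
  have a1 := abs_le.1 b1
  have a2 := abs_le.1 b2
  have a4 := abs_le.1 (bgc_g_le X S (x := x) (abs_le.2 ⟨by linarith [hx.1], by linarith [hx.2]⟩))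
  exact ⟨by linarith [a1.1, hx.1], by linarith [a1.2, hx.2], abs_le.2 ⟨by linarith [a2.1, a4.1], by linarith [a2.2, a4.2]⟩⟩

/-- the window conditions of the capture lemmas, in the block. -/
theorem bgc_window (X : BgcCtx D F δ ε γ gs r C p t g c d k) (S : BgcSc F δ ε r C η p t a M) {u : TV}
    (huc : latN (u - c) ≤ M) : |dc2Y p t (triPos δ u)| ≤ r - (δ + ε) ∧ (2 * M + 2) * δ ≤ r := by
  have hδ := X.apx.dpos
  obtain ⟨n1, n2, n3, n4⟩ := S.num hδ X.apx.epos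
  have hη := S.eta
  obtain ⟨-, hY⟩ := bgc_coord_le X u
  have hM : (latN (u - c) : ℝ) * δ ≤ M * δ := mul_le_mul_of_nonneg_right (by exact_mod_cast huc) hδ.le
  have hbox := S.box
  have e2 : (2 * (M:ℝ) + 3) * δ = 2 * (M * δ) + 3 * δ := by ring
  have e3 : (2 * (M:ℝ) + 2) * δ = 2 * (M * δ) + 2 * δ := by ring
  rw [e2] at hbox
  rw [e3]
  exact ⟨hY.trans (by linarith), by linarith⟩

/-- capture by an arc of the block. -/
theorem bgc_arc_capture (X : BgcCtx D F δ ε γ gs r C p t g c d k) (S : BgcSc F δ ε r C η p t a M) {x1 x2 : ℝ}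
    (h1 : -((2 * M + 2) * δ) ≤ x1) (h2 : x2 ≤ (2 * M + 2) * δ) {u : TV} (hu : u ∈ latBd F) (huc : latN (u - c) ≤ M)
    (hX1 : x1 + η < dc2X p t (triPos δ u)) (hX2 : dc2X p t (triPos δ u) < x2 - η) :
    u ∈ bgcArc δ F gs γ p t g x1 x2 := by
  have hη := S.eta
  obtain ⟨w1, w2⟩ := bgc_window X S huc
  exact (bgc_mem_arc X.apx).2 (bgb_patch_capture X.apx X.gr X.rpos X.Cr (by linarith) (by linarith) hu (by linarith)
    (by linarith) w1)

/-- such a site is not in the complementary arc. -/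
theorem bgc_co_far (X : BgcCtx D F δ ε γ gs r C p t g c d k) (S : BgcSc F δ ε r C η p t a M) {x1 x2 : ℝ}
    (h1 : -((2 * M + 2) * δ) ≤ x1) (h2 : x2 ≤ (2 * M + 2) * δ) {u : TV} (huc : latN (u - c) ≤ M)
    (hX1 : x1 + η < dc2X p t (triPos δ u)) (hX2 : dc2X p t (triPos δ u) < x2 - η) :
    u ∉ bgcCo δ F gs γ p t g x1 x2 := by
  have hη := S.eta
  obtain ⟨w1, w2⟩ := bgc_window X S huc
  intro h
  exact bgb_patch_not_rest X.apx X.gr X.rpos X.Cr (by linarith) (by linarith) (by linarith) (by linarith) w1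
    ((bgc_mem_co X.apx).1 h)

/-- an arc of the block is present over every abscissa. -/
theorem bgc_arc_hit (X : BgcCtx D F δ ε γ gs r C p t g c d k) (S : BgcSc F δ ε r C η p t a M) {x1 x2 : ℝ}
    (h1 : -((2 * M + 2) * δ) ≤ x1) (h2 : x2 ≤ (2 * M + 2) * δ) {x : ℝ} (hx : x ∈ Ioo x1 x2) :
    ∃ u ∈ bgcArc δ F gs γ p t g x1 x2, |dc2X p t (triPos δ u) - x| ≤ η := by
  have hη := S.eta
  have hδ := X.apx.dpos
  have he : 0 ≤ δ + ε := add_nonneg hδ.le X.apx.epos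
  have w2 : (2 * (M:ℝ) + 2) * δ ≤ r := by linarith [S.box]
  obtain ⟨u, hu, h⟩ := bgb_patch_hit X.apx X.gr X.rpos X.Cr (by linarith) (by linarith) hx
  refine ⟨u, (bgc_mem_arc X.apx).2 hu, ?_⟩
  have := bgb_X_close (p := p) X.gr.unit he h
  unfold dc2Gr at this
  rw [dc2X_Fr X.gr.unit] at this
  exact this.trans hη

/-- one arc, on the side `σ = ±1` of the abscissas. -/
theorem bgc_arc_side (X : BgcCtx D F δ ε γ gs r C p t g c d k) (S : BgcSc F δ ε r C η p t a M) {r0 r3 : ℕ} (h0 : 6 * a ≤ r0)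
    (h03 : r0 ≤ r3) (h3 : 2 * r3 ≤ M) {σ : ℝ} (hσ : σ = 1 ∨ σ = -1) :
    ∃ P : Finset TV, TscConn tscG (P : Set TV) ∧ P ⊆ latBd F ∧
      (∀ u ∈ P, r0 < 2 * latN (u - c) ∧ latN (u - c) ≤ 2 * r3 ∧ a * δ ≤ σ * dc2X p t (triPos δ u)) ∧
      (∃ u ∈ P, latN (u - c) ≤ r0) ∧ (∃ u ∈ P, r3 < latN (u - c)) ∧
      ∀ u ∈ latBd F, r0 ≤ latN (u - c) → latN (u - c) ≤ r3 → 0 ≤ σ * dc2X p t (triPos δ u) → u ∈ P := by
  have hδ := X.apx.dpos
  obtain ⟨n1, n2, n3, n4⟩ := S.num hδ X.apx.epos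
  have hηa := S.eta_a
  have c0 : 6 * ((a:ℝ) * δ) ≤ r0 * δ := by
    have : (6:ℝ) * a ≤ r0 := by exact_mod_cast h0
    nlinarith
  have c03 : (r0:ℝ) * δ ≤ r3 * δ := mul_le_mul_of_nonneg_right (by exact_mod_cast h03) hδ.le
  have c3 : 2 * ((r3:ℝ) * δ) ≤ M * δ := by
    have : (2:ℝ) * r3 ≤ M := by exact_mod_cast h3
    nlinarith
  have eW : (2 * (M:ℝ) + 2) * δ = 2 * (M * δ) + 2 * δ := by ring
  set A := (a:ℝ) * δ with hA
  set R0 := (r0:ℝ) * δ with hR0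
  set R3 := (r3:ℝ) * δ with hR3
  set W := (M:ℝ) * δ with hW
  -- the window
  obtain ⟨x1, x2, hx12, hw1, hw2, hloc, hcap⟩ : ∃ x1 x2 : ℝ, x1 < x2 ∧ -((2 * (M:ℝ) + 2) * δ) ≤ x1 ∧ x2 ≤ (2 * (M:ℝ) + 2) * δ ∧
      (∀ z : ℝ, x1 - η ≤ z → z ≤ x2 + η → 5 / 8 * R0 - η ≤ σ * z ∧ σ * z ≤ 5 / 4 * R3 + η) ∧
      (∀ z : ℝ, 5 / 8 * R0 + η < σ * z → σ * z < 5 / 4 * R3 - η → x1 + η < z ∧ z < x2 - η) := by
    rcases hσ with rfl | rfl
    · refine ⟨5 / 8 * R0, 5 / 4 * R3, by linarith, by rw [eW]; linarith, by rw [eW]; linarith, fun z a b => ?_, fun z a b => ?_⟩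
      · constructor <;> linarith
      · constructor <;> linarith
    · refine ⟨-(5 / 4 * R3), -(5 / 8 * R0), by linarith, by rw [eW]; linarith, by rw [eW]; linarith, fun z a b => ?_,
        fun z a b => ?_⟩
      · constructor <;> linarith
      · constructor <;> linarith
  have habs : ∀ z : ℝ, |z| = |σ * z| := by
    intro z
    rcases hσ with rfl | rfl
    · rw [one_mul]
    · rw [neg_one_mul, abs_neg]
  have hr : (2 * (M:ℝ) + 2) * δ ≤ r := by linarith [S.box]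
  have hit : ∀ x : ℝ, 5 / 8 * R0 + η < x → x < 5 / 4 * R3 - η →
      ∃ u ∈ bgcArc δ F gs γ p t g x1 x2, |σ * dc2X p t (triPos δ u) - x| ≤ η := by
    intro x a1 a2
    have hs : σ * (σ * x) = x := by rcases hσ with rfl | rfl <;> ring
    obtain ⟨b1, b2⟩ := hcap (σ * x) (by rw [hs]; exact a1) (by rw [hs]; exact a2)
    obtain ⟨u, hu, h⟩ := bgc_arc_hit X S hw1 hw2 (x := σ * x) ⟨by linarith, by linarith⟩
    refine ⟨u, hu, ?_⟩
    rw [habs] at h
    rwa [mul_sub, hs] at h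
  refine ⟨bgcArc δ F gs γ p t g x1 x2, bgc_arc_conn X (by linarith) (by linarith), bgc_arc_sub _ _ _ _ _ _ _ _ _, ?_, ?_, ?_, ?_⟩
  · intro u hu
    obtain ⟨l1, l2, l3⟩ := bgc_arc_loc X S hw1 hw2 hu
    obtain ⟨m1, m2⟩ := hloc _ l1 l2
    have hXabs : |dc2X p t (triPos δ u)| ≤ 5 / 4 * R3 + η := by
      rw [habs]; exact abs_le.2 ⟨by linarith, m2⟩
    have q1 := bgc_rad_le X hXabs l3
    have q2 := (bgc_coord_le X u).1
    rw [habs] at q2
    have q3 := (abs_le.1 q2).2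
    refine ⟨?_, ?_, by linarith⟩
    · have : (r0:ℝ) * δ < (2 * latN (u - c) : ℝ) * δ := by linarith
      have := lt_of_mul_lt_mul_right this hδ.le
      exact_mod_cast this
    · have : (latN (u - c) : ℝ) * δ ≤ (2 * r3 : ℝ) * δ := by linarith
      have := le_of_mul_le_mul_right this hδ
      exact_mod_cast this
  · obtain ⟨u, hu, h⟩ := hit (2 / 3 * R0) (by linarith) (by linarith)
    refine ⟨u, hu, ?_⟩
    obtain ⟨l1, l2, l3⟩ := bgc_arc_loc X S hw1 hw2 hu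
    have a1 := abs_le.1 h
    have hXabs : |dc2X p t (triPos δ u)| ≤ 2 / 3 * R0 + η := by
      rw [habs]; exact abs_le.2 ⟨by linarith [a1.1], by linarith [a1.2]⟩
    have q1 := bgc_rad_le X hXabs l3
    have : (latN (u - c) : ℝ) * δ ≤ (r0 : ℝ) * δ := by linarith
    have := le_of_mul_le_mul_right this hδ
    exact_mod_cast this
  · obtain ⟨u, hu, h⟩ := hit (9 / 8 * R3) (by linarith) (by linarith)
    refine ⟨u, hu, ?_⟩
    have a1 := abs_le.1 h
    have q2 := (bgc_coord_le X u).1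
    rw [habs] at q2
    have q3 := (abs_le.1 q2).2
    have : (r3:ℝ) * δ < (latN (u - c) : ℝ) * δ := by linarith [a1.1]
    have := lt_of_mul_lt_mul_right this hδ.le
    exact_mod_cast this
  · intro u hu g0 g3 hs
    have huM : latN (u - c) ≤ M := by omega
    have l3 := bgc_flat X S hu huM
    have q1 := bgc_rad_le X (le_refl _) l3
    rw [habs, abs_of_nonneg hs] at q1
    have q2 := (bgc_coord_le X u).1
    rw [habs] at q2
    have q3 := (abs_le.1 q2).2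
    have g0' : R0 ≤ (latN (u - c) : ℝ) * δ := mul_le_mul_of_nonneg_right (by exact_mod_cast g0) hδ.le
    have g3' : (latN (u - c) : ℝ) * δ ≤ R3 := mul_le_mul_of_nonneg_right (by exact_mod_cast g3) hδ.le
    obtain ⟨b1, b2⟩ := hcap (dc2X p t (triPos δ u)) (by linarith) (by linarith)
    exact bgc_arc_capture X S hw1 hw2 hu huM b1 b2

/-- **the two boundary arcs** between the lattice radii `r0/2` and `2 r3`. -/
theorem bgc_arcs (X : BgcCtx D F δ ε γ gs r C p t g c d k) (S : BgcSc F δ ε r C η p t a M) {r0 r3 : ℕ} (h0 : 6 * a ≤ r0)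
    (h03 : r0 ≤ r3) (h3 : 2 * r3 ≤ M) :
    ∃ PL PR : Finset TV, TscConn tscG (PL : Set TV) ∧ TscConn tscG (PR : Set TV) ∧ PL ⊆ latBd F ∧ PR ⊆ latBd F ∧
      (∀ u ∈ PL, r0 < 2 * latN (u - c) ∧ latN (u - c) ≤ 2 * r3 ∧ a * δ ≤ dc2X p t (triPos δ u)) ∧
      (∀ u ∈ PR, r0 < 2 * latN (u - c) ∧ latN (u - c) ≤ 2 * r3 ∧ dc2X p t (triPos δ u) ≤ -(a * δ)) ∧
      (∃ u ∈ PL, latN (u - c) ≤ r0) ∧ (∃ u ∈ PL, r3 < latN (u - c)) ∧
      (∃ u ∈ PR, latN (u - c) ≤ r0) ∧ (∃ u ∈ PR, r3 < latN (u - c)) ∧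
      ∀ u ∈ latBd F, r0 ≤ latN (u - c) → latN (u - c) ≤ r3 →
        (0 ≤ dc2X p t (triPos δ u) → u ∈ PL) ∧ (dc2X p t (triPos δ u) ≤ 0 → u ∈ PR) := by
  obtain ⟨PL, a1, a2, a3, a4, a5, a6⟩ := bgc_arc_side X S h0 h03 h3 (σ := 1) (Or.inl rfl)
  obtain ⟨PR, b1, b2, b3, b4, b5, b6⟩ := bgc_arc_side X S h0 h03 h3 (σ := -1) (Or.inr rfl)
  refine ⟨PL, PR, a1, b1, a2, b2, fun u hu => ?_, fun u hu => ?_, a4, a5, b4, b5, fun u hu g0 g3 => ⟨fun h => ?_, fun h => ?_⟩⟩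
  · have := a3 u hu
    rwa [one_mul] at this
  · obtain ⟨x, y, z⟩ := b3 u hu
    exact ⟨x, y, by linarith⟩
  · exact a6 u hu g0 g3 (by linarith)
  · exact b6 u hu g0 g3 (by linarith)

end ctx

end Claimed.Agent.R291
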