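import Claimed.Agent.R291.Defs.BdyGeo
import Claimed.Agent.R291.Pl.SetForm
import Claimed.Agent.R291.Pl.Ball

/-!
# Row 291 (S0539), unit BDY, file Bdy/Top      (owner: helper173; prefix `bdy_`)

THE DETERMINISTIC PLANAR PART OF [ARCH]  (TEX[prop:boundary-arch] l.620-668: "exterior route", "closing the arch", winding).      Model free.
* frames: `bdy_rotk_*`, `bdy_fr_sub`, `bdy_fr_adj`, `bdy_fr_inj`, `bdy_fr_N`, `bdy_fr_box`
* `bdy_cross`      set form of `plf_cross` (Pl/Wind) in a frame: a path from `a` to `b` and a path from `v` (free from below) to `w` (free from above, between the columns of `a` and `b`)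
                   which misses the two half columns above `a` and `b` share a site
* `bdy_top`        (TOP) in a block of Defs/BdyGeo: a path from `aL` to `aR` inside `(A ∪ PL ∪ PR) ∩ (latBall c b3 \ latBall c b0)` meets every path of sites of `A` from `latBall c a` to the sphere of radius `3 b3 + 1`
* `bdy_hull`       the HULL of a finite set: smallest hole-free finite superset
* `bdy_walk_cut`   a walk from radius `< a` to radius `> R` contains a walk from the sphere of radius `a` to the sphere of radius `R` inside the closed annulus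
-/

set_option autoImplicit false

namespace Claimed.Agent.R291

open Claims Claims.C0467 Relation

/-! ## 1. frames -/

theorem bdy_rotk_add (k : ℕ) : ∀ u v : TV, latRot^[k] (u + v) = latRot^[k] u + latRot^[k] v := by
  induction k with
  | zero => intro u v; rfl
  | succ k ih =>
    intro u v
    rw [Function.iterate_succ_apply, Function.iterate_succ_apply, Function.iterate_succ_apply, lat_rot_add, ih]

theorem bdy_rotk_N (k : ℕ) : ∀ u : TV, latN (latRot^[k] u) = latN u := by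
  induction k with
  | zero => intro u; rfl
  | succ k ih =>
    intro u
    rw [Function.iterate_succ_apply, ih, plh_N_rot]

theorem bdy_fr_sub (c : TV) (k : ℕ) (u v : TV) : bdyFr c k v - bdyFr c k u = latRot^[k] (v - u) := by
  unfold bdyFr
  have h := bdy_rotk_add k (v - u) (u - c)
  rw [sub_add_sub_cancel] at h
  rw [h, add_sub_cancel_right]

theorem bdy_fr_adj (c : TV) (k : ℕ) (u v : TV) (h : triAdj u v) : triAdj (bdyFr c k u) (bdyFr c k v) := by
  rw [plh_N_adj_iff] at h ⊢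
  rw [bdy_fr_sub, bdy_rotk_N, h]

theorem bdy_fr_inj (c : TV) (k : ℕ) (u v : TV) (h : bdyFr c k u = bdyFr c k v) : u = v := by
  have h1 : latN (bdyFr c k v - bdyFr c k u) = 0 := by rw [h, sub_self, plh_N_zero]
  rw [bdy_fr_sub, bdy_rotk_N, plh_N_eq_zero, sub_eq_zero] at h1
  exact h1.symm

theorem bdy_fr_N (c : TV) (k : ℕ) (u : TV) : latN (bdyFr c k u) = latN (u - c) := bdy_rotk_N k _

/-- the ball of radius `r` lies in the box `|X|, |Y| ≤ r`; the box `|X| ≤ r, |Y| ≤ s` lies in the ball of radius `r + s` -/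
theorem bdy_fr_box (c : TV) (k : ℕ) (u : TV) :
    |(bdyFr c k u).1| ≤ (latN (u - c) : ℤ) ∧ |(bdyFr c k u).2| ≤ (latN (u - c) : ℤ) ∧
      (latN (u - c) : ℤ) ≤ |(bdyFr c k u).1| + |(bdyFr c k u).2| := by
  rw [← bdy_fr_N c k u]
  have h1 := plh_N_fst (bdyFr c k u)
  have h2 := plh_N_snd (bdyFr c k u)
  have h3 := plh_N_le_sup (bdyFr c k u)
  simp only [Int.abs_eq_natAbs]
  refine ⟨?_, ?_, ?_⟩ <;> omega

/-! ## 2. forced intersection in a frame -/

theorem bdy_cross (c : TV) (k : ℕ) {S T : Set TV} {a b v w : TV} (ha : a ∈ S) (hab : TscR tscG S a b) (hv : v ∈ T)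
    (hvw : TscR tscG T v w)
    (h0 : ∀ u ∈ S, (bdyFr c k u).1 = (bdyFr c k v).1 → (bdyFr c k v).2 ≤ (bdyFr c k u).2)
    (h1 : ∀ u ∈ S, (bdyFr c k u).1 = (bdyFr c k w).1 → (bdyFr c k u).2 ≤ (bdyFr c k w).2)
    (h2 : (bdyFr c k a).1 ≤ (bdyFr c k w).1) (h3 : (bdyFr c k w).1 < (bdyFr c k b).1)
    (h4 : ∀ u ∈ T, ¬ ((bdyFr c k u).1 = (bdyFr c k a).1 ∧ (bdyFr c k a).2 < (bdyFr c k u).2))
    (h5 : ∀ u ∈ T, ¬ ((bdyFr c k u).1 = (bdyFr c k b).1 ∧ (bdyFr c k b).2 < (bdyFr c k u).2)) : (S ∩ T).Nonempty := by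
  obtain ⟨l, hl1, hl2, hl3, hl4⟩ := pls_R_list ha hab
  obtain ⟨l', hl1', hl2', hl3', hl4'⟩ := pls_R_list hv hvw
  have key := plf_cross (plf_map_chain (bdy_fr_adj c k) hl1) (plf_map_chain (bdy_fr_adj c k) hl1')
    (plf_map_head hl2) (plf_map_last hl3) (plf_map_head hl2') (plf_map_last hl3')
    (fun u hu => by obtain ⟨y, hy, rfl⟩ := List.mem_map.1 hu; exact h0 y (hl4 y hy))
    (fun u hu => by obtain ⟨y, hy, rfl⟩ := List.mem_map.1 hu; exact h1 y (hl4 y hy)) h2 h3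
    (fun u hu => by obtain ⟨y, hy, rfl⟩ := List.mem_map.1 hu; exact h4 y (hl4' y hy))
    (fun u hu => by obtain ⟨y, hy, rfl⟩ := List.mem_map.1 hu; exact h5 y (hl4' y hy))
  obtain ⟨z, hz, hz'⟩ := plf_map_common (bdy_fr_inj c k) key
  exact ⟨z, hl4 z hz, hl4' z hz'⟩

/-! ## 3. (TOP) in a block -/

/-- **(TOP)**: in a block, a path from the left anchor to the right anchor inside `(A ∪ PL ∪ PR) ∩ (latBall c b3 \ latBall c b0)` meets every path of sites of `A ∩ latBall c (3 b3 + 1)`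
from `latBall c a` to the outside of `latBall c (3 b3)` -/
theorem bdy_top {A : Finset TV} {c : TV} {k K1 Lq n0 ms : ℕ} {B : BdyBlkD} (hB : BdyBlk A c k K1 Lq n0 ms B) {S T : Set TV}
    (hS : ∀ u ∈ S, (u ∈ A ∨ u ∈ B.PL ∨ u ∈ B.PR) ∧ u ∈ latBall c B.b3 ∧ u ∉ latBall c B.b0) (haS : B.aL ∈ S)
    (hSR : TscR tscG S B.aL B.aR) (hT : ∀ u ∈ T, u ∈ A ∧ u ∈ latBall c (3 * B.b3 + 1)) {w v : TV} (hw : w ∈ latBall c B.a)
    (hv : v ∉ latBall c (3 * B.b3)) (hvT : v ∈ T) (hvw : TscR tscG T v w) : (S ∩ T).Nonempty := by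
  have hwN : latN (w - c) ≤ B.a := lat_mem_ball.1 hw
  have hvN : 3 * B.b3 < latN (v - c) := by
    by_contra hc
    exact hv (lat_mem_ball.2 (not_lt.1 hc))
  obtain ⟨w1, w2, -⟩ := bdy_fr_box c k w
  obtain ⟨-, -, v3⟩ := bdy_fr_box c k v
  refine bdy_cross c k haS hSR hvT hvw ?_ ?_ ?_ ?_ ?_ ?_
  · -- `v` is free from below
    intro u hu hx
    obtain ⟨-, hu3, -⟩ := hS u hu
    obtain ⟨u1, u2, -⟩ := bdy_fr_box c k u
    have huN : latN (u - c) ≤ B.b3 := lat_mem_ball.1 hu3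
    by_contra hlt
    have hlt' : (bdyFr c k u).2 < (bdyFr c k v).2 := not_le.1 hlt
    have hX : |(bdyFr c k v).1| ≤ (B.b3 : ℤ) := by rw [← hx]; omega
    have hY : 2 * (B.b3 : ℤ) < (bdyFr c k v).2 := by
      rw [abs_le] at u2
      have h5 : 2 * (B.b3 : ℤ) < |(bdyFr c k v).2| := by omega
      rcases abs_cases (bdyFr c k v).2 with h6 | h6 <;> omega
    exact hB.top v (hT v hvT).2 hX hY (hT v hvT).1
  · -- `w` is free from above
    intro u hu hx
    obtain ⟨hu1, hu3, hu0⟩ := hS u hu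
    obtain ⟨-, -, u3⟩ := bdy_fr_box c k u
    have huN : B.b0 < latN (u - c) := by
      by_contra hc
      exact hu0 (lat_mem_ball.2 (not_lt.1 hc))
    by_contra hlt
    have hlt' : (bdyFr c k w).2 < (bdyFr c k u).2 := not_le.1 hlt
    have hb0 := hB.hb0
    have hX : |(bdyFr c k u).1| ≤ (B.a : ℤ) := by rw [hx]; omega
    have hY : 0 < (bdyFr c k u).2 := by
      rw [abs_le] at w2
      rcases abs_cases (bdyFr c k u).2 with h6 | h6 <;> omega
    obtain ⟨n1, n2, n3⟩ := hB.col u hu3 hu0 hX hY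
    rcases hu1 with h | h | h
    · exact n1 h
    · exact n2 h
    · exact n3 h
  · have := hB.aL_x
    rw [abs_le] at w1
    omega
  · have := hB.aR_x
    rw [abs_le] at w1
    omega
  · rintro u hu ⟨e1, e2⟩
    exact hB.rayL u (hT u hu).2 e1 e2 (hT u hu).1
  · rintro u hu ⟨e1, e2⟩
    exact hB.rayR u (hT u hu).2 e1 e2 (hT u hu).1

/-! ## 4. the hull of a finite set -/

theorem bdy_finset_in_ball (X : Finset TV) : ∃ R : ℕ, X ⊆ latBall 0 R := by
  refine ⟨X.sup (fun u => latN u), fun u hu => ?_⟩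
  rw [lat_mem_ball, sub_zero]
  exact Finset.le_sup (f := fun u => latN u) hu

/-- **the hull**: the complement of the unbounded component of the complement -/
theorem bdy_hull (X : Finset TV) : ∃ H : Finset TV, X ⊆ H ∧ MomCo H ∧ (∀ (c : TV) (R : ℕ), X ⊆ latBall c R → H ⊆ latBall c R) ∧
    ∀ u v, u ∉ H → TscR tscG ((X : Set TV)ᶜ) u v → v ∉ H := by
  classical
  obtain ⟨R0, hR0⟩ := bdy_finset_in_ball X
  obtain ⟨x0, hx0⟩ : ∃ x0 : TV, x0 ∉ latBall 0 R0 := by
    refine ⟨((R0 : ℤ) + 1, 0), fun h => ?_⟩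
    rw [lat_mem_ball, sub_zero, plh_N_hor] at h
    omega
  have hsub : ((latBall 0 R0 : Finset TV) : Set TV)ᶜ ⊆ ((X : Set TV)ᶜ) := fun u hu hX => hu (hR0 hX)
  have hfar : ∀ u, u ∉ latBall 0 R0 → u ∈ tscComp tscG ((X : Set TV)ᶜ) x0 := fun u hu =>
    ⟨hsub hu, tsc_R_mono hsub (plh_ball_compl_conn 0 R0 x0 hx0 u hu)⟩
  refine ⟨(latBall 0 R0).filter (fun u => u ∉ tscComp tscG ((X : Set TV)ᶜ) x0), ?_, ?_, ?_, ?_⟩
  · intro u hu
    exact Finset.mem_filter.2 ⟨hR0 hu, fun h => h.1 hu⟩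
  · have e : (((latBall 0 R0).filter (fun u => u ∉ tscComp tscG ((X : Set TV)ᶜ) x0) : Finset TV) : Set TV)ᶜ
        = tscComp tscG ((X : Set TV)ᶜ) x0 := by
      ext u
      simp only [Set.mem_compl_iff, Finset.mem_coe, Finset.mem_filter, not_and, not_not]
      exact ⟨fun h => by
        by_cases hb : u ∈ latBall 0 R0
        · exact h hb
        · exact hfar u hb, fun h _ => h⟩
    unfold MomCo
    rw [e]
    exact tsc_comp_conn x0
  · intro c R hX u hu
    obtain ⟨hu1, hu2⟩ := Finset.mem_filter.1 hu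
    by_contra hc
    have hc' : R < latN (u - c) := by
      by_contra h
      exact hc (lat_mem_ball.2 (not_lt.1 h))
    obtain ⟨w, hw1, hw2⟩ := plh_escape c R (R0 + latN c + 1) u hc'
    have hw3 : w ∉ latBall 0 R0 := by
      intro h
      rw [lat_mem_ball, sub_zero] at h
      have h4 := plh_N_tri w 0 c
      rw [sub_zero, zero_sub, plh_N_neg] at h4
      omega
    have hsub' : ((latBall c R : Finset TV) : Set TV)ᶜ ⊆ ((X : Set TV)ᶜ) := fun y hy hXy => hy (hX hXy)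
    have h5 := hfar w hw3
    exact hu2 ⟨hsub' hc, tsc_R_trans h5.2 (tsc_R_symm (tsc_R_mono hsub' hw2))⟩
  · intro u v hu huv hv
    obtain ⟨-, hv2⟩ := Finset.mem_filter.1 hv
    have hu' : u ∈ tscComp tscG ((X : Set TV)ᶜ) x0 := by
      by_cases hb : u ∈ latBall 0 R0
      · by_contra hc
        exact hu (Finset.mem_filter.2 ⟨hb, hc⟩)
      · exact hfar u hb
    exact hv2 ⟨tsc_R_mem huv hu'.1, tsc_R_trans hu'.2 huv⟩

/-- a connected set which misses `X` and has a site off the hull misses the hull -/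
theorem bdy_hull_miss {X H : Finset TV} (hH : ∀ u v, u ∉ H → TscR tscG ((X : Set TV)ᶜ) u v → v ∉ H) {Q : Set TV}
    (hQ : TscConn tscG Q) (hQX : ∀ u ∈ Q, u ∉ X) {u0 : TV} (hu0 : u0 ∈ Q) (hu0H : u0 ∉ H) : ∀ u ∈ Q, u ∉ H :=
  fun u hu => hH u0 u hu0H (tsc_R_mono (fun y hy => hQX y hy) (hQ u0 hu0 u hu))

/-! ## 5. cutting walks -/

theorem bdy_N_lip (c : TV) (x y : TV) (h : triAdj x y) : latN (y - c) ≤ latN (x - c) + 1 ∧ latN (x - c) ≤ latN (y - c) + 1 := by
  have h1 : triAdj (x - c) (y - c) := by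
    rw [lat_adj_iff] at h ⊢
    rwa [sub_sub_sub_cancel_right]
  exact ⟨plh_N_adj h1, plh_N_adj' h1⟩

/-- discrete intermediate value theorem along a path inside `S` -/
theorem bdy_ivt {g : TV → ℕ} (hg : ∀ x y, triAdj x y → g y ≤ g x + 1 ∧ g x ≤ g y + 1) {S : Set TV} {x y : TV} (hx : x ∈ S)
    (h : TscR tscG S x y) {m : ℕ} (h1 : g x ≤ m) (h2 : m ≤ g y) : ∃ z ∈ S, g z = m := by
  induction h with
  | refl => exact ⟨x, hx, le_antisymm h1 h2⟩
  | @tail b d _ hbd ih =>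
    by_cases hb : m ≤ g b
    · exact ih hb
    · have := (hg b d hbd.1).1
      exact ⟨d, hbd.2.2, by omega⟩

/-- **cutting**: a walk of `P`-sites from `g < a` to `g > R` contains a path from `g = a` to `g = R` inside `{P, a ≤ g ≤ R}` -/
theorem bdy_walk_cut {g : TV → ℕ} (hg : ∀ x y, triAdj x y → g y ≤ g x + 1 ∧ g x ≤ g y + 1) {P : TV → Prop} {a R : ℕ} (haR : a ≤ R)
    {u v : TV} (hw : ReflTransGen (fun x y => triAdj x y ∧ P y) u v) (hu : g u < a) (hv : R < g v) :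
    ∃ a' b', g a' = a ∧ g b' = R ∧ P a' ∧ TscR tscG {s | P s ∧ a ≤ g s ∧ g s ≤ R} a' b' := by
  have claim : ∀ y, ReflTransGen (fun x y => triAdj x y ∧ P y) u y → g y < a ∨
      (∃ a', g a' = a ∧ P a' ∧ y ∈ {s | P s ∧ a ≤ g s ∧ g s ≤ R} ∧ TscR tscG {s | P s ∧ a ≤ g s ∧ g s ≤ R} a' y) ∨
      ∃ a' b', g a' = a ∧ g b' = R ∧ P a' ∧ TscR tscG {s | P s ∧ a ≤ g s ∧ g s ≤ R} a' b' := by
    intro y hy
    induction hy with
    | refl => exact Or.inl hu
    | @tail y y' _ hstep ih =>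
      obtain ⟨hadj, hP⟩ := hstep
      obtain ⟨l1, l2⟩ := hg y y' hadj
      rcases ih with h | ⟨a', e1, e2, e3, e4⟩ | h
      · by_cases hc : g y' < a
        · exact Or.inl hc
        · exact Or.inr (Or.inl ⟨y', by omega, hP, ⟨hP, by omega, by omega⟩, tsc_R_refl _⟩)
      · by_cases hc : g y' < a
        · exact Or.inl hc
        · by_cases hc2 : g y' ≤ R
          · exact Or.inr (Or.inl ⟨a', e1, e2, ⟨hP, by omega, hc2⟩, e4.tail ⟨hadj, e3, ⟨hP, by omega, hc2⟩⟩⟩)
          · have := e3.2.2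
            exact Or.inr (Or.inr ⟨a', y, e1, by omega, e2, e4⟩)
      · exact Or.inr (Or.inr h)
  rcases claim v hw with h | ⟨a', -, -, e3, -⟩ | h
  · omega
  · have := e3.2.2
    omega
  · exact h

end Claimed.Agent.R291
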