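import Claimed.Agent.R291.Bdy.GeoA
import Claimed.Agent.R291.Bdy.Top

/-!
# Row 291 (S0539), unit BDY, file Bdy/GeoF : THE FRAME OF A BLOCK      (owner helper135; prefix `bgf_`, `Bgf`; item (2) of the assembly plan of helper119 for `exit_bdy_geo`)

`d` = exterior lattice direction (`bga_ext_dir`), `k` with `latRot^[k] d = (0,1)`, `bgfE d = - latRot (latRot d)` = the direction whose frame image is `(1,0)`.
For `(X, Y) = bdyFr c k u`:   `u = c + X • bgfE d + Y • d`,   `bgaN t (u - c) = X N1 + Y N2`,  `bgaT t (u - c) = X T1 + Y T2`,   `-√3/2 ≤ N1 ≤ 0`, `N2 ≤ -√3/2`, `T1 N2 - T2 N1 = √3/2`.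
* `BgfFr F t c d k sg m M`   the hypotheses: frame + cone band (the two clauses of `BgcCone` of 119)
* `bgf_top`, `bgf_col`       the fields `top`, `col` of `BdyBlk` (conclusion `u ∉ F`)
* `bgf_shape`                `latN w ≤ |X| + (2/√3) |N w|`;  `bgf_X_T` : `N2 T - T2 N = (√3/2) X`
* `bgf_bd_N`                 boundary sites have a small normal component
* `bgf_anchor`               the anchors, with the ray clause and the side clause
-/

set_option autoImplicit false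

namespace Claimed.Agent.R291

open Claims Claims.C0467

/-- the lattice direction whose image in the frame is `(1, 0)` -/
def bgfE (d : TV) : TV := -latRot (latRot d)

theorem bgf_eqns_cite : True := by
  have := @bgfE.eq_1
  trivial

/-! ## 1. the frame -/

theorem bgf_rotk_zsmul (k : ℕ) (n : ℤ) (v : TV) : latRot^[k] (n • v) = n • latRot^[k] v :=
  map_zsmul (AddMonoidHom.mk' (latRot^[k]) (bdy_rotk_add k)) n v

theorem bgf_rotk_neg (k : ℕ) (v : TV) : latRot^[k] (-v) = -latRot^[k] v :=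
  map_neg (AddMonoidHom.mk' (latRot^[k]) (bdy_rotk_add k)) v

theorem bgf_rotk_comm (k : ℕ) (v : TV) : latRot^[k] (latRot v) = latRot (latRot^[k] v) := by
  rw [← Function.iterate_succ_apply, Function.iterate_succ_apply']

theorem bgf_exists_k {d : TV} (hd : d ∈ latDirs) : ∃ k : ℕ, latRot^[k] d = (0, 1) := by
  simp only [latDirs, Finset.mem_insert, Finset.mem_singleton] at hd
  rcases hd with rfl | rfl | rfl | rfl | rfl | rfl
  · exact ⟨1, rfl⟩
  · exact ⟨0, rfl⟩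
  · exact ⟨5, rfl⟩
  · exact ⟨4, rfl⟩
  · exact ⟨3, rfl⟩
  · exact ⟨2, rfl⟩

section frame

variable {d : TV} {k : ℕ}

theorem bgf_rotk_E (hk : latRot^[k] d = (0, 1)) : latRot^[k] (bgfE d) = (1, 0) := by
  unfold bgfE
  rw [bgf_rotk_neg, bgf_rotk_comm, bgf_rotk_comm, hk]
  rfl

theorem bgf_fr_mk (hk : latRot^[k] d = (0, 1)) (c : TV) (x y : ℤ) : bdyFr c k (c + x • bgfE d + y • d) = (x, y) := by
  unfold bdyFr
  have e : c + x • bgfE d + y • d - c = x • bgfE d + y • d := by abel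
  rw [e, bdy_rotk_add, bgf_rotk_zsmul, bgf_rotk_zsmul, hk, bgf_rotk_E hk]
  ext <;> simp

theorem bgf_decomp (hk : latRot^[k] d = (0, 1)) (c u : TV) : u = c + (bdyFr c k u).1 • bgfE d + (bdyFr c k u).2 • d :=
  bdy_fr_inj c k _ _ (by rw [bgf_fr_mk hk])

theorem bgf_sub (hk : latRot^[k] d = (0, 1)) (c u : TV) : u - c = (bdyFr c k u).1 • bgfE d + (bdyFr c k u).2 • d := by
  conv_lhs => rw [bgf_decomp hk c u]
  abel

theorem bgf_N (hk : latRot^[k] d = (0, 1)) (t : ℝ × ℝ) (c u : TV) :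
    bgaN t (u - c) = (bdyFr c k u).1 * bgaN t (bgfE d) + (bdyFr c k u).2 * bgaN t d := by
  conv_lhs => rw [bgf_sub hk c u]
  rw [bga_N_add, bga_N_zsmul, bga_N_zsmul]

theorem bgf_T (hk : latRot^[k] d = (0, 1)) (t : ℝ × ℝ) (c u : TV) :
    bgaT t (u - c) = (bdyFr c k u).1 * bgaT t (bgfE d) + (bdyFr c k u).2 * bgaT t d := by
  conv_lhs => rw [bgf_sub hk c u]
  rw [bga_T_add, bga_T_zsmul, bga_T_zsmul]

end frame

/-! ## 2. the constants of the frame -/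

/-- rational bounds for `√3 / 2` -/
theorem bgf_q : (433 : ℝ) / 500 ≤ Real.sqrt 3 / 2 ∧ Real.sqrt 3 / 2 ≤ 867 / 1000 ∧ (Real.sqrt 3 / 2) ^ 2 = 3 / 4 := by
  obtain ⟨s2, s0, -⟩ := bga_sqrt3
  refine ⟨?_, ?_, by nlinarith⟩
  · by_contra h
    push Not at h
    nlinarith
  · by_contra h
    push Not at h
    nlinarith

theorem bgf_consts {t : ℝ × ℝ} {d : TV} (ht : t.1 ^ 2 + t.2 ^ 2 = 1) (hd : d ∈ latDirs) (hN : bgaN t d ≤ -(Real.sqrt 3 / 2)) :
    -(Real.sqrt 3 / 2) ≤ bgaN t (bgfE d) ∧ bgaN t (bgfE d) ≤ 0 ∧ -1 ≤ bgaN t d ∧ |bgaT t d| ≤ 1 / 2 ∧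
      bgaT t (bgfE d) * bgaN t d - bgaT t d * bgaN t (bgfE d) = Real.sqrt 3 / 2 := by
  obtain ⟨-, -, -, h3, h4⟩ := bga_neg_fp ht hd hN
  refine ⟨h3, h4, (abs_le.1 (bga_dir_abs_le ht hd).2).1, bga_ext_T ht hd hN, ?_⟩
  have hu := bga_dir_unit ht hd
  obtain ⟨s2, -, -⟩ := bga_sqrt3
  unfold bgfE
  simp only [bga_T_neg, bga_N_neg, bga_T_rot, bga_N_rot]
  linear_combination (Real.sqrt 3 / 2) * hu

/-! ## 3. the normal component in the frame -/

section comp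

variable {t : ℝ × ℝ} {d : TV} {k : ℕ}

theorem bgf_N_le (ht : t.1 ^ 2 + t.2 ^ 2 = 1) (hd : d ∈ latDirs) (hN : bgaN t d ≤ -(Real.sqrt 3 / 2)) (hk : latRot^[k] d = (0, 1))
    (c u : TV) (hY : 0 ≤ (bdyFr c k u).2) :
    bgaN t (u - c) ≤ Real.sqrt 3 / 2 * (|((bdyFr c k u).1 : ℝ)| - (bdyFr c k u).2) := by
  obtain ⟨h1, h2, -, -, -⟩ := bgf_consts ht hd hN
  rw [bgf_N hk]
  have hY' : (0 : ℝ) ≤ (bdyFr c k u).2 := by exact_mod_cast hY
  have a1 : ((bdyFr c k u).2 : ℝ) * bgaN t d ≤ (bdyFr c k u).2 * -(Real.sqrt 3 / 2) := mul_le_mul_of_nonneg_left hN hY'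
  have a2 : ((bdyFr c k u).1 : ℝ) * bgaN t (bgfE d) ≤ |((bdyFr c k u).1 : ℝ)| * (Real.sqrt 3 / 2) := by
    rcases abs_cases ((bdyFr c k u).1 : ℝ) with ⟨e, h⟩ | ⟨e, h⟩
    · rw [e]; nlinarith
    · rw [e]; nlinarith
  linarith

theorem bgf_N_ge (ht : t.1 ^ 2 + t.2 ^ 2 = 1) (hd : d ∈ latDirs) (hN : bgaN t d ≤ -(Real.sqrt 3 / 2)) (hk : latRot^[k] d = (0, 1))
    (c u : TV) (hY : (bdyFr c k u).2 ≤ 0) :
    Real.sqrt 3 / 2 * (-((bdyFr c k u).2 : ℝ) - |((bdyFr c k u).1 : ℝ)|) ≤ bgaN t (u - c) := by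
  obtain ⟨h1, h2, -, -, -⟩ := bgf_consts ht hd hN
  rw [bgf_N hk]
  have hY' : ((bdyFr c k u).2 : ℝ) ≤ 0 := by exact_mod_cast hY
  have a1 : ((bdyFr c k u).2 : ℝ) * -(Real.sqrt 3 / 2) ≤ (bdyFr c k u).2 * bgaN t d := mul_le_mul_of_nonpos_left hN hY'
  have a2 : -(|((bdyFr c k u).1 : ℝ)| * (Real.sqrt 3 / 2)) ≤ ((bdyFr c k u).1 : ℝ) * bgaN t (bgfE d) := by
    rcases abs_cases ((bdyFr c k u).1 : ℝ) with ⟨e, h⟩ | ⟨e, h⟩
    · rw [e]; nlinarith
    · rw [e]; nlinarith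
  linarith

/-- **key formula**: the abscissa of the frame from the two components -/
theorem bgf_X_T (ht : t.1 ^ 2 + t.2 ^ 2 = 1) (hd : d ∈ latDirs) (hN : bgaN t d ≤ -(Real.sqrt 3 / 2)) (hk : latRot^[k] d = (0, 1))
    (c u : TV) : bgaN t d * bgaT t (u - c) - bgaT t d * bgaN t (u - c) = Real.sqrt 3 / 2 * (bdyFr c k u).1 := by
  obtain ⟨-, -, -, -, h⟩ := bgf_consts ht hd hN
  rw [bgf_N hk, bgf_T hk]
  linear_combination ((bdyFr c k u).1 : ℝ) * h

theorem bgf_latN_cases (v : TV) : (latN v : ℝ) = |(v.1 : ℝ)| ∨ (latN v : ℝ) = |(v.2 : ℝ)| ∨ (latN v : ℝ) = |(v.1 : ℝ) + v.2| := by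
  have e : ∀ n : ℤ, ((n.natAbs : ℕ) : ℝ) = |(n : ℝ)| := fun n => by rw [Nat.cast_natAbs, Int.cast_abs]
  unfold latN
  rcases max_choice (max v.1.natAbs v.2.natAbs) (v.1 + v.2).natAbs with h | h
  · rw [h]
    rcases max_choice v.1.natAbs v.2.natAbs with h | h
    · rw [h]; exact Or.inl (e _)
    · rw [h]; exact Or.inr (Or.inl (e _))
  · rw [h, e]
    push_cast
    exact Or.inr (Or.inr rfl)

/-- the hexagonal radius is the abscissa up to the normal component -/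
theorem bgf_shape (ht : t.1 ^ 2 + t.2 ^ 2 = 1) (hd : d ∈ latDirs) (hN : bgaN t d ≤ -(Real.sqrt 3 / 2)) (hk : latRot^[k] d = (0, 1))
    (c u : TV) : (latN (u - c) : ℝ) ≤ |((bdyFr c k u).1 : ℝ)| + 6 / 5 * |bgaN t (u - c)| := by
  obtain ⟨h1, h2, h3, -, -⟩ := bgf_consts ht hd hN
  obtain ⟨q1, q2, -⟩ := bgf_q
  have hNe := bgf_N hk t c u
  set X : ℝ := ((bdyFr c k u).1 : ℝ) with hX
  set Y : ℝ := ((bdyFr c k u).2 : ℝ) with hY
  set N : ℝ := bgaN t (u - c) with hNN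
  set N1 : ℝ := bgaN t (bgfE d)
  set N2 : ℝ := bgaN t d
  have fin : ∀ z : ℝ, -N2 * |z| ≤ |N| + -N2 * |X| → |z| ≤ |X| + 6 / 5 * |N| := by
    intro z hz
    have hn := abs_nonneg N
    by_contra hc
    push Not at hc
    nlinarith
  rw [← bdy_fr_N c k u]
  rcases bgf_latN_cases (bdyFr c k u) with e | e | e
  · rw [e]
    have := abs_nonneg N
    linarith
  · rw [e]
    apply fin
    have e1 : -N2 * Y = N1 * X - N := by rw [hNe]; ring
    have e2 : -N2 * |Y| = |N1 * X - N| := by rw [← e1, abs_mul, abs_of_nonneg (by linarith : 0 ≤ -N2)]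
    rw [e2]
    have e3 := abs_sub (N1 * X) N
    have e4 : |N1 * X| ≤ -N2 * |X| := by
      rw [abs_mul, abs_of_nonpos h2]
      exact mul_le_mul_of_nonneg_right (by linarith) (abs_nonneg _)
    linarith
  · rw [e]
    apply fin
    have e1 : -N2 * (X + Y) = (N1 - N2) * X - N := by rw [hNe]; ring
    have e2 : -N2 * |X + Y| = |(N1 - N2) * X - N| := by rw [← e1, abs_mul, abs_of_nonneg (by linarith : 0 ≤ -N2)]
    rw [e2]
    have e3 := abs_sub ((N1 - N2) * X) N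
    have e4 : |(N1 - N2) * X| ≤ -N2 * |X| := by
      rw [abs_mul, abs_of_nonneg (by linarith : 0 ≤ N1 - N2)]
      exact mul_le_mul_of_nonneg_right (by linarith) (abs_nonneg _)
    linarith

end comp

/-! ## 4. frame + cone band -/

/-- the hypotheses of this file: the frame `(d, k)` and the cone band between the radii `m` and `M` (the two clauses of `BgcCone`) -/
structure BgfFr (F : Finset TV) (t : ℝ × ℝ) (c d : TV) (k : ℕ) (sg : ℝ) (m M : ℕ) : Prop where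
  unit : t.1 ^ 2 + t.2 ^ 2 = 1
  dir : d ∈ latDirs
  ext : bgaN t d ≤ -(Real.sqrt 3 / 2)
  rot : latRot^[k] d = (0, 1)
  sg0 : 0 ≤ sg
  sg1 : sg ≤ 1 / 100
  inn : ∀ u, m ≤ latN (u - c) → latN (u - c) ≤ M → sg * latN (u - c) ≤ bgaN t (u - c) → u ∈ latInt F
  out : ∀ u, m ≤ latN (u - c) → latN (u - c) ≤ M → bgaN t (u - c) ≤ -(sg * latN (u - c)) → u ∉ F

section cone

variable {F : Finset TV} {t : ℝ × ℝ} {c d : TV} {k : ℕ} {sg : ℝ} {m M : ℕ}

theorem BgfFr.sgN (H : BgfFr F t c d k sg m M) (u : TV) : sg * latN (u - c) ≤ 1 / 100 * latN (u - c) :=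
  mul_le_mul_of_nonneg_right H.sg1 (Nat.cast_nonneg _)

/-- real form of `bdy_fr_box` -/
theorem bgf_box (c : TV) (k : ℕ) (u : TV) :
    |((bdyFr c k u).1 : ℝ)| ≤ latN (u - c) ∧ |((bdyFr c k u).2 : ℝ)| ≤ latN (u - c) ∧
      (latN (u - c) : ℝ) ≤ |((bdyFr c k u).1 : ℝ)| + |((bdyFr c k u).2 : ℝ)| := by
  obtain ⟨h1, h2, h3⟩ := bdy_fr_box c k u
  refine ⟨?_, ?_, ?_⟩
  · exact_mod_cast h1
  · exact_mod_cast h2
  · exact_mod_cast h3

/-- **(top)** -/
theorem bgf_top (H : BgfFr F t c d k sg m M) {b : ℕ} (hm : m ≤ 2 * b) {u : TV} (hu : latN (u - c) ≤ M)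
    (hX : |(bdyFr c k u).1| ≤ (b : ℤ)) (hY : 2 * (b : ℤ) < (bdyFr c k u).2) : u ∉ F := by
  obtain ⟨b1, b2, b3⟩ := bgf_box c k u
  obtain ⟨q1, q2, -⟩ := bgf_q
  have hX' : |((bdyFr c k u).1 : ℝ)| ≤ b := by exact_mod_cast hX
  have hY' : 2 * (b : ℝ) < (bdyFr c k u).2 := by exact_mod_cast hY
  have hb : (0 : ℝ) ≤ b := Nat.cast_nonneg _
  have hYa : |((bdyFr c k u).2 : ℝ)| = (bdyFr c k u).2 := abs_of_nonneg (by linarith)
  rw [hYa] at b2 b3
  refine H.out u ?_ hu ?_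
  · have : (m : ℝ) ≤ 2 * b := by exact_mod_cast hm
    have h : (m : ℝ) ≤ latN (u - c) := by linarith
    exact_mod_cast h
  · have h1 := bgf_N_le H.unit H.dir H.ext H.rot c u (by omega)
    have h2 := H.sgN u
    have h3 : Real.sqrt 3 / 2 * (|((bdyFr c k u).1 : ℝ)| - (bdyFr c k u).2) ≤ 433 / 500 * (|((bdyFr c k u).1 : ℝ)| - (bdyFr c k u).2) :=
      mul_le_mul_of_nonpos_right q1 (by linarith)
    linarith

/-- **(col)** -/
theorem bgf_col (H : BgfFr F t c d k sg m M) {a b0 : ℕ} (hb0 : 3 * a ≤ b0) (hm : m ≤ b0) {u : TV} (hu : latN (u - c) ≤ M)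
    (hu0 : b0 < latN (u - c)) (hX : |(bdyFr c k u).1| ≤ (a : ℤ)) (hY : 0 < (bdyFr c k u).2) : u ∉ F := by
  obtain ⟨b1, b2, b3⟩ := bgf_box c k u
  obtain ⟨q1, q2, -⟩ := bgf_q
  have hX' : |((bdyFr c k u).1 : ℝ)| ≤ a := by exact_mod_cast hX
  have hY' : (0 : ℝ) < (bdyFr c k u).2 := by exact_mod_cast hY
  have ha : (0 : ℝ) ≤ a := Nat.cast_nonneg _
  have hb0' : 3 * (a : ℝ) ≤ b0 := by exact_mod_cast hb0
  have hu0' : (b0 : ℝ) < latN (u - c) := by exact_mod_cast hu0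
  have hYa : |((bdyFr c k u).2 : ℝ)| = (bdyFr c k u).2 := abs_of_nonneg hY'.le
  rw [hYa] at b2 b3
  refine H.out u (by omega) hu ?_
  have h1 := bgf_N_le H.unit H.dir H.ext H.rot c u hY.le
  have h2 := H.sgN u
  have h3 : Real.sqrt 3 / 2 * (|((bdyFr c k u).1 : ℝ)| - (bdyFr c k u).2) ≤ 433 / 500 * (|((bdyFr c k u).1 : ℝ)| - (bdyFr c k u).2) :=
    mul_le_mul_of_nonpos_right q1 (by linarith)
  linarith

/-- boundary sites have a small normal component -/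
theorem bgf_bd_N (H : BgfFr F t c d k sg m M) {u : TV} (hu : u ∈ latBd F) (h1 : m ≤ latN (u - c)) (h2 : latN (u - c) ≤ M) :
    |bgaN t (u - c)| ≤ sg * latN (u - c) := by
  rw [abs_le]
  constructor
  · by_contra hc
    exact H.out u h1 h2 (not_le.1 hc).le (lat_bd_sub F hu)
  · by_contra hc
    have := H.inn u h1 h2 (not_le.1 hc).le
    rw [lat_int_eq] at this
    exact (Finset.mem_sdiff.1 this).2 hu

/-- boundary sites: the radius is the abscissa up to 2 percent, LEFT (`X < 0`) = positive tangential component -/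
theorem bgf_bd_side (H : BgfFr F t c d k sg m M) {u : TV} (hu : u ∈ latBd F) (h1 : m ≤ latN (u - c)) (h2 : latN (u - c) ≤ M)
    (h0 : 1 ≤ latN (u - c)) :
    (latN (u - c) : ℝ) ≤ 50 / 49 * |((bdyFr c k u).1 : ℝ)| ∧ 0 < -((bdyFr c k u).1 : ℝ) * bgaT t (u - c) := by
  have hN := bgf_bd_N H hu h1 h2
  have hs := bgf_shape H.unit H.dir H.ext H.rot c u
  have hsg := H.sgN u
  have h0' : (1 : ℝ) ≤ latN (u - c) := by exact_mod_cast h0
  obtain ⟨-, -, c3, c4, -⟩ := bgf_consts H.unit H.dir H.ext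
  obtain ⟨q1, q2, -⟩ := bgf_q
  have hXT := bgf_X_T H.unit H.dir H.ext H.rot c u
  have hext := H.ext
  set X : ℝ := ((bdyFr c k u).1 : ℝ)
  set N : ℝ := bgaN t (u - c)
  set T : ℝ := bgaT t (u - c)
  set N2 : ℝ := bgaN t d
  set T2 : ℝ := bgaT t d
  have a1 : (latN (u - c) : ℝ) ≤ 50 / 49 * |X| := by linarith
  refine ⟨a1, ?_⟩
  have hXpos : 0 < |X| := by linarith
  have a2 : |N| ≤ 1 / 49 * |X| := by linarith
  -- `(-X T) (-N2) = X (q X + T2 N)`
  have a3 : (-X * T) * (-N2) = Real.sqrt 3 / 2 * X ^ 2 + X * (T2 * N) := by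
    have : N2 * T = Real.sqrt 3 / 2 * X + T2 * N := by linarith
    calc (-X * T) * (-N2) = X * (N2 * T) := by ring
      _ = Real.sqrt 3 / 2 * X ^ 2 + X * (T2 * N) := by rw [this]; ring
  have a4 : |X * (T2 * N)| ≤ |X| * (1 / 2 * (1 / 49 * |X|)) := by
    rw [abs_mul, abs_mul]
    exact mul_le_mul_of_nonneg_left (mul_le_mul c4 a2 (abs_nonneg _) (by norm_num)) (abs_nonneg _)
  have a5 : X ^ 2 = |X| * |X| := by rw [← sq, sq_abs]
  have a6 : 0 < (-X * T) * (-N2) := by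
    rw [a3, a5]
    have := (abs_le.1 a4).1
    nlinarith [mul_pos hXpos hXpos]
  exact (pos_iff_pos_of_mul_pos a6).2 (by linarith)

theorem bgf_out_int (F : Finset TV) : latOut (latInt F) ⊆ latBd F := by
  intro u hu
  unfold latOut at hu
  obtain ⟨h1, h2⟩ := Finset.mem_sdiff.1 hu
  obtain ⟨w, hw, hwu⟩ := Finset.mem_biUnion.1 h1
  have huF : u ∈ F := (lat_mem_int.1 hw).2 u (lat_mem_nb.1 hwu)
  by_contra hb
  exact h2 (by rw [lat_int_eq]; exact Finset.mem_sdiff.2 ⟨huF, hb⟩)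

open Classical in
/-- **the anchor** in the column `X = x0`: the site just above the topmost interior site of the column -/
theorem bgf_anchor (H : BgfFr F t c d k sg m M) {x0 : ℤ} {ξ b : ℕ} (hξ : |x0| = (ξ : ℤ)) (hm : m ≤ ξ) (h1 : 1 ≤ ξ) (hb : ξ ≤ b)
    (hM : 3 * b + 1 ≤ M) :
    ∃ q ∈ latOut (latInt F), (bdyFr c k q).1 = x0 ∧ ξ ≤ latN (q - c) ∧ latN (q - c) ≤ 2 * ξ ∧ 0 < -(x0 : ℝ) * bgaT t (q - c) ∧
      ∀ u ∈ latBall c (3 * b + 1), (bdyFr c k u).1 = x0 → (bdyFr c k q).2 < (bdyFr c k u).2 → u ∉ latInt F := by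
  set col : ℤ → TV := fun Y => c + x0 • bgfE d + Y • d with hcol
  have hfr : ∀ Y, bdyFr c k (col Y) = (x0, Y) := fun Y => bgf_fr_mk H.rot c x0 Y
  set S : Finset ℤ := (Finset.Icc (-(3 * (b : ℤ) + 1)) (3 * b + 1)).filter
    (fun Y => col Y ∈ latInt F ∧ latN (col Y - c) ≤ 3 * b + 1) with hS
  have hrad : ∀ Y, (ξ : ℤ) ≤ latN (col Y - c) ∧ (latN (col Y - c) : ℤ) ≤ ξ + |Y| := by
    intro Y
    obtain ⟨a1, a2, a3⟩ := bdy_fr_box c k (col Y)
    rw [hfr] at a1 a2 a3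
    simp only at a1 a2 a3
    omega
  have hdeep : -(2 * (ξ : ℤ)) ∈ S := by
    have r := hrad (-(2 * (ξ : ℤ)))
    have e : |(-(2 * (ξ : ℤ)))| = 2 * ξ := by rw [abs_neg, abs_of_nonneg (by positivity)]
    rw [e] at r
    rw [hS, Finset.mem_filter, Finset.mem_Icc]
    refine ⟨⟨by omega, by omega⟩, ?_, by omega⟩
    refine H.inn _ (by omega) (by omega) ?_
    have g := bgf_N_ge H.unit H.dir H.ext H.rot c (col (-(2 * (ξ : ℤ)))) (by rw [hfr]; simp)
    rw [hfr] at g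
    simp only at g
    have hx : |(x0 : ℝ)| = ξ := by exact_mod_cast hξ
    rw [hx] at g
    push_cast at g
    obtain ⟨q1, -, -⟩ := bgf_q
    have r2 : (latN (col (-(2 * (ξ : ℤ))) - c) : ℝ) ≤ 3 * ξ := by
      have : (latN (col (-(2 * (ξ : ℤ))) - c) : ℤ) ≤ 3 * ξ := by omega
      exact_mod_cast this
    have s := H.sgN (col (-(2 * (ξ : ℤ))))
    have hξ0 : (0 : ℝ) ≤ ξ := Nat.cast_nonneg _
    nlinarith
  have hne : S.Nonempty := ⟨_, hdeep⟩
  set Ys : ℤ := S.max' hne with hYs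
  have hYsS : Ys ∈ S := S.max'_mem hne
  have hlo : -(2 * (ξ : ℤ)) ≤ Ys := S.le_max' _ hdeep
  obtain ⟨-, hYsI, hYsR⟩ := (by simpa only [hS, Finset.mem_filter] using hYsS :
    Ys ∈ Finset.Icc (-(3 * (b : ℤ) + 1)) (3 * b + 1) ∧ col Ys ∈ latInt F ∧ latN (col Ys - c) ≤ 3 * b + 1)
  have hhi : Ys ≤ 2 * (ξ : ℤ) := by
    by_contra hc
    refine bgf_top H (b := ξ) (by omega) (u := col Ys) (by omega) ?_ ?_ (lat_int_sub F hYsI)
    · rw [hfr]; exact hξ.le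
    · rw [hfr]; exact not_le.1 hc
  have rq := hrad (Ys + 1)
  have hq1 : |Ys + 1| ≤ 2 * (ξ : ℤ) + 1 := abs_le.2 ⟨by omega, by omega⟩
  have hqn : col (Ys + 1) ∉ latInt F := by
    intro hc
    have : Ys + 1 ∈ S := by
      rw [hS, Finset.mem_filter, Finset.mem_Icc]
      exact ⟨⟨by omega, by omega⟩, hc, by omega⟩
    have := S.le_max' _ this
    omega
  have hadj : col (Ys + 1) = col Ys + d := by
    simp only [hcol, add_smul, one_smul, add_assoc]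
  have hqo : col (Ys + 1) ∈ latOut (latInt F) := by
    unfold latOut
    refine Finset.mem_sdiff.2 ⟨Finset.mem_biUnion.2 ⟨col Ys, hYsI, lat_mem_nb.2 ?_⟩, hqn⟩
    rw [hadj]
    exact lat_adj_add _ H.dir
  obtain ⟨s1, s2⟩ := bgf_bd_side H (bgf_out_int F hqo) (by omega) (by omega) (by omega)
  rw [hfr] at s1 s2
  simp only at s1 s2
  refine ⟨col (Ys + 1), hqo, by rw [hfr], by omega, ?_, s2, ?_⟩
  · have hx : |(x0 : ℝ)| = ξ := by exact_mod_cast hξ
    rw [hx] at s1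
    have hξ0 : (0 : ℝ) ≤ ξ := Nat.cast_nonneg _
    have : (latN (col (Ys + 1) - c) : ℝ) ≤ 2 * ξ := by linarith
    exact_mod_cast this
  · intro u hu hX hY hc
    rw [hfr] at hY
    simp only at hY
    have hu' := lat_mem_ball.1 hu
    have e : u = col (bdyFr c k u).2 := by
      conv_lhs => rw [bgf_decomp H.rot c u, hX]
    obtain ⟨-, a2, -⟩ := bdy_fr_box c k u
    rw [abs_le] at a2
    have : (bdyFr c k u).2 ∈ S := by
      rw [hS, Finset.mem_filter, Finset.mem_Icc, ← e]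
      exact ⟨⟨by omega, by omega⟩, hc, hu'⟩
    have := S.le_max' _ this
    omega

end cone

end Claimed.Agent.R291
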