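import Claimed.Agent.R291.Bdy.GeoB
import Claimed.Agent.R291.Bdy.GeoF

/-!
# Row 291 (S0539), unit BDY, file Bdy/GeoH : THE FRAME IN THE CONTEXT OF ONE BLOCK      (owner helper172; prefix `bgh_`)

Items (F0)-(F5) of the split of helper25 (07:10Z) for `exit_bdy_geo`, in HIS vocabulary (`BgcCtx`, `BgcSc` of `Bdy/GeoB`), obtained from the frame kit of helper135 (`Bdy/GeoF`, cone form `BgfFr`).
`(X, Y) = bdyFr c k u`,  `f = - latRot (latRot d) = bgfE d`.

* (F0) `bgh_exists_k`  : the two fields `fr`, `fr'` of `BgcCtx`;   `BgcCtx.bgh_rot` : `latRot^[k] d = (0,1)`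
* (AD) `bgh_fr`        : `BgcCtx → BgcSc → BgfFr F t c d k (1/100) a M`   (the band of width `η`, `200 η ≤ a δ`, is a cone band on the radii `[a, M]`)
* (F1) `bdy_fr_N` (173), `bgh_X_lip`, `bgh_Y_lip`
* (F2) `bgh_dc2Y`, `bgh_dc2X`
* (F3) `bgh_det`; signs `bgh_X_neg_pos`, `bgh_X_pos_neg`, `bgh_pos_X_neg`, `bgh_neg_X_pos`
* (F4) `bgh_top`, `bgh_col`
* (F5) `bgh_anchor`
-/

set_option autoImplicit false

namespace Claimed.Agent.R291

open Claims Claims.C0467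

/-! ### (F0) the frame index -/

theorem bgh_exists_k {d : TV} (hd : d ∈ latDirs) (c : TV) : ∃ k : ℕ,
    (∀ u, u = c + (bdyFr c k u).1 • (-latRot (latRot d)) + (bdyFr c k u).2 • d) ∧
      ∀ X Y : ℤ, bdyFr c k (c + X • (-latRot (latRot d)) + Y • d) = (X, Y) := by
  obtain ⟨k, hk⟩ := bgf_exists_k hd
  exact ⟨k, fun u => bgf_decomp hk c u, fun X Y => bgf_fr_mk hk c X Y⟩

section ctx

variable {D : Set (ℝ × ℝ)} {F : Finset TV} {δ ε : ℝ} {γ gs : Circle → ℝ × ℝ} {r C η : ℝ} {p t : ℝ × ℝ} {g : ℝ → ℝ}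
  {c d : TV} {k a M : ℕ}

theorem BgcCtx.bgh_rot (X : BgcCtx D F δ ε γ gs r C p t g c d k) : latRot^[k] d = (0, 1) := by
  have h := X.fr' 0 1
  unfold bdyFr at h
  simpa using h

/-! ### (F1) Lipschitz bounds of the frame coordinates -/

theorem bgh_X_lip (c : TV) (k : ℕ) (u v : TV) : |(bdyFr c k v).1 - (bdyFr c k u).1| ≤ (latN (v - u) : ℤ) := by
  have h := (hg_latN_spec (bdyFr c k v - bdyFr c k u)).1
  rw [bdy_fr_sub, bdy_rotk_N] at h
  rw [← bdy_fr_sub c k u v] at h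
  exact h

theorem bgh_Y_lip (c : TV) (k : ℕ) (u v : TV) : |(bdyFr c k v).2 - (bdyFr c k u).2| ≤ (latN (v - u) : ℤ) := by
  have h := (hg_latN_spec (bdyFr c k v - bdyFr c k u)).2.1
  rw [bdy_fr_sub, bdy_rotk_N] at h
  rw [← bdy_fr_sub c k u v] at h
  exact h

/-! ### (F2) physical coordinates from frame coordinates -/

theorem bgh_dc2Y (X : BgcCtx D F δ ε γ gs r C p t g c d k) (u : TV) :
    dc2Y p t (triPos δ u) = dc2Y p t (triPos δ c)
      + δ * ((bdyFr c k u).1 * bgaN t (-latRot (latRot d)) + (bdyFr c k u).2 * bgaN t d) := by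
  have h := bga_Y_sub p t δ u c
  rw [bgf_N X.bgh_rot t c u] at h
  unfold bgfE at h
  linarith

theorem bgh_dc2X (X : BgcCtx D F δ ε γ gs r C p t g c d k) (u : TV) :
    dc2X p t (triPos δ u) = dc2X p t (triPos δ c)
      + δ * ((bdyFr c k u).1 * bgaT t (-latRot (latRot d)) + (bdyFr c k u).2 * bgaT t d) := by
  have h := bga_X_sub p t δ u c
  rw [bgf_T X.bgh_rot t c u] at h
  unfold bgfE at h
  linarith

/-! ### (F3) the determinant and the signs -/

/-- the arithmetic of the signs -/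
theorem bgh_sign_core {q δ η x dx dy N T : ℝ} (hq : 433 / 500 ≤ q) (hδ : 0 < δ) (hη : 0 < η)
    (hdet : q * δ * x = dx * N - dy * T) (hN1 : -1 ≤ N) (hN2 : N ≤ -(433 / 500)) (hT : |T| ≤ 1 / 2) (hdy : |dy| ≤ 3 * η) :
    (q * δ * x ≤ -(100 * η) → η < dx) ∧ (100 * η ≤ q * δ * x → dx < -η) ∧ (100 * η ≤ dx → x < 0) ∧ (dx ≤ -(100 * η) → 0 < x) := by
  have h1 : |dy * T| ≤ 3 * η * (1 / 2) := by
    rw [abs_mul]
    exact mul_le_mul hdy hT (abs_nonneg _) (by positivity)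
  obtain ⟨h2, h3⟩ := abs_le.1 h1
  have hqδ : 0 < q * δ := mul_pos (by linarith) hδ
  refine ⟨fun h => ?_, fun h => ?_, fun h => ?_, fun h => ?_⟩
  · by_contra hc
    push Not at hc
    have : 0 ≤ (η - dx) * (-N) := mul_nonneg (by linarith) (by linarith)
    nlinarith
  · by_contra hc
    push Not at hc
    have : 0 ≤ (dx + η) * (-N) := mul_nonneg (by linarith) (by linarith)
    nlinarith
  · by_contra hc
    push Not at hc
    have h4 : 0 ≤ q * δ * x := mul_nonneg hqδ.le hc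
    have h5 : dx * (433 / 500) ≤ dx * (-N) := mul_le_mul_of_nonneg_left (by linarith) (by linarith)
    nlinarith
  · by_contra hc
    push Not at hc
    have h4 : q * δ * x ≤ 0 := mul_nonpos_of_nonneg_of_nonpos hqδ.le hc
    have h5 : (-dx) * (433 / 500) ≤ (-dx) * (-N) := mul_le_mul_of_nonneg_left (by linarith) (by linarith)
    nlinarith

theorem bgh_det (X : BgcCtx D F δ ε γ gs r C p t g c d k) (u : TV) :
    Real.sqrt 3 / 2 * δ * (bdyFr c k u).1 = (dc2X p t (triPos δ u) - dc2X p t (triPos δ c)) * bgaN t d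
      - (dc2Y p t (triPos δ u) - dc2Y p t (triPos δ c)) * bgaT t d := by
  have h := bgf_X_T X.gr.unit X.hd X.hN X.bgh_rot c u
  rw [bga_X_sub, bga_Y_sub]
  linear_combination (-δ) * h

/-- the four sign statements at once, for a site of small depth -/
theorem bgh_signs (X : BgcCtx D F δ ε γ gs r C p t g c d k) (S : BgcSc F δ ε r C η p t a M) {u : TV}
    (hu : |dc2Y p t (triPos δ u)| ≤ 2 * η) :
    ((bdyFr c k u).1 ≤ -(a : ℤ) → 0 < dc2X p t (triPos δ u)) ∧ ((a : ℤ) ≤ (bdyFr c k u).1 → dc2X p t (triPos δ u) < 0) ∧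
      (a * δ ≤ dc2X p t (triPos δ u) → (bdyFr c k u).1 < 0) ∧ (dc2X p t (triPos δ u) ≤ -(a * δ) → 0 < (bdyFr c k u).1) := by
  have hδ := X.apx.dpos
  obtain ⟨n1, n2, _, _⟩ := S.num hδ X.apx.epos
  have n5 := S.eta_a
  obtain ⟨b1, b2⟩ := bga_base (p := p) X.gr.unit hδ X.hc
  obtain ⟨_, _, k1, k2, _⟩ := bgf_consts X.gr.unit X.hd X.hN
  obtain ⟨q1, _, _⟩ := bgf_q
  have a1 := abs_le.1 b1
  have a2 := abs_le.1 b2
  have a3 := abs_le.1 hu
  have hdy : |dc2Y p t (triPos δ u) - dc2Y p t (triPos δ c)| ≤ 3 * η :=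
    abs_le.2 ⟨by linarith [a3.1, a2.2], by linarith [a3.2, a2.1]⟩
  obtain ⟨c1, c2, c3, c4⟩ := bgh_sign_core q1 hδ n1 (bgh_det X u) k1 (by linarith [X.hN]) k2 hdy
  have hqδ : 0 < Real.sqrt 3 / 2 * δ := mul_pos (by linarith) hδ
  have hbig : 100 * η ≤ Real.sqrt 3 / 2 * δ * a := by
    have : 433 / 500 * (a * δ) ≤ Real.sqrt 3 / 2 * (a * δ) := mul_le_mul_of_nonneg_right q1 (by linarith)
    nlinarith
  refine ⟨fun h => ?_, fun h => ?_, fun h => ?_, fun h => ?_⟩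
  · have h' : ((bdyFr c k u).1 : ℝ) ≤ -(a : ℝ) := by exact_mod_cast h
    have := c1 (by nlinarith [mul_le_mul_of_nonneg_left h' hqδ.le])
    linarith [a1.1]
  · have h' : (a : ℝ) ≤ ((bdyFr c k u).1 : ℝ) := by exact_mod_cast h
    have := c2 (by nlinarith [mul_le_mul_of_nonneg_left h' hqδ.le])
    linarith [a1.2]
  · have := c3 (by linarith [a1.2])
    exact_mod_cast this
  · have := c4 (by linarith [a1.1])
    exact_mod_cast this

theorem bgh_X_neg_pos (X : BgcCtx D F δ ε γ gs r C p t g c d k) (S : BgcSc F δ ε r C η p t a M) {u : TV}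
    (hu : |dc2Y p t (triPos δ u)| ≤ 2 * η) (h : (bdyFr c k u).1 ≤ -(a : ℤ)) : 0 < dc2X p t (triPos δ u) :=
  (bgh_signs X S hu).1 h

theorem bgh_X_pos_neg (X : BgcCtx D F δ ε γ gs r C p t g c d k) (S : BgcSc F δ ε r C η p t a M) {u : TV}
    (hu : |dc2Y p t (triPos δ u)| ≤ 2 * η) (h : (a : ℤ) ≤ (bdyFr c k u).1) : dc2X p t (triPos δ u) < 0 :=
  (bgh_signs X S hu).2.1 h

theorem bgh_pos_X_neg (X : BgcCtx D F δ ε γ gs r C p t g c d k) (S : BgcSc F δ ε r C η p t a M) {u : TV}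
    (hu : |dc2Y p t (triPos δ u)| ≤ 2 * η) (h : a * δ ≤ dc2X p t (triPos δ u)) : (bdyFr c k u).1 < 0 :=
  (bgh_signs X S hu).2.2.1 h

theorem bgh_neg_X_pos (X : BgcCtx D F δ ε γ gs r C p t g c d k) (S : BgcSc F δ ε r C η p t a M) {u : TV}
    (hu : |dc2Y p t (triPos δ u)| ≤ 2 * η) (h : dc2X p t (triPos δ u) ≤ -(a * δ)) : 0 < (bdyFr c k u).1 :=
  (bgh_signs X S hu).2.2.2 h

/-! ### (AD) the band of one block is a cone band -/

theorem BgcSc.bgh_a_pos (S : BgcSc F δ ε r C η p t a M) (hδ : 0 < δ) (hε : 0 ≤ ε) : 1 ≤ a := by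
  obtain ⟨n1, _, _, _⟩ := S.num hδ hε
  have n5 := S.eta_a
  by_contra h
  have : a = 0 := by omega
  rw [this] at n5
  simp at n5
  linarith

theorem bgh_fr (X : BgcCtx D F δ ε γ gs r C p t g c d k) (S : BgcSc F δ ε r C η p t a M) :
    BgfFr F t c d k (1 / 100) a M := by
  have hδ := X.apx.dpos
  obtain ⟨n1, n2, _, _⟩ := S.num hδ X.apx.epos
  have n5 := S.eta_a
  obtain ⟨_, b2⟩ := bga_base (p := p) X.gr.unit hδ X.hc
  have a2 := abs_le.1 b2
  refine ⟨X.gr.unit, X.hd, X.hN, X.bgh_rot, by norm_num, le_rfl, fun u h1 h2 h3 => ?_, fun u h1 h2 h3 => ?_⟩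
  · refine bgc_deep X S (by omega) ?_
    have e := bga_Y_sub p t δ u c
    have h1' : (a : ℝ) ≤ latN (u - c) := by exact_mod_cast h1
    have h4 : δ * (1 / 100 * a) ≤ δ * bgaN t (u - c) := mul_le_mul_of_nonneg_left (by linarith) hδ.le
    linarith [a2.1]
  · refine bgc_low X S (by omega) ?_
    have e := bga_Y_sub p t δ u c
    have h1' : (a : ℝ) ≤ latN (u - c) := by exact_mod_cast h1
    have h4 : δ * bgaN t (u - c) ≤ δ * (-(1 / 100 * a)) := mul_le_mul_of_nonneg_left (by linarith) hδ.le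
    linarith [a2.2]

/-! ### (F4) the fields `top`, `col` -/

theorem bgh_top (X : BgcCtx D F δ ε γ gs r C p t g c d k) (S : BgcSc F δ ε r C η p t a M) {b : ℕ} (hab : a ≤ b) {u : TV}
    (hu : u ∈ latBall c M) (hX : |(bdyFr c k u).1| ≤ (b : ℤ)) (hY : 2 * (b : ℤ) < (bdyFr c k u).2) : u ∉ F :=
  bgf_top (bgh_fr X S) (by omega) (lat_mem_ball.1 hu) hX hY

theorem bgh_col (X : BgcCtx D F δ ε γ gs r C p t g c d k) (S : BgcSc F δ ε r C η p t a M) {u : TV}
    (hu : latN (u - c) ≤ M) (hu0 : 3 * a < latN (u - c)) (hX : |(bdyFr c k u).1| ≤ (a : ℤ)) (hY : 0 < (bdyFr c k u).2) :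
    u ∉ F :=
  bgf_col (bgh_fr X S) (b0 := 3 * a) le_rfl (by omega) hu hu0 hX hY

/-! ### (F5) the anchors -/

/-- a boundary site of the block has lattice radius `|X|` up to `a` -/
theorem bgh_bd_rad (X : BgcCtx D F δ ε γ gs r C p t g c d k) (S : BgcSc F δ ε r C η p t a M) {u : TV} (hu : u ∈ latBd F)
    (huc : latN (u - c) ≤ M) : (latN (u - c) : ℤ) ≤ |(bdyFr c k u).1| + a := by
  have hδ := X.apx.dpos
  obtain ⟨n1, n2, _, _⟩ := S.num hδ X.apx.epos
  have n5 := S.eta_a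
  obtain ⟨_, b2⟩ := bga_base (p := p) X.gr.unit hδ X.hc
  have a2 := abs_le.1 b2
  have a3 := abs_le.1 (bgc_flat X S hu huc)
  have e := bga_Y_sub p t δ u c
  have h1 : |bgaN t (u - c)| ≤ 3 / 200 * a := by
    refine abs_le.2 ⟨?_, ?_⟩
    · by_contra hc
      push Not at hc
      have := mul_lt_mul_of_pos_left hc hδ
      linarith [a3.1, a2.2]
    · by_contra hc
      push Not at hc
      have := mul_lt_mul_of_pos_left hc hδ
      linarith [a3.2, a2.1]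
  have h2 := bgf_shape X.gr.unit X.hd X.hN X.bgh_rot c u
  have h3 : (0 : ℝ) ≤ a := Nat.cast_nonneg a
  have h4 : (latN (u - c) : ℝ) ≤ |((bdyFr c k u).1 : ℝ)| + a := by linarith
  exact_mod_cast h4

/-- **ANCHOR**: in the column `X = x0`, `|x0| = H ≥ a`, the site just above the topmost free site -/
theorem bgh_anchor (X : BgcCtx D F δ ε γ gs r C p t g c d k) (S : BgcSc F δ ε r C η p t a M) {x0 : ℤ} {H b : ℕ}
    (hx0 : |x0| = (H : ℤ)) (haH : a ≤ H) (hb : H ≤ b) (hM : 3 * b + 1 ≤ M) :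
    ∃ q ∈ latOut (latInt F), (bdyFr c k q).1 = x0 ∧ H ≤ latN (q - c) ∧ latN (q - c) ≤ H + a ∧
      |dc2Y p t (triPos δ q)| ≤ 2 * η ∧ (x0 < 0 → 0 < dc2X p t (triPos δ q)) ∧ (0 < x0 → dc2X p t (triPos δ q) < 0) ∧
      ∀ u ∈ latBall c (3 * b + 1), (bdyFr c k u).1 = x0 → (bdyFr c k q).2 < (bdyFr c k u).2 → u ∉ latInt F := by
  have ha1 := S.bgh_a_pos X.apx.dpos X.apx.epos
  obtain ⟨q, hq, h1, h2, h3, _, h5⟩ := bgf_anchor (bgh_fr X S) hx0 haH (by omega) hb hM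
  have hqb := bgc_out_bd F hq
  have hqM : latN (q - c) ≤ M := by omega
  have hfl := bgc_flat X S hqb hqM
  have hr := bgh_bd_rad X S hqb hqM
  rw [h1, hx0] at hr
  refine ⟨q, hq, h1, h2, by exact_mod_cast hr, hfl, fun h => ?_, fun h => ?_, h5⟩
  · refine bgh_X_neg_pos X S hfl ?_
    rw [h1]
    rw [abs_of_neg h] at hx0
    omega
  · refine bgh_X_pos_neg X S hfl ?_
    rw [h1]
    rw [abs_of_pos h] at hx0
    omega

end ctx

end Claimed.Agent.R291
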