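/-
R291 (S0539), unit BDY, deterministic geometry of [ARCH], part K : ASSEMBLY OF ONE BLOCK.
owner: helper119   (head of the geometry: helper25; consumer: `Bdy/GeoArch` (25) -> `exit_bdy_geo`, contract `Defs/BdyGeo` of helper173);  prefix `bgk_`.

Glue of
  * `Bdy/GeoB` (helper25): context `BgcCtx`, scale `BgcSc`, `bgc_arcs` (the two boundary arcs), `bgc_deep`, `bgc_low`, `bgc_out_bd`;
  * `Bdy/GeoT` (helper172): `bgt_blk_tube` (tube with its two ends and patch centres, from the two cone clauses);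
  * `Bdy/GeoF` (helper135): `BgfFr`, `bgf_top`, `bgf_col`, `bgf_anchor` (frame, from the two cone clauses).

  1. `bgk_cone_in`, `bgk_cone_out`, `bgk_fr` : the fixed band of `BgcSc` gives the CONE BAND of aperture `1/100` between the radii `a` and `M`.
  2. abscissa `dc2X` versus `bgaT`;  flat sites have a large abscissa.
  3. `bgkBlk` : the record of the block of scale `a`;  **`bgk_block`** : it satisfies `BdyBlk`.
-/
import Claimed.Agent.R291.Bdy.GeoB
import Claimed.Agent.R291.Bdy.GeoT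
import Claimed.Agent.R291.Bdy.GeoF

set_option autoImplicit false

namespace Claimed.Agent.R291

open Claims.C0467 Set Filter Topology

section ctx

variable {D : Set (ℝ × ℝ)} {F : Finset TV} {δ ε : ℝ} {γ gs : Circle → ℝ × ℝ} {r C η : ℝ} {p t : ℝ × ℝ}
  {g : ℝ → ℝ} {c d : TV} {k a M : ℕ}

/-! ### 1. From the fixed band to the cone band -/

/-- depth of a site in terms of the normal component of `u - c`. -/
theorem bgk_depth (X : BgcCtx D F δ ε γ gs r C p t g c d k) (u : TV) :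
    |dc2Y p t (triPos δ u) - δ * bgaN t (u - c)| ≤ δ := by
  have e1 := bga_Y_sub p t δ u c
  have e2 := (bga_base (p := p) X.gr.unit X.apx.dpos X.hc).2
  have e3 : dc2Y p t (triPos δ u) - δ * bgaN t (u - c) = dc2Y p t (triPos δ c) := by linarith
  rw [e3]; exact e2

/-- abscissa of a site in terms of the tangential component of `u - c`. -/
theorem bgk_absc (X : BgcCtx D F δ ε γ gs r C p t g c d k) (u : TV) :
    |dc2X p t (triPos δ u) - δ * bgaT t (u - c)| ≤ δ := by
  have e1 := bga_X_sub p t δ u c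
  have e2 := (bga_base (p := p) X.gr.unit X.apx.dpos X.hc).1
  have e3 : dc2X p t (triPos δ u) - δ * bgaT t (u - c) = dc2X p t (triPos δ c) := by linarith
  rw [e3]; exact e2

/-- cone band, inner clause. -/
theorem bgk_cone_in (X : BgcCtx D F δ ε γ gs r C p t g c d k) (S : BgcSc F δ ε r C η p t a M) (u : TV)
    (h1 : a ≤ latN (u - c)) (h2 : latN (u - c) ≤ M)
    (h3 : (1 / 100 : ℝ) * latN (u - c) ≤ bgaN t (u - c)) : u ∈ latInt F := by
  have hδ := X.apx.dpos
  obtain ⟨n1, n2, -, -⟩ := S.num hδ X.apx.epos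
  refine bgc_deep X S (by omega) ?_
  have e1 := (abs_le.1 (bgk_depth X u)).1
  have e2 : (a : ℝ) ≤ latN (u - c) := by exact_mod_cast h1
  have e3 : δ * ((1 / 100 : ℝ) * a) ≤ δ * bgaN t (u - c) :=
    mul_le_mul_of_nonneg_left (by linarith) hδ.le
  have e4 := S.eta_a
  nlinarith

/-- cone band, outer clause. -/
theorem bgk_cone_out (X : BgcCtx D F δ ε γ gs r C p t g c d k) (S : BgcSc F δ ε r C η p t a M) (u : TV)
    (h1 : a ≤ latN (u - c)) (h2 : latN (u - c) ≤ M)
    (h3 : bgaN t (u - c) ≤ -((1 / 100 : ℝ) * latN (u - c))) : u ∉ F := by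
  have hδ := X.apx.dpos
  obtain ⟨n1, n2, -, -⟩ := S.num hδ X.apx.epos
  refine bgc_low X S (by omega) ?_
  have e1 := (abs_le.1 (bgk_depth X u)).2
  have e2 : (a : ℝ) ≤ latN (u - c) := by exact_mod_cast h1
  have e3 : δ * bgaN t (u - c) ≤ δ * -((1 / 100 : ℝ) * a) :=
    mul_le_mul_of_nonneg_left (by linarith) hδ.le
  have e4 := S.eta_a
  nlinarith

/-- the frame index of the context rotates `d` to `(0,1)`. -/
theorem bgk_rot (X : BgcCtx D F δ ε γ gs r C p t g c d k) : latRot^[k] d = (0, 1) := by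
  have h := X.fr' 0 1
  unfold bdyFr at h
  simpa using h

/-- the hypotheses of `Bdy/GeoF`. -/
theorem bgk_fr (X : BgcCtx D F δ ε γ gs r C p t g c d k) (S : BgcSc F δ ε r C η p t a M) :
    BgfFr F t c d k (1 / 100) a M where
  unit := X.gr.unit
  dir := X.hd
  ext := X.hN
  rot := bgk_rot X
  sg0 := by norm_num
  sg1 := le_rfl
  inn := bgk_cone_in X S
  out := bgk_cone_out X S

/-! ### 2. Flat sites have a large abscissa -/

/-- Euclidean norm versus hexagonal radius, in the frame. -/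
theorem bgk_norm_ge (ht : t.1 ^ 2 + t.2 ^ 2 = 1) (w : TV) :
    3 / 4 * (latN w : ℝ) ^ 2 ≤ bgaT t w ^ 2 + bgaN t w ^ 2 := by
  rw [bga_sq_add_sq ht]
  have := hg_latN_sq_le w
  have h2 : (3 : ℝ) * (latN w : ℝ) ^ 2 ≤ 4 * ((w.1 : ℝ) ^ 2 + w.1 * w.2 + (w.2 : ℝ) ^ 2) := by
    exact_mod_cast this
  linarith

/-- `|T| ≥ radius / 2` as soon as `|N| ≤ radius / 2`. -/
theorem bgk_T_ge (ht : t.1 ^ 2 + t.2 ^ 2 = 1) {w : TV} (hN : |bgaN t w| ≤ (latN w : ℝ) / 2) :
    (latN w : ℝ) / 2 ≤ |bgaT t w| := by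
  have h1 := bgk_norm_ge ht w
  have h2 : bgaN t w ^ 2 ≤ ((latN w : ℝ) / 2) ^ 2 := by
    rw [← sq_abs (bgaN t w)]; exact pow_le_pow_left₀ (abs_nonneg _) hN 2
  by_contra hcon
  have h3 : bgaT t w ^ 2 < ((latN w : ℝ) / 2) ^ 2 := by
    rw [← sq_abs (bgaT t w)]
    exact pow_lt_pow_left₀ (not_le.1 hcon) (abs_nonneg _) two_ne_zero
  nlinarith

/-- a boundary site of radius `≥ 2` with positive tangential component has a nonnegative abscissa. -/
theorem bgk_absc_nonneg (X : BgcCtx D F δ ε γ gs r C p t g c d k) (S : BgcSc F δ ε r C η p t a M) {u : TV}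
    (hu : u ∈ latBd F) (h0 : 2 ≤ latN (u - c)) (h1 : a ≤ latN (u - c)) (h2 : latN (u - c) ≤ M)
    (hT : 0 < bgaT t (u - c)) : 0 ≤ dc2X p t (triPos δ u) := by
  have hδ := X.apx.dpos
  have hN := bgf_bd_N (bgk_fr X S) hu h1 h2
  have h0' : (2 : ℝ) ≤ latN (u - c) := by exact_mod_cast h0
  have h3 := bgk_T_ge X.gr.unit (w := u - c) (by linarith)
  rw [abs_of_pos hT] at h3
  have e1 := (abs_le.1 (bgk_absc X u)).1
  have e2 : δ * 1 ≤ δ * bgaT t (u - c) := mul_le_mul_of_nonneg_left (by linarith) hδ.le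
  linarith

/-- mirror image. -/
theorem bgk_absc_nonpos (X : BgcCtx D F δ ε γ gs r C p t g c d k) (S : BgcSc F δ ε r C η p t a M) {u : TV}
    (hu : u ∈ latBd F) (h0 : 2 ≤ latN (u - c)) (h1 : a ≤ latN (u - c)) (h2 : latN (u - c) ≤ M)
    (hT : bgaT t (u - c) < 0) : dc2X p t (triPos δ u) ≤ 0 := by
  have hδ := X.apx.dpos
  have hN := bgf_bd_N (bgk_fr X S) hu h1 h2
  have h0' : (2 : ℝ) ≤ latN (u - c) := by exact_mod_cast h0
  have h3 := bgk_T_ge X.gr.unit (w := u - c) (by linarith)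
  rw [abs_of_neg hT] at h3
  have e1 := (abs_le.1 (bgk_absc X u)).2
  have e2 : δ * bgaT t (u - c) ≤ δ * (-1) := mul_le_mul_of_nonneg_left (by linarith) hδ.le
  linarith

/-- a site with abscissa `≥ a δ`, `a ≥ 1`, has a nonnegative tangential component. -/
theorem bgk_T_nonneg (X : BgcCtx D F δ ε γ gs r C p t g c d k) (ha : 1 ≤ a) {u : TV}
    (h : a * δ ≤ dc2X p t (triPos δ u)) : 0 ≤ bgaT t (u - c) := by
  have hδ := X.apx.dpos
  have e1 := (abs_le.1 (bgk_absc X u)).2
  have ha' : (1 : ℝ) ≤ a := by exact_mod_cast ha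
  have e2 : 0 ≤ δ * bgaT t (u - c) := by nlinarith
  exact nonneg_of_mul_nonneg_right e2 hδ

theorem bgk_T_nonpos (X : BgcCtx D F δ ε γ gs r C p t g c d k) (ha : 1 ≤ a) {u : TV}
    (h : dc2X p t (triPos δ u) ≤ -(a * δ)) : bgaT t (u - c) ≤ 0 := by
  have hδ := X.apx.dpos
  have e1 := (abs_le.1 (bgk_absc X u)).1
  have ha' : (1 : ℝ) ≤ a := by exact_mod_cast ha
  have e2 : 0 ≤ δ * -bgaT t (u - c) := by nlinarith
  have := nonneg_of_mul_nonneg_right e2 hδ
  linarith

end ctx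

/-! ### 3. The block -/

/-- the data of the block of scale `a`: `ρ = 4 ms a`, `L = Lq ρ`, tube on the hexagonal sphere of radius `4 L`,
working annulus `(2 L, 6 L)`; same `a`, `b0`, `r0`, `r3`, `b3`, `ρ` as `bgcBlk`. -/
def bgkBlk (Lq ms a : ℕ) (zs : List TV) (qL qR aL aR : TV) (PL PR : Finset TV) : BdyBlkD where
  a := a
  b0 := 3 * a
  r0 := 6 * a
  r1 := 2 * (Lq * (4 * ms * a))
  r2 := 6 * (Lq * (4 * ms * a))
  r3 := 12 * ms * bgcL Lq ms a
  b3 := 24 * ms * bgcL Lq ms a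
  ρ := 4 * ms * a
  L := Lq * (4 * ms * a)
  zs := zs
  qL := qL
  qR := qR
  aL := aL
  aR := aR
  PL := PL
  PR := PR

theorem bgkBlk_eqns_cite (Lq ms a : ℕ) (zs : List TV) (qL qR aL aR : TV) (PL PR : Finset TV) :
    (bgkBlk Lq ms a zs qL qR aL aR PL PR).a = a ∧
    (bgkBlk Lq ms a zs qL qR aL aR PL PR).b3 = 24 * ms * bgcL Lq ms a ∧
    3 * (bgkBlk Lq ms a zs qL qR aL aR PL PR).b3 + 1 = bgcM Lq ms a := ⟨rfl, rfl, rfl⟩

section block

variable {D : Set (ℝ × ℝ)} {F : Finset TV} {δ ε : ℝ} {γ gs : Circle → ℝ × ℝ} {r C η : ℝ} {p t : ℝ × ℝ}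
  {g : ℝ → ℝ} {c d : TV} {k a : ℕ}

theorem bgk_bd_disjoint {P : Finset TV} (h : P ⊆ latBd F) : Disjoint P (latInt F) := by
  rw [Finset.disjoint_left]
  intro u hu hi
  rw [lat_int_eq, Finset.mem_sdiff] at hi
  exact hi.2 (h hu)

/-- **ONE BLOCK.**  In the context of `Bdy/GeoB`, at the scale `a` (largest radius `bgcM Lq ms a`), the block record `bgkBlk`
satisfies the contract `BdyBlk` of `Defs/BdyGeo`. -/
theorem bgk_block (X : BgcCtx D F δ ε γ gs r C p t g c d k) {K1 Lq n0 ms : ℕ}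
    (S : BgcSc F δ ε r C η p t a (bgcM Lq ms a)) (ha : 1 ≤ a) (hn0 : n0 ≤ a) (hK1 : 3 ≤ K1)
    (hLq : 4 * K1 ≤ Lq) (hms : 2 ≤ ms) :
    ∃ (zs : List TV) (qL qR aL aR : TV) (PL PR : Finset TV),
      BdyBlk (latInt F) c k K1 Lq n0 ms (bgkBlk Lq ms a zs qL qR aL aR PL PR) := by
  have H := bgk_fr X S
  set ρ : ℕ := 4 * ms * a with hρdef
  set L : ℕ := Lq * ρ with hLdef
  set G : ℕ := bgcL Lq ms a with hGdef
  have hG : G = 2 * L := by
    rw [hGdef, hLdef, hρdef]; unfold bgcL; ring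
  have hMdef : bgcM Lq ms a = 3 * (24 * ms * G) + 1 := rfl
  have hρ1 : 1 ≤ ρ := by
    rw [hρdef]; nlinarith
  have hρa : a ≤ ρ := by
    rw [hρdef]; nlinarith
  have hLq12 : 12 ≤ Lq := by omega
  have hLρ : 12 * ρ ≤ L := by
    rw [hLdef]; exact Nat.mul_le_mul_right _ hLq12
  have hmsL : 2 * L ≤ ms * L := Nat.mul_le_mul_right _ hms
  have hmsG : ms * G = 2 * (ms * L) := by rw [hG]; ring
  -- the ingredients
  obtain ⟨zs, qL, qR, z1, z2, z3, z4, ⟨l1, l2, l3, l4, l5⟩, ⟨r1, r2, r3, r4, r5⟩⟩ :=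
    bgt_blk_tube (F := F) (c := c) (m := a) (M := bgcM Lq ms a) (sg := 1 / 100) (K1 := K1) (Lq := Lq)
      (ρ := ρ) (L := L) H.unit H.dir H.ext le_rfl H.inn H.out hK1 hLq hρ1 rfl
      (by omega) (by rw [hMdef, mul_assoc 24, hmsG]; omega)
  obtain ⟨PL, PR, c1, c2, c3, c4, c5, c6, c7, c8, c9, c10, c11⟩ :=
    bgc_arcs X S (r0 := 6 * a) (r3 := 12 * ms * G) le_rfl
      (by rw [mul_assoc 12, hmsG]; omega) (by rw [hMdef, mul_assoc 12, mul_assoc 24]; omega)
  obtain ⟨aL, a1, a2, a3, a4, a5, a6⟩ :=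
    bgf_anchor H (x0 := -((4 * L : ℕ) : ℤ)) (ξ := 4 * L) (b := 24 * ms * G) (by rw [abs_neg, Nat.abs_cast])
      (by omega) (by omega) (by rw [mul_assoc 24, hmsG]; omega) (by rw [hMdef])
  obtain ⟨aR, b1, b2, b3, b4, b5, b6⟩ :=
    bgf_anchor H (x0 := ((4 * L : ℕ) : ℤ)) (ξ := 4 * L) (b := 24 * ms * G) (by rw [Nat.abs_cast])
      (by omega) (by omega) (by rw [mul_assoc 24, hmsG]; omega) (by rw [hMdef])
  have hr3 : 8 * L ≤ 12 * ms * G := by rw [mul_assoc 12, hmsG]; omega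
  have hM8 : 8 * L ≤ bgcM Lq ms a := by rw [hMdef, mul_assoc 24, hmsG]; omega
  -- the anchors are on the arcs
  have haL : aL ∈ PL := by
    have hbd := bgc_out_bd F a1
    have hT : 0 < bgaT t (aL - c) := by
      have h4L : (0 : ℝ) < ((4 * L : ℕ) : ℝ) := by
        have : 0 < 4 * L := by omega
        exact_mod_cast this
      have e : -(((-((4 * L : ℕ) : ℤ) : ℤ)) : ℝ) = ((4 * L : ℕ) : ℝ) := by push_cast; ring
      rw [e] at a5
      exact (pos_iff_pos_of_mul_pos a5).1 h4L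
    exact (c11 aL hbd (by omega) (by omega)).1
      (bgk_absc_nonneg X S hbd (by omega) (by omega) (by omega) hT)
  have haR : aR ∈ PR := by
    have hbd := bgc_out_bd F b1
    have hT : bgaT t (aR - c) < 0 := by
      have h4L : (0 : ℝ) < ((4 * L : ℕ) : ℝ) := by
        have : 0 < 4 * L := by omega
        exact_mod_cast this
      have e : -((((4 * L : ℕ) : ℤ)) : ℝ) * bgaT t (aR - c) = ((4 * L : ℕ) : ℝ) * -bgaT t (aR - c) := by
        push_cast; ring
      rw [e] at b5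
      have := (pos_iff_pos_of_mul_pos b5).1 h4L
      linarith
    exact (c11 aR hbd (by omega) (by omega)).2
      (bgk_absc_nonpos X S hbd (by omega) (by omega) (by omega) hT)
  refine ⟨zs, qL, qR, aL, aR, PL, PR, ?_⟩
  exact
  { ha := ⟨ha, hn0⟩
    hb0 := le_rfl
    hr0 := by show 3 * a < 6 * a; omega
    hr1 := by
      show ms * (6 * a) < 2 * L
      have : ms * (6 * a) = 6 * (ms * a) := by ring
      have h2 : ρ = 4 * (ms * a) := by rw [hρdef]; ring
      have h3 : 1 ≤ ms * a := by nlinarith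
      omega
    hr12 := by show 2 * L ≤ 6 * L; omega
    hr3 := by
      show ms * (6 * L + 1) < 12 * ms * G
      have e1 : ms * (6 * L + 1) = 6 * (ms * L) + ms := by ring
      have e2 : ms ≤ ms * L := Nat.le_mul_of_pos_right _ (by omega)
      rw [e1, mul_assoc 12, hmsG]
      omega
    hb3 := by
      show 12 * ms * G < 24 * ms * G
      rw [mul_assoc 12, mul_assoc 24, hmsG]
      omega
    hρ := ⟨hρ1, hn0.trans hρa⟩
    hL := le_rfl
    zs_ne := z1
    zs_len := z2
    zs_chain := z3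
    zs_ball := z4
    qL_off := l1
    qL_near := l2
    qL_ball := ⟨l3, l4, by
      rw [Finset.disjoint_left]
      intro u hu hP
      have h1 := l5 u hu
      have h2 := bgk_T_nonpos X ha (c6 u hP).2.2
      linarith⟩
    qR_off := r1
    qR_near := r2
    qR_ball := ⟨r3, r4, by
      rw [Finset.disjoint_left]
      intro u hu hP
      have h1 := r5 u hu
      have h2 := bgk_T_nonneg X ha (c5 u hP).2.2
      linarith⟩
    PL_conn := c1
    PL_off := bgk_bd_disjoint c3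
    PL_in := ⟨fun u hu => by
        rw [lat_mem_ball]
        have := (c5 u hu).2.1
        show latN (u - c) ≤ 24 * ms * G
        rw [mul_assoc 12] at this
        rw [mul_assoc 24]
        omega, by
        rw [Finset.disjoint_left]
        intro u hu hb
        rw [lat_mem_ball] at hb
        have := (c5 u hu).1
        have hb' : latN (u - c) ≤ 3 * a := hb
        omega⟩
    PL_ends := ⟨by
        obtain ⟨u, hu, h⟩ := c7
        exact ⟨u, hu, lat_mem_ball.2 h⟩, by
        obtain ⟨u, hu, h⟩ := c8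
        refine ⟨u, hu, fun hb => ?_⟩
        rw [lat_mem_ball] at hb
        have hb' : latN (u - c) ≤ 12 * ms * G := hb
        omega⟩
    PR_conn := c2
    PR_off := bgk_bd_disjoint c4
    PR_in := ⟨fun u hu => by
        rw [lat_mem_ball]
        have := (c6 u hu).2.1
        show latN (u - c) ≤ 24 * ms * G
        rw [mul_assoc 12] at this
        rw [mul_assoc 24]
        omega, by
        rw [Finset.disjoint_left]
        intro u hu hb
        rw [lat_mem_ball] at hb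
        have := (c6 u hu).1
        have hb' : latN (u - c) ≤ 3 * a := hb
        omega⟩
    PR_ends := ⟨by
        obtain ⟨u, hu, h⟩ := c9
        exact ⟨u, hu, lat_mem_ball.2 h⟩, by
        obtain ⟨u, hu, h⟩ := c10
        refine ⟨u, hu, fun hb => ?_⟩
        rw [lat_mem_ball] at hb
        have hb' : latN (u - c) ≤ 12 * ms * G := hb
        omega⟩
    cover := fun u hu hb h0 => by
      rw [lat_mem_ball] at hb
      have h := c11 u (bgc_out_bd F hu) h0 hb
      rcases le_total 0 (dc2X p t (triPos δ u)) with h' | h'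
      · exact Or.inl (h.1 h')
      · exact Or.inr (h.2 h')
    aL_mem := haL
    aR_mem := haR
    aL_x := by
      show (bdyFr c k aL).1 < -(a : ℤ)
      rw [a2]
      have : a < 4 * L := by omega
      omega
    aR_x := by
      show (a : ℤ) < (bdyFr c k aR).1
      rw [b2]
      have : a < 4 * L := by omega
      omega
    rayL := fun u hu h1 h2 => a6 u hu (h1.trans a2) h2
    rayR := fun u hu h1 h2 => b6 u hu (h1.trans b2) h2
    top := fun u hu h1 h2 => by
      rw [lat_mem_ball] at hu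
      have hu' : latN (u - c) ≤ bgcM Lq ms a := hu
      have := bgf_top H (b := 24 * ms * G) (by rw [mul_assoc 24, hmsG]; omega) hu' h1 h2
      exact fun hA => this (lat_int_sub F hA)
    col := fun u hu hu0 h1 h2 => by
      rw [lat_mem_ball] at hu hu0
      have hu' : latN (u - c) ≤ 24 * ms * G := hu
      have hu0' : 3 * a < latN (u - c) := not_le.1 hu0
      have := bgf_col H (a := a) (b0 := 3 * a) le_rfl (by omega) (by rw [hMdef]; omega) hu0' h1 h2
      exact ⟨fun hA => this (lat_int_sub F hA), fun hP => this (lat_bd_sub F (c3 hP)),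
        fun hP => this (lat_bd_sub F (c4 hP))⟩ }

/-- **ONE BLOCK, record free form** (the hypothesis `hblk` of `bgd_main_of`, `Bdy/GeoArch`). -/
theorem bgk_block_ex (X : BgcCtx D F δ ε γ gs r C p t g c d k) {K1 Lq n0 ms : ℕ}
    (S : BgcSc F δ ε r C η p t a (bgcM Lq ms a)) (ha : 1 ≤ a) (hn0 : n0 ≤ a) (hK1 : 3 ≤ K1)
    (hLq : 4 * K1 ≤ Lq) (hms : 2 ≤ ms) :
    ∃ B : BdyBlkD, B.a = a ∧ B.b3 = 24 * ms * bgcL Lq ms a ∧ BdyBlk (latInt F) c k K1 Lq n0 ms B := by
  obtain ⟨zs, qL, qR, aL, aR, PL, PR, h⟩ := bgk_block X S ha hn0 hK1 hLq hms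
  exact ⟨_, rfl, rfl, h⟩

end block

end Claimed.Agent.R291
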