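/-
R291 (S0539), unit BDY, deterministic geometry of [ARCH], part T : THE TUBE.
owner: helper172  (with helper25 `Bdy/GeoB.lean`, helper119 `Bdy/GeoA.lean`; consumer helper173, R6 of `origin/helper173:notes/R291/sec6b_173.md`);  prefix `bgt_`, `Bgt`.

ROUTE (no Euclidean curve, no greedy horizontal walk).  `e = -d` = the lattice direction within 30 degrees of the inward normal.
On the hexagonal sphere `{latN (w - c) = k}` every site other than the top corner `c + k e` has a neighbour ON THE SPHERE in one of the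
three directions `e`, `latRot e`, `e - latRot e`, all of nonnegative normal component (`bgt_step`); twice the hexagonal inner product with `e`
increases (`bgtL`), so after at most `4 k` steps the walk sits at the top corner and the depth never decreased (`bgt_asc`).
TUBE = ascent from `zL` on its own sphere, the segment of the ray `c + j e` between the two radii, descent to `zR` (`bgt_arc`).

  1. `BgtW P n u v` : walk of at most `n` steps through sites satisfying `P`;  kit (refl, cons, mono, imp, trans, symm), function form, list form.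
  2. the hexagonal sphere: `bgt_step`, `bgt_top`, `bgt_asc`, `bgt_ray`, `bgt_arc`   (pure lattice + an additive height `ν`).
  3. `bgt_tube_W`, `bgt_tube` (list form), `bgt_tube_fun` (function form), `bgt_tube_centres` (subsampled every `ρ` steps).
  4. `bgt_blk_tube` : THE TUBE OF ONE BLOCK (`BdyBlk`, Defs/BdyGeo): sphere of radius `4 L`, `r1 = 2 L`, `r2 = 6 L`; from the top corner down each half sphere
     (`bgt_half`) to the first site whose hexagon of radius `K1 ρ` leaves `latInt F` (`bgt_W_exit`); `q` = a site of that hexagon off `latInt F`; side of `q` by the lattice cross product (`bgt_cross`, `bgt_sign`).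
-/
import Claimed.Agent.R291.Bdy.GeoA

set_option autoImplicit false

namespace Claimed.Agent.R291

open Claims.C0467

/-! ### 1. Walks of bounded length -/

/-- there is a walk of at most `n` steps from `u` to `v` all of whose sites satisfy `P` -/
def BgtW (P : TV → Prop) : ℕ → TV → TV → Prop
  | 0, u, v => u = v ∧ P u
  | n + 1, u, v => (u = v ∧ P u) ∨ (P u ∧ ∃ u', triAdj u u' ∧ BgtW P n u' v)

/-- twice the hexagonal inner product -/
def bgtL (e u : TV) : ℤ := 2 * u.1 * e.1 + 2 * u.2 * e.2 + u.1 * e.2 + u.2 * e.1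

theorem bgt_eqns_cite : True := by
  have := @BgtW.eq_1
  have := @BgtW.eq_2
  have := @BgtW.eq_def
  have := @bgtL.eq_1
  trivial

section walks

variable {P Q : TV → Prop}

theorem bgt_W_refl {u : TV} (h : P u) : ∀ n, BgtW P n u u
  | 0 => ⟨rfl, h⟩
  | _ + 1 => Or.inl ⟨rfl, h⟩

theorem bgt_W_cons {n : ℕ} {u u' v : TV} (h : P u) (ha : triAdj u u') (hw : BgtW P n u' v) : BgtW P (n + 1) u v :=
  Or.inr ⟨h, u', ha, hw⟩

theorem bgt_W_left : ∀ {n : ℕ} {u v : TV}, BgtW P n u v → P u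
  | 0, _, _, h => h.2
  | _ + 1, _, _, h => h.elim (fun h => h.2) (fun h => h.1)

theorem bgt_W_right : ∀ {n : ℕ} {u v : TV}, BgtW P n u v → P v
  | 0, _, _, h => h.1 ▸ h.2
  | _ + 1, _, _, h => by
    rcases h with ⟨rfl, h⟩ | ⟨_, u', _, hw⟩
    · exact h
    · exact bgt_W_right hw

theorem bgt_W_succ : ∀ {n : ℕ} {u v : TV}, BgtW P n u v → BgtW P (n + 1) u v
  | 0, _, _, h => Or.inl h
  | _ + 1, _, _, h => by
    rcases h with h | ⟨h, u', ha, hw⟩
    · exact Or.inl h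
    · exact Or.inr ⟨h, u', ha, bgt_W_succ hw⟩

theorem bgt_W_mono {n m : ℕ} (hnm : n ≤ m) {u v : TV} (h : BgtW P n u v) : BgtW P m u v := by
  induction hnm with
  | refl => exact h
  | step _ ih => exact bgt_W_succ ih

theorem bgt_W_imp (hPQ : ∀ w, P w → Q w) : ∀ {n : ℕ} {u v : TV}, BgtW P n u v → BgtW Q n u v
  | 0, _, _, h => ⟨h.1, hPQ _ h.2⟩
  | _ + 1, _, _, h => by
    rcases h with ⟨e, h⟩ | ⟨h, u', ha, hw⟩
    · exact Or.inl ⟨e, hPQ _ h⟩
    · exact Or.inr ⟨hPQ _ h, u', ha, bgt_W_imp hPQ hw⟩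

theorem bgt_W_trans : ∀ {n m : ℕ} {u v w : TV}, BgtW P n u v → BgtW P m v w → BgtW P (n + m) u w
  | 0, m, _, _, _, h, h' => by
    rw [h.1, Nat.zero_add]
    exact h'
  | n + 1, m, _, _, _, h, h' => by
    rcases h with ⟨rfl, _⟩ | ⟨h, u', ha, hw⟩
    · exact bgt_W_mono (by omega) h'
    · rw [Nat.succ_add]
      exact Or.inr ⟨h, u', ha, bgt_W_trans hw h'⟩

theorem bgt_W_symm : ∀ {n : ℕ} {u v : TV}, BgtW P n u v → BgtW P n v u
  | 0, _, _, h => ⟨h.1.symm, h.1 ▸ h.2⟩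
  | _ + 1, _, _, h => by
    rcases h with ⟨rfl, h⟩ | ⟨h, u', ha, hw⟩
    · exact Or.inl ⟨rfl, h⟩
    · exact bgt_W_trans (bgt_W_symm hw) (bgt_W_cons (bgt_W_left hw) (lat_adj_symm ha) (bgt_W_refl h 0))

/-- function form of a walk -/
theorem bgt_W_fun : ∀ {n : ℕ} {u v : TV}, BgtW P n u v →
    ∃ (L : ℕ) (w : ℕ → TV), L ≤ n ∧ w 0 = u ∧ w L = v ∧ (∀ i < L, triAdj (w i) (w (i + 1))) ∧ ∀ i ≤ L, P (w i)
  | 0, u, _, h => ⟨0, fun _ => u, le_rfl, rfl, h.1, by simp, fun _ _ => h.2⟩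
  | n + 1, u, _, h => by
    rcases h with ⟨e, h⟩ | ⟨h, u', ha, hw⟩
    · exact ⟨0, fun _ => u, Nat.zero_le _, rfl, e, by simp, fun _ _ => h⟩
    · obtain ⟨L, w, hL, h0, h1, h2, h3⟩ := bgt_W_fun hw
      refine ⟨L + 1, fun i => Nat.casesOn i u w, by omega, rfl, h1, ?_, ?_⟩
      · intro i hi
        cases i with
        | zero => simpa [h0] using ha
        | succ i => exact h2 i (by omega)
      · intro i hi
        cases i with
        | zero => exact h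
        | succ i => exact h3 i (by omega)

/-- list form of a walk (the format of `Pl/Wind`) -/
theorem bgt_W_list : ∀ {n : ℕ} {u v : TV}, BgtW P n u v →
    ∃ l : List TV, List.IsChain triAdj l ∧ l.head? = some u ∧ l.getLast? = some v ∧ l.length ≤ n + 1 ∧ ∀ w ∈ l, P w
  | 0, u, _, h => ⟨[u], by simp, rfl, by simp [h.1], by simp, by simpa using h.2⟩
  | n + 1, u, _, h => by
    rcases h with ⟨e, h⟩ | ⟨h, u', ha, hw⟩
    · exact ⟨[u], by simp, rfl, by simp [e], by simp, by simpa using h⟩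
    · obtain ⟨l, hc, hh, hl, hn, hP⟩ := bgt_W_list hw
      cases l with
      | nil => simp at hh
      | cons b l =>
        simp only [List.head?_cons, Option.some.injEq] at hh
        subst hh
        refine ⟨u :: b :: l, List.IsChain.cons_cons ha hc, rfl, ?_, ?_, ?_⟩
        · rw [List.getLast?_cons_cons]
          exact hl
        · simp only [List.length_cons] at hn ⊢
          omega
        · intro w hw'
          rcases List.mem_cons.1 hw' with rfl | hw'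
          · exact h
          · exact hP w hw'

/-- a straight segment -/
theorem bgt_W_seg {f : TV} (hf : f ∈ latDirs) : ∀ (n : ℕ) (u : TV), (∀ i : ℕ, i ≤ n → P (u + (i : ℤ) • f)) →
    BgtW P n u (u + (n : ℤ) • f)
  | 0, u, h => ⟨by simp, by simpa using h 0 le_rfl⟩
  | n + 1, u, h => by
    refine bgt_W_cons (by simpa using h 0 (Nat.zero_le _)) (lat_adj_add u hf) ?_
    have e : u + ((n + 1 : ℕ) : ℤ) • f = (u + f) + (n : ℤ) • f := by
      push_cast
      rw [add_smul, one_smul]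
      abel
    rw [e]
    refine bgt_W_seg hf n (u + f) fun i hi => ?_
    have := h (i + 1) (by omega)
    have e' : u + ((i + 1 : ℕ) : ℤ) • f = (u + f) + (i : ℤ) • f := by
      push_cast
      rw [add_smul, one_smul]
      abel
    rwa [e'] at this

end walks

/-! ### 2. The hexagonal sphere -/

theorem bgt_latN_eq_iff (v : TV) (k : ℕ) : latN v = k ↔
    (-(k : ℤ) ≤ v.1 ∧ v.1 ≤ k ∧ -(k : ℤ) ≤ v.2 ∧ v.2 ≤ k ∧ -(k : ℤ) ≤ v.1 + v.2 ∧ v.1 + v.2 ≤ k) ∧
      (v.1 = k ∨ v.1 = -(k : ℤ) ∨ v.2 = k ∨ v.2 = -(k : ℤ) ∨ v.1 + v.2 = k ∨ v.1 + v.2 = -(k : ℤ)) := by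
  unfold latN
  omega

/-- off the top corner one can move on the sphere in one of the three upper directions -/
theorem bgt_step {e : TV} (he : e ∈ latDirs) {u : TV} {k : ℕ} (hu : latN u = k) (hl : bgtL e u < 2 * k) :
    latN (u + e) = k ∨ latN (u + latRot e) = k ∨ latN (u + (e - latRot e)) = k := by
  obtain ⟨m, n⟩ := u
  rw [bgt_latN_eq_iff] at hu
  simp only [bgt_latN_eq_iff]
  simp only [latDirs, Finset.mem_insert, Finset.mem_singleton] at he
  rcases he with rfl | rfl | rfl | rfl | rfl | rfl <;>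
    simp only [bgtL, latRot, Prod.fst_add, Prod.snd_add, Prod.fst_sub, Prod.snd_sub] at hu hl ⊢ <;> omega

/-- the top corner -/
theorem bgt_top {e : TV} (he : e ∈ latDirs) {u : TV} {k : ℕ} (hu : latN u = k) (hl : 2 * (k : ℤ) ≤ bgtL e u) :
    u = (k : ℤ) • e := by
  obtain ⟨m, n⟩ := u
  rw [bgt_latN_eq_iff] at hu
  simp only [latDirs, Finset.mem_insert, Finset.mem_singleton] at he
  rcases he with rfl | rfl | rfl | rfl | rfl | rfl <;>
    simp only [bgtL, Prod.smul_mk, smul_eq_mul, Prod.mk.injEq] at hu hl ⊢ <;> omega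

theorem bgt_L_ge {e : TV} (he : e ∈ latDirs) {u : TV} {k : ℕ} (hu : latN u = k) : -(2 * (k : ℤ)) ≤ bgtL e u := by
  obtain ⟨m, n⟩ := u
  rw [bgt_latN_eq_iff] at hu
  simp only [latDirs, Finset.mem_insert, Finset.mem_singleton] at he
  rcases he with rfl | rfl | rfl | rfl | rfl | rfl <;> simp only [bgtL] at hu ⊢ <;> omega

theorem bgt_L_add (e u f : TV) : bgtL e (u + f) = bgtL e u + bgtL e f := by
  simp only [bgtL, Prod.fst_add, Prod.snd_add]
  ring

theorem bgt_L_dirs {e : TV} (he : e ∈ latDirs) : bgtL e e = 2 ∧ bgtL e (latRot e) = 1 ∧ bgtL e (e - latRot e) = 1 := by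
  revert e
  decide

theorem bgt_dirs_sub {e : TV} (he : e ∈ latDirs) : e - latRot e ∈ latDirs := by
  revert e
  decide

theorem bgt_latN_smul {e : TV} (he : e ∈ latDirs) (k : ℕ) : latN ((k : ℤ) • e) = k := by
  rw [bgt_latN_eq_iff]
  simp only [latDirs, Finset.mem_insert, Finset.mem_singleton] at he
  rcases he with rfl | rfl | rfl | rfl | rfl | rfl <;> simp only [Prod.smul_mk, smul_eq_mul] <;> omega

section sphere

variable {e : TV} {ν : TV → ℝ}

/-- **ascent on a sphere**: from any site of the sphere to the top corner, the additive height never decreases -/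
theorem bgt_asc_aux (he : e ∈ latDirs) (hν : ∀ u v, ν (u + v) = ν u + ν v) (h0 : 0 ≤ ν e) (h1 : 0 ≤ ν (latRot e))
    (h5 : 0 ≤ ν (e - latRot e)) (c : TV) (k : ℕ) : ∀ (j : ℕ) (z : TV), latN (z - c) = k → 2 * (k : ℤ) - bgtL e (z - c) ≤ j →
    BgtW (fun w => latN (w - c) = k ∧ ν z ≤ ν w) j z (c + (k : ℤ) • e)
  | 0, z, hz, hj => by
    have := bgt_top he hz (by push_cast at hj; omega)
    exact ⟨by rw [← this]; abel, hz, le_rfl⟩
  | j + 1, z, hz, hj => by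
    by_cases hl : bgtL e (z - c) < 2 * k
    · obtain ⟨l0, l1, l5⟩ := bgt_L_dirs he
      have key : ∀ f : TV, f ∈ latDirs → 0 ≤ ν f → 1 ≤ bgtL e f → latN (z - c + f) = k →
          BgtW (fun w => latN (w - c) = k ∧ ν z ≤ ν w) (j + 1) z (c + (k : ℤ) • e) := by
        intro f hf hνf hLf hN
        have e1 : z + f - c = z - c + f := by abel
        refine bgt_W_cons ⟨hz, le_rfl⟩ (lat_adj_add z hf) ?_
        refine bgt_W_imp (fun w hw => ⟨hw.1, ?_⟩) (bgt_asc_aux he hν h0 h1 h5 c k j (z + f) (by rw [e1]; exact hN) ?_)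
        · refine le_trans ?_ hw.2
          rw [hν]
          linarith
        · rw [e1, bgt_L_add]
          push_cast at hj
          omega
      rcases bgt_step he hz hl with h | h | h
      · exact key e he h0 (by omega) h
      · exact key _ (lat_rot_dirs he) h1 (by omega) h
      · exact key _ (bgt_dirs_sub he) h5 (by omega) h
    · have := bgt_top he hz (by omega)
      have e2 : c + (k : ℤ) • e = z := by rw [← this]; abel
      rw [e2]
      exact bgt_W_refl ⟨hz, le_rfl⟩ _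

theorem bgt_asc (he : e ∈ latDirs) (hν : ∀ u v, ν (u + v) = ν u + ν v) (h0 : 0 ≤ ν e) (h1 : 0 ≤ ν (latRot e))
    (h5 : 0 ≤ ν (e - latRot e)) (c z : TV) :
    BgtW (fun w => latN (w - c) = latN (z - c) ∧ ν z ≤ ν w) (4 * latN (z - c)) z (c + (latN (z - c) : ℤ) • e) := by
  refine bgt_asc_aux he hν h0 h1 h5 c _ _ z rfl ?_
  have := bgt_L_ge he (u := z - c) rfl
  push_cast
  omega

/-- the ray between two radii -/
theorem bgt_ray (he : e ∈ latDirs) (c : TV) {k k' : ℕ} (hk : k ≤ k') :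
    BgtW (fun w => ∃ j : ℕ, k ≤ j ∧ j ≤ k' ∧ w = c + (j : ℤ) • e) (k' - k) (c + (k : ℤ) • e) (c + (k' : ℤ) • e) := by
  have e1 : c + (k' : ℤ) • e = (c + (k : ℤ) • e) + ((k' - k : ℕ) : ℤ) • e := by
    rw [add_assoc, ← add_smul]
    congr 2
    omega
  rw [e1]
  refine bgt_W_seg he _ _ fun i hi => ⟨k + i, by omega, by omega, ?_⟩
  rw [add_assoc, ← add_smul]
  congr 2

/-- **the arc over the top**: two sites of the annulus `lo ≤ latN (· - c) ≤ hi` at height `≥ y` are joined, inside the annulus, at height `≥ y`, by `≤ 9 hi` steps -/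
theorem bgt_arc (he : e ∈ latDirs) (hν : ∀ u v, ν (u + v) = ν u + ν v) (h0 : 0 ≤ ν e) (h1 : 0 ≤ ν (latRot e))
    (h5 : 0 ≤ ν (e - latRot e)) (c : TV) {zL zR : TV} {lo hi : ℕ} {y : ℝ}
    (hL : lo ≤ latN (zL - c)) (hL' : latN (zL - c) ≤ hi) (hR : lo ≤ latN (zR - c)) (hR' : latN (zR - c) ≤ hi)
    (hyL : y ≤ ν zL) (hyR : y ≤ ν zR) (hray : ∀ j : ℕ, lo ≤ j → j ≤ hi → y ≤ ν (c + (j : ℤ) • e)) :
    BgtW (fun w => lo ≤ latN (w - c) ∧ latN (w - c) ≤ hi ∧ y ≤ ν w) (9 * hi) zL zR := by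
  have a1 : BgtW (fun w => lo ≤ latN (w - c) ∧ latN (w - c) ≤ hi ∧ y ≤ ν w) (4 * latN (zL - c)) zL
      (c + (latN (zL - c) : ℤ) • e) :=
    bgt_W_imp (fun w hw => ⟨hw.1 ▸ hL, hw.1 ▸ hL', hyL.trans hw.2⟩) (bgt_asc he hν h0 h1 h5 c zL)
  have a2 : BgtW (fun w => lo ≤ latN (w - c) ∧ latN (w - c) ≤ hi ∧ y ≤ ν w) (4 * latN (zR - c)) zR
      (c + (latN (zR - c) : ℤ) • e) :=
    bgt_W_imp (fun w hw => ⟨hw.1 ▸ hR, hw.1 ▸ hR', hyR.trans hw.2⟩) (bgt_asc he hν h0 h1 h5 c zR)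
  have a3 : ∀ k k' : ℕ, lo ≤ k → k ≤ k' → k' ≤ hi →
      BgtW (fun w => lo ≤ latN (w - c) ∧ latN (w - c) ≤ hi ∧ y ≤ ν w) (k' - k) (c + (k : ℤ) • e) (c + (k' : ℤ) • e) := by
    intro k k' hk hkk hk'
    refine bgt_W_imp ?_ (bgt_ray he c hkk)
    rintro w ⟨j, hj1, hj2, rfl⟩
    rw [add_sub_cancel_left, bgt_latN_smul he]
    exact ⟨by omega, by omega, hray j (by omega) (by omega)⟩
  rcases le_total (latN (zL - c)) (latN (zR - c)) with h | h
  · exact bgt_W_mono (by omega) (bgt_W_trans (bgt_W_trans a1 (a3 _ _ hL h hR')) (bgt_W_symm a2))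
  · exact bgt_W_mono (by omega) (bgt_W_trans (bgt_W_trans a1 (bgt_W_symm (a3 _ _ hR h hL'))) (bgt_W_symm a2))

end sphere

/-! ### 3. The tube -/

section tube

variable {F : Finset TV} {dl R a' : ℝ} {p t : ℝ × ℝ} {c d : TV}

theorem bgt_rot_neg (d : TV) : latRot (-d) = -latRot d := by
  ext
  · simp only [latRot, Prod.fst_neg, Prod.snd_neg]
  · simp only [latRot, Prod.fst_neg, Prod.snd_neg]
    ring

/-- the hexagon of radius `m ≤ s` about a site of the annulus `4a ± 3s` at depth `≥ 2 s dl` -/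
theorem bgt_ball_ok (hdl : 0 < dl) (ht : t.1 ^ 2 + t.2 ^ 2 = 1) (hB : BgaBand F dl p t R a') (hc : p ∈ hexFace dl c)
    {a m s : ℕ} (ha : 1 ≤ a) (hms : m ≤ s) (hsa : 10 * s ≤ a) (hR : 11 * a * dl ≤ R) (ha' : a' ≤ s * dl)
    {w : TV} (h1 : 4 * a - 3 * s ≤ latN (w - c)) (h2 : latN (w - c) ≤ 4 * a + 3 * s)
    (h3 : 2 * s * dl ≤ dc2Y p t (triPos dl w)) :
    latBall w m ⊆ latInt F ∧ latBall w m ⊆ latBall c (10 * a) ∧ Disjoint (latBall w m) (latBall c (2 * a)) := by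
  have up : ∀ v ∈ latBall w m, latN (v - c) ≤ 10 * a := by
    intro v hv
    have h4 := lat_mem_ball.1 hv
    have h5 := hg_latN_add_le (v - w) (w - c)
    rw [sub_add_sub_cancel] at h5
    omega
  refine ⟨fun v hv => ?_, fun v hv => lat_mem_ball.2 (up v hv), ?_⟩
  · have h4 := lat_mem_ball.1 hv
    have hR0 : 0 ≤ R := le_trans (by positivity) hR
    refine hB.2 v ?_ ?_
    · rw [← hg_E_le_iff hR0]
      have e1 := hg_E_triangle (triPos dl v) (triPos dl c) p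
      have e2 := hg_E_le_latN hdl v c
      have e3 := hg_E_face_le hdl hc
      rw [hg_E_comm] at e3
      have e4 : (latN (v - c) : ℝ) ≤ 10 * a := by exact_mod_cast up v hv
      have e5 : (1 : ℝ) ≤ a := by exact_mod_cast ha
      nlinarith
    · have e1 := bga_Y_sub p t dl v w
      have e2 := (abs_le.1 (bga_abs_le_latN ht (v - w)).2).1
      have e3 : (latN (v - w) : ℝ) ≤ s := by exact_mod_cast h4.trans hms
      nlinarith
  · rw [Finset.disjoint_left]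
    intro v hv hv'
    have h4 := lat_mem_ball.1 hv
    have h4' := lat_mem_ball.1 hv'
    have h5 := hg_latN_add_le (w - v) (v - c)
    rw [sub_add_sub_cancel, hg_latN_sub_comm w v] at h5
    omega

/-- **TUBE, predicate form**: the walk stays in the annulus `4a ± 3s` about `c`, at depth `≥ 2 s dl` -/
theorem bgt_tube_W (hdl : 0 < dl) (ht : t.1 ^ 2 + t.2 ^ 2 = 1) (hd : d ∈ latDirs) (hN : bgaN t d ≤ -(Real.sqrt 3 / 2))
    (hc : p ∈ hexFace dl c) {a s : ℕ} (ha : 1 ≤ a) (hsa : 10 * s ≤ a) {zL zR : TV}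
    (hL1 : 4 * a - 3 * s ≤ latN (zL - c)) (hL2 : latN (zL - c) ≤ 4 * a + 3 * s) (hL3 : 2 * s * dl ≤ dc2Y p t (triPos dl zL))
    (hR1 : 4 * a - 3 * s ≤ latN (zR - c)) (hR2 : latN (zR - c) ≤ 4 * a + 3 * s) (hR3 : 2 * s * dl ≤ dc2Y p t (triPos dl zR)) :
    BgtW (fun w => 4 * a - 3 * s ≤ latN (w - c) ∧ latN (w - c) ≤ 4 * a + 3 * s ∧ 2 * s * dl ≤ dc2Y p t (triPos dl w))
      (40 * a) zL zR := by
  have hY : ∀ w : TV, dc2Y p t (triPos dl w) = dc2Y p t (triPos dl 0) + dl * bgaN t w := by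
    intro w
    have := bga_Y_add p t dl 0 w
    rwa [zero_add] at this
  obtain ⟨he, _, heN, _⟩ := bga_e ht hd hN
  have h1 : 0 ≤ dl * bgaN t (latRot (-d)) := by
    rw [bgt_rot_neg]
    exact mul_nonneg hdl.le (bga_neg_fm ht hd hN).2.2.2.1
  have h5 : 0 ≤ dl * bgaN t (-d - latRot (-d)) := by
    have e : -d - latRot (-d) = latRot (latRot d) := by
      rw [bgt_rot_neg, bga_rot_rot]
      abel
    rw [e]
    exact mul_nonneg hdl.le (bga_fp ht hd hN).2.2.2.1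
  have h0 : 0 ≤ dl * bgaN t (-d) := mul_nonneg hdl.le (le_trans (by positivity) heN)
  have key := bgt_arc (e := -d) (ν := fun w => dl * bgaN t w) he (fun u v => by simp only [bga_N_add]; ring) h0 h1 h5 c
    (zL := zL) (zR := zR) (lo := 4 * a - 3 * s) (hi := 4 * a + 3 * s) (y := 2 * s * dl - dc2Y p t (triPos dl 0))
    hL1 hL2 hR1 hR2 (by rw [hY] at hL3; linarith) (by rw [hY] at hR3; linarith) ?_
  · refine bgt_W_mono (by omega) (bgt_W_imp (fun w hw => ⟨hw.1, hw.2.1, ?_⟩) key)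
    rw [hY]
    linarith [hw.2.2]
  · intro j hj _
    have e1 := bga_Y_add p t dl c ((j : ℤ) • -d)
    rw [hY (c + (j : ℤ) • -d), bga_N_zsmul] at e1
    have e2 : |dc2Y p t (triPos dl c)| ≤ dl :=
      (bga_Y_abs_le ht _).trans (by rw [hg_E_comm]; exact hg_E_face_le hdl hc)
    have e3 := (abs_le.1 e2).1
    obtain ⟨s1, s2, _⟩ := bga_sqrt3
    have s3 : (17 : ℝ) / 10 ≤ Real.sqrt 3 := by nlinarith
    have e4 : (4 : ℝ) * a ≤ j + 3 * s := by
      have : 4 * a ≤ j + 3 * s := by omega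
      exact_mod_cast this
    have e5 : (10 : ℝ) * s ≤ a := by exact_mod_cast hsa
    have e6 : (1 : ℝ) ≤ a := by exact_mod_cast ha
    have e7 : (0 : ℝ) ≤ s := Nat.cast_nonneg s
    have e8 : (0 : ℝ) ≤ j := Nat.cast_nonneg j
    have e9 : (17 : ℝ) / 20 * j ≤ j * bgaN t (-d) := by nlinarith
    have e10 : 2 * (s : ℝ) + 1 ≤ j * bgaN t (-d) := by linarith
    have e11 : dl * (2 * (s : ℝ) + 1) ≤ dl * (j * bgaN t (-d)) := mul_le_mul_of_nonneg_left e10 hdl.le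
    push_cast at e1
    linarith

/-- **TUBE, predicate form with the three properties of the hexagons** -/
theorem bgt_tube_W' (hdl : 0 < dl) (ht : t.1 ^ 2 + t.2 ^ 2 = 1) (hd : d ∈ latDirs) (hN : bgaN t d ≤ -(Real.sqrt 3 / 2))
    (hB : BgaBand F dl p t R a') (hc : p ∈ hexFace dl c) {a m s : ℕ} (ha : 1 ≤ a) (hms : m ≤ s) (hsa : 10 * s ≤ a)
    (hR : 11 * a * dl ≤ R) (ha' : a' ≤ s * dl) {zL zR : TV}
    (hL1 : 4 * a - 3 * s ≤ latN (zL - c)) (hL2 : latN (zL - c) ≤ 4 * a + 3 * s) (hL3 : 2 * s * dl ≤ dc2Y p t (triPos dl zL))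
    (hR1 : 4 * a - 3 * s ≤ latN (zR - c)) (hR2 : latN (zR - c) ≤ 4 * a + 3 * s) (hR3 : 2 * s * dl ≤ dc2Y p t (triPos dl zR)) :
    BgtW (fun w => latBall w m ⊆ latInt F ∧ latBall w m ⊆ latBall c (10 * a) ∧ Disjoint (latBall w m) (latBall c (2 * a)))
      (40 * a) zL zR := by
  have h := bgt_tube_W hdl ht hd hN hc ha hsa hL1 hL2 hL3 hR1 hR2 hR3
  refine bgt_W_imp (fun w hw => ?_) h
  exact bgt_ball_ok hdl ht hB hc ha hms hsa hR ha' hw.1 hw.2.1 hw.2.2

/-- **TUBE, list form** -/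
theorem bgt_tube (hdl : 0 < dl) (ht : t.1 ^ 2 + t.2 ^ 2 = 1) (hd : d ∈ latDirs) (hN : bgaN t d ≤ -(Real.sqrt 3 / 2))
    (hB : BgaBand F dl p t R a') (hc : p ∈ hexFace dl c) {a m s : ℕ} (ha : 1 ≤ a) (hms : m ≤ s) (hsa : 10 * s ≤ a)
    (hR : 11 * a * dl ≤ R) (ha' : a' ≤ s * dl) {zL zR : TV}
    (hL1 : 4 * a - 3 * s ≤ latN (zL - c)) (hL2 : latN (zL - c) ≤ 4 * a + 3 * s) (hL3 : 2 * s * dl ≤ dc2Y p t (triPos dl zL))
    (hR1 : 4 * a - 3 * s ≤ latN (zR - c)) (hR2 : latN (zR - c) ≤ 4 * a + 3 * s) (hR3 : 2 * s * dl ≤ dc2Y p t (triPos dl zR)) :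
    ∃ l : List TV, List.IsChain triAdj l ∧ l.head? = some zL ∧ l.getLast? = some zR ∧ l.length ≤ 40 * a + 1 ∧
      ∀ w ∈ l, latBall w m ⊆ latInt F ∧ latBall w m ⊆ latBall c (10 * a) ∧ Disjoint (latBall w m) (latBall c (2 * a)) :=
  bgt_W_list (bgt_tube_W' hdl ht hd hN hB hc ha hms hsa hR ha' hL1 hL2 hL3 hR1 hR2 hR3)

/-- **TUBE, function form** -/
theorem bgt_tube_fun (hdl : 0 < dl) (ht : t.1 ^ 2 + t.2 ^ 2 = 1) (hd : d ∈ latDirs) (hN : bgaN t d ≤ -(Real.sqrt 3 / 2))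
    (hB : BgaBand F dl p t R a') (hc : p ∈ hexFace dl c) {a m s : ℕ} (ha : 1 ≤ a) (hms : m ≤ s) (hsa : 10 * s ≤ a)
    (hR : 11 * a * dl ≤ R) (ha' : a' ≤ s * dl) {zL zR : TV}
    (hL1 : 4 * a - 3 * s ≤ latN (zL - c)) (hL2 : latN (zL - c) ≤ 4 * a + 3 * s) (hL3 : 2 * s * dl ≤ dc2Y p t (triPos dl zL))
    (hR1 : 4 * a - 3 * s ≤ latN (zR - c)) (hR2 : latN (zR - c) ≤ 4 * a + 3 * s) (hR3 : 2 * s * dl ≤ dc2Y p t (triPos dl zR)) :
    ∃ (L : ℕ) (w : ℕ → TV), L ≤ 40 * a ∧ w 0 = zL ∧ w L = zR ∧ (∀ i < L, triAdj (w i) (w (i + 1))) ∧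
      ∀ i ≤ L, latBall (w i) m ⊆ latInt F ∧ latBall (w i) m ⊆ latBall c (10 * a) ∧
        Disjoint (latBall (w i) m) (latBall c (2 * a)) :=
  bgt_W_fun (bgt_tube_W' hdl ht hd hN hB hc ha hms hsa hR ha' hL1 hL2 hL3 hR1 hR2 hR3)

/-- along a walk the lattice distance is at most the number of steps -/
theorem bgt_fun_dist {w : ℕ → TV} {L : ℕ} (hw : ∀ i < L, triAdj (w i) (w (i + 1))) (i : ℕ) :
    ∀ k : ℕ, i + k ≤ L → latN (w (i + k) - w i) ≤ k
  | 0, _ => by simp [latN]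
  | k + 1, h => by
    have h1 := bgt_fun_dist hw i k (by omega)
    have h2 := hg_latN_dir ((lat_adj_iff _ _).1 (hw (i + k) (by omega)))
    have h3 := hg_latN_add_le (w (i + k + 1) - w (i + k)) (w (i + k) - w i)
    rw [sub_add_sub_cancel] at h3
    rw [← add_assoc]
    omega

/-- subsampling a walk every `ρ` steps -/
theorem bgt_subsample {P : TV → Prop} {n : ℕ} {u v : TV} (h : BgtW P n u v) {ρ : ℕ} (hρ : 1 ≤ ρ) :
    ∃ (N : ℕ) (z : ℕ → TV), N ≤ n / ρ + 1 ∧ z 0 = u ∧ z N = v ∧ (∀ i < N, latN (z (i + 1) - z i) ≤ ρ) ∧ ∀ i ≤ N, P (z i) := by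
  obtain ⟨L, w, hL, h0, h1, h2, h3⟩ := bgt_W_fun h
  refine ⟨L / ρ + 1, fun i => w (min (i * ρ) L), ?_, ?_, ?_, ?_, ?_⟩
  · exact Nat.add_le_add_right (Nat.div_le_div_right hL) 1
  · simp [h0]
  · have : L ≤ (L / ρ + 1) * ρ := by
      have := Nat.lt_div_mul_add (a := L) (b := ρ) (by omega)
      nlinarith
    simp only [min_eq_right this, h1]
  · intro i _
    simp only
    have e1 : min (i * ρ) L ≤ min ((i + 1) * ρ) L := min_le_min_right _ (Nat.mul_le_mul_right _ (by omega))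
    obtain ⟨k, hk⟩ := Nat.exists_eq_add_of_le e1
    have e2 : k ≤ ρ := by
      have : (i + 1) * ρ = i * ρ + ρ := by ring
      omega
    rw [hk]
    exact (bgt_fun_dist h2 _ k (by rw [← hk]; exact min_le_right _ _)).trans e2
  · intro i _
    exact h3 _ (min_le_right _ _)

/-- **TUBE, centres**: `N ≤ 40 a / ρ + 1` centres from `zL` to `zR`, consecutive centres at lattice distance `≤ ρ` -/
theorem bgt_tube_centres (hdl : 0 < dl) (ht : t.1 ^ 2 + t.2 ^ 2 = 1) (hd : d ∈ latDirs) (hN : bgaN t d ≤ -(Real.sqrt 3 / 2))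
    (hB : BgaBand F dl p t R a') (hc : p ∈ hexFace dl c) {a m s ρ : ℕ} (ha : 1 ≤ a) (hms : m ≤ s) (hsa : 10 * s ≤ a)
    (hρ : 1 ≤ ρ) (hR : 11 * a * dl ≤ R) (ha' : a' ≤ s * dl) {zL zR : TV}
    (hL1 : 4 * a - 3 * s ≤ latN (zL - c)) (hL2 : latN (zL - c) ≤ 4 * a + 3 * s) (hL3 : 2 * s * dl ≤ dc2Y p t (triPos dl zL))
    (hR1 : 4 * a - 3 * s ≤ latN (zR - c)) (hR2 : latN (zR - c) ≤ 4 * a + 3 * s) (hR3 : 2 * s * dl ≤ dc2Y p t (triPos dl zR)) :
    ∃ (N : ℕ) (z : ℕ → TV), N ≤ 40 * a / ρ + 1 ∧ z 0 = zL ∧ z N = zR ∧ (∀ i < N, latN (z (i + 1) - z i) ≤ ρ) ∧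
      ∀ i ≤ N, latBall (z i) m ⊆ latInt F ∧ latBall (z i) m ⊆ latBall c (10 * a) ∧
        Disjoint (latBall (z i) m) (latBall c (2 * a)) :=
  bgt_subsample (bgt_tube_W' hdl ht hd hN hB hc ha hms hsa hR ha' hL1 hL2 hL3 hR1 hR2 hR3) hρ

end tube

/-! ### 4. The tube of one block (`BdyBlk`): on the sphere of radius `4 L`, down both half spheres to the first bad hexagon -/

/-- lattice cross product -/
def bgtX (e w : TV) : ℤ := e.1 * w.2 - e.2 * w.1

theorem bgt_X_eqns_cite : True := by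
  have := @bgtX.eq_1
  trivial

/-- first exit from a set along a walk -/
theorem bgt_W_exit {P G : TV → Prop} : ∀ {n : ℕ} {u v : TV}, BgtW P n u v → G u → ¬ G v →
    ∃ z z', BgtW (fun w => P w ∧ G w) n u z ∧ triAdj z z' ∧ P z' ∧ ¬ G z'
  | 0, _, _, h, hu, hv => absurd (h.1 ▸ hu) hv
  | n + 1, u, _, h, hu, hv => by
    rcases h with ⟨rfl, _⟩ | ⟨hP, u', ha, hw⟩
    · exact absurd hu hv
    · by_cases hu' : G u'
      · obtain ⟨z, z', h1, h2, h3, h4⟩ := bgt_W_exit hw hu' hv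
        exact ⟨z, z', bgt_W_cons ⟨hP, hu⟩ ha h1, h2, h3, h4⟩
      · exact ⟨u, u', bgt_W_refl ⟨hP, hu⟩ _, ha, bgt_W_left hw, hu'⟩

theorem bgt_half_dirs {e g : TV} (he : e ∈ latDirs) (hg : g = latRot e ∨ g = e - latRot e) :
    g - e ∈ latDirs ∧ -e ∈ latDirs ∧ -g ∈ latDirs ∧ (bgtX e g = 1 ∨ bgtX e g = -1) := by
  rcases hg with rfl | rfl <;> revert e <;> decide

/-- the sites of a half sphere -/
theorem bgt_half_pts {e g : TV} (he : e ∈ latDirs) (hg : g = latRot e ∨ g = e - latRot e) {k i : ℕ} (hi : i ≤ k) :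
    (latN ((k : ℤ) • e + (i : ℤ) • (g - e)) = k ∧ 0 ≤ bgtX e g * bgtX e ((k : ℤ) • e + (i : ℤ) • (g - e))) ∧
    (latN ((k : ℤ) • g + (i : ℤ) • (-e)) = k ∧ 0 ≤ bgtX e g * bgtX e ((k : ℤ) • g + (i : ℤ) • (-e))) ∧
    (latN ((k : ℤ) • (g - e) + (i : ℤ) • (-g)) = k ∧ 0 ≤ bgtX e g * bgtX e ((k : ℤ) • (g - e) + (i : ℤ) • (-g))) := by
  simp only [bgt_latN_eq_iff]
  simp only [latDirs, Finset.mem_insert, Finset.mem_singleton] at he
  rcases he with rfl | rfl | rfl | rfl | rfl | rfl <;> rcases hg with rfl | rfl <;>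
    simp only [bgtX, latRot, Prod.smul_mk, smul_eq_mul, Prod.mk_add_mk, Prod.mk_sub_mk, Prod.neg_mk] <;> omega

/-- **a half sphere**: from the top corner to the bottom corner through the side of `g` -/
theorem bgt_half {e g : TV} (he : e ∈ latDirs) (hg : g = latRot e ∨ g = e - latRot e) (c : TV) (k : ℕ) :
    BgtW (fun w => latN (w - c) = k ∧ 0 ≤ bgtX e g * bgtX e (w - c)) (3 * k) (c + (k : ℤ) • e) (c + (k : ℤ) • (-e)) := by
  obtain ⟨d1, d2, d3, _⟩ := bgt_half_dirs he hg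
  have s1 : BgtW (fun w => latN (w - c) = k ∧ 0 ≤ bgtX e g * bgtX e (w - c)) k (c + (k : ℤ) • e)
      ((c + (k : ℤ) • e) + (k : ℤ) • (g - e)) := by
    refine bgt_W_seg d1 k _ fun i hi => ?_
    rw [add_assoc, add_sub_cancel_left]
    exact (bgt_half_pts he hg hi).1
  have s2 : BgtW (fun w => latN (w - c) = k ∧ 0 ≤ bgtX e g * bgtX e (w - c)) k (c + (k : ℤ) • g)
      ((c + (k : ℤ) • g) + (k : ℤ) • (-e)) := by
    refine bgt_W_seg d2 k _ fun i hi => ?_
    rw [add_assoc, add_sub_cancel_left]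
    exact (bgt_half_pts he hg hi).2.1
  have s3 : BgtW (fun w => latN (w - c) = k ∧ 0 ≤ bgtX e g * bgtX e (w - c)) k (c + (k : ℤ) • (g - e))
      ((c + (k : ℤ) • (g - e)) + (k : ℤ) • (-g)) := by
    refine bgt_W_seg d3 k _ fun i hi => ?_
    rw [add_assoc, add_sub_cancel_left]
    exact (bgt_half_pts he hg hi).2.2
  have e1 : (c + (k : ℤ) • e) + (k : ℤ) • (g - e) = c + (k : ℤ) • g := by
    rw [smul_sub]; abel
  have e2 : (c + (k : ℤ) • g) + (k : ℤ) • (-e) = c + (k : ℤ) • (g - e) := by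
    rw [smul_sub, smul_neg]; abel
  have e3 : (c + (k : ℤ) • (g - e)) + (k : ℤ) • (-g) = c + (k : ℤ) • (-e) := by
    rw [smul_sub, smul_neg, smul_neg]; abel
  rw [e1] at s1
  rw [e2] at s2
  rw [e3] at s3
  exact bgt_W_mono (by omega) (bgt_W_trans (bgt_W_trans s1 s2) s3)

theorem bgt_ball_range {c z v : TV} {k κ : ℕ} (hz : latN (z - c) = k) (hv : v ∈ latBall z κ) :
    k ≤ latN (v - c) + κ ∧ latN (v - c) ≤ k + κ := by
  have h4 := lat_mem_ball.1 hv
  have h5 := hg_latN_add_le (v - z) (z - c)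
  have h6 := hg_latN_add_le (z - v) (v - c)
  rw [sub_add_sub_cancel] at h5 h6
  rw [hg_latN_sub_comm z v] at h6
  omega

/-- the cross product in the frame -/
theorem bgt_cross {t : ℝ × ℝ} (ht : t.1 ^ 2 + t.2 ^ 2 = 1) (e w : TV) :
    bgaT t w * bgaN t e - bgaN t w * bgaT t e = -(Real.sqrt 3 / 2) * (bgtX e w : ℝ) := by
  rw [bga_T_eq, bga_N_eq, bga_T_eq, bga_N_eq]
  unfold bgtX
  push_cast
  linear_combination (((w.1 : ℝ) + w.2 / 2) * (e.2 * Real.sqrt 3 / 2) - (w.2 * Real.sqrt 3 / 2) * ((e.1 : ℝ) + e.2 / 2)) * ht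

theorem bgt_T_abs_le {t : ℝ × ℝ} {e : TV} (ht : t.1 ^ 2 + t.2 ^ 2 = 1) (he : e ∈ latDirs)
    (heN : Real.sqrt 3 / 2 ≤ bgaN t e) : |bgaT t e| ≤ 1 / 2 := by
  have h1 := bga_dir_unit ht he
  obtain ⟨s1, s2, _⟩ := bga_sqrt3
  have h2 : 3 / 4 ≤ bgaN t e ^ 2 := by nlinarith
  have h3 : bgaT t e ^ 2 ≤ (1 / 2) ^ 2 := by nlinarith
  exact abs_le_of_sq_le_sq h3 (by norm_num)

theorem bgt_N_diff {t : ℝ × ℝ} (ht : t.1 ^ 2 + t.2 ^ 2 = 1) (c u v : TV) :
    |bgaN t (u - c) - bgaN t (v - c)| ≤ latN (u - v) := by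
  have : bgaN t (u - c) - bgaN t (v - c) = bgaN t (u - v) := by
    rw [← bga_N_sub]; congr 1; abel
  rw [this]
  exact (bga_abs_le_latN ht _).2

theorem bgt_T_diff {t : ℝ × ℝ} (ht : t.1 ^ 2 + t.2 ^ 2 = 1) (c u v : TV) :
    |bgaT t (u - c) - bgaT t (v - c)| ≤ latN (u - v) := by
  have : bgaT t (u - c) - bgaT t (v - c) = bgaT t (u - v) := by
    rw [← bga_T_sub]; congr 1; abel
  rw [this]
  exact (bga_abs_le_latN ht _).1

/-- the sign of the abscissa near a shallow site of a half sphere -/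
theorem bgt_sign {t : ℝ × ℝ} {c e q z' : TV} (ht : t.1 ^ 2 + t.2 ^ 2 = 1) (he : e ∈ latDirs)
    (heN : Real.sqrt 3 / 2 ≤ bgaN t e) {S : ℝ} (hS' : S = 1 ∨ S = -1) {κ L : ℕ} (hL : 12 ≤ L) (hκ : 4 * κ ≤ L)
    (hχ : 0 ≤ S * (bgtX e (z' - c) : ℝ)) (hqz' : latN (q - z') ≤ κ) (r1 : 4 * L ≤ latN (q - c) + κ)
    (b1 : |bgaN t (q - c)| ≤ 3 / 8 * L) : ∀ u ∈ latBall q L, S * bgaT t (u - c) < 0 := by
  obtain ⟨s1, s2, _⟩ := bga_sqrt3
  have s3 : (17 : ℝ) / 10 ≤ Real.sqrt 3 := by nlinarith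
  have hLr : (12 : ℝ) ≤ L := by exact_mod_cast hL
  have hκr : 4 * (κ : ℝ) ≤ L := by exact_mod_cast hκ
  have hκ0 : (0 : ℝ) ≤ κ := Nat.cast_nonneg κ
  have hNe : (17 : ℝ) / 20 ≤ bgaN t e := by linarith
  have hSabs : |S| = 1 := by rcases hS' with h | h <;> rw [h] <;> norm_num
  have hSS : S * S = 1 := by rcases hS' with h | h <;> rw [h] <;> norm_num
  have hSle : ∀ x y : ℝ, |x| ≤ y → S * x ≤ y := by
    intro x y hxy
    calc S * x ≤ |S * x| := le_abs_self _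
      _ = |x| := by rw [abs_mul, hSabs, one_mul]
      _ ≤ y := hxy
  set nq := bgaN t (q - c) with hnq
  set tq := bgaT t (q - c) with htq
  set n' := bgaN t (z' - c) with hn'
  set t' := bgaT t (z' - c) with ht'
  have c2 : 4 * (L : ℝ) ≤ latN (q - c) + κ := by exact_mod_cast r1
  have a4 := abs_le.1 ((bgt_N_diff ht c q z').trans (by exact_mod_cast hqz' : (latN (q - z') : ℝ) ≤ κ))
  have a5 := (bgt_T_diff ht c q z').trans (by exact_mod_cast hqz' : (latN (q - z') : ℝ) ≤ κ)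
  have b2 : |n'| ≤ 5 / 8 * L := by
    have := abs_le.1 b1
    exact abs_le.2 ⟨by linarith [a4.2], by linarith [a4.1]⟩
  have hTe := bgt_T_abs_le ht he heN
  have hcr := bgt_cross ht e (z' - c)
  have b3 : S * t' * bgaN t e ≤ 5 / 16 * L := by
    have e1 : S * t' * bgaN t e = S * (n' * bgaT t e) - Real.sqrt 3 / 2 * (S * (bgtX e (z' - c) : ℝ)) := by
      linear_combination S * hcr
    have e2 : S * (n' * bgaT t e) ≤ 5 / 8 * L * (1 / 2) := by
      refine hSle _ _ ?_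
      rw [abs_mul]
      exact mul_le_mul b2 hTe (abs_nonneg _) (by positivity)
    have e3 : 0 ≤ Real.sqrt 3 / 2 * (S * (bgtX e (z' - c) : ℝ)) := mul_nonneg (by positivity) hχ
    rw [e1]
    linarith
  have b4 : S * t' ≤ 3 / 8 * L := by
    by_contra hc
    push Not at hc
    have h0 : 0 ≤ S * t' := le_trans (by positivity) hc.le
    have h1 : S * t' * (17 / 20) ≤ S * t' * bgaN t e := mul_le_mul_of_nonneg_left hNe h0
    linarith
  have b5 : S * tq ≤ 5 / 8 * L := by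
    have := hSle _ _ a5
    have e : S * tq = S * t' + S * (tq - t') := by ring
    rw [e]
    linarith
  have b6 : (16 / 5 * (L : ℝ)) ^ 2 ≤ (S * tq) ^ 2 := by
    have f1 := bga_sq_add_sq ht (q - c)
    have f2 : (3 : ℝ) * (latN (q - c) : ℝ) ^ 2
        ≤ 4 * (((q - c).1 : ℝ) ^ 2 + ((q - c).1 : ℝ) * ((q - c).2 : ℝ) + ((q - c).2 : ℝ) ^ 2) := by
      exact_mod_cast hg_latN_sq_le (q - c)
    have f3 : 15 / 4 * (L : ℝ) ≤ latN (q - c) := by linarith
    have f4 : (15 / 4 * (L : ℝ)) ^ 2 ≤ (latN (q - c) : ℝ) ^ 2 := pow_le_pow_left₀ (by positivity) f3 2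
    have f5 : nq ^ 2 ≤ (3 / 8 * (L : ℝ)) ^ 2 := sq_le_sq' (abs_le.1 b1).1 (abs_le.1 b1).2
    have f6 : (S * tq) ^ 2 = tq ^ 2 := by rw [mul_pow, sq S, hSS, one_mul]
    have f7 : (0 : ℝ) ≤ (L : ℝ) ^ 2 := by positivity
    rw [f6]
    have f8 : tq ^ 2 = ((q - c).1 : ℝ) ^ 2 + ((q - c).1 : ℝ) * ((q - c).2 : ℝ) + ((q - c).2 : ℝ) ^ 2 - nq ^ 2 := by
      linarith
    rw [f8]
    ring_nf at f4 f5 ⊢
    linarith
  have b7 : S * tq ≤ -(16 / 5 * L) := by
    by_contra hc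
    push Not at hc
    have h1 : 0 < S * tq + 16 / 5 * L := by linarith
    have h2 : 0 < 16 / 5 * L - S * tq := by linarith
    have h3 := mul_pos h1 h2
    ring_nf at h3 b6
    linarith
  intro u hu
  have h4 : (latN (u - q) : ℝ) ≤ L := by exact_mod_cast lat_mem_ball.1 hu
  have := hSle _ _ ((bgt_T_diff ht c u q).trans h4)
  have e : S * bgaT t (u - c) = S * tq + S * (bgaT t (u - c) - tq) := by ring
  rw [e]
  linarith

/-- **one side of the tube**: down the half sphere of `g` to the first bad hexagon -/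
theorem bgt_half_tube {F : Finset TV} {t : ℝ × ℝ} {c e g : TV} {sg : ℝ} {m M : ℕ}
    (ht : t.1 ^ 2 + t.2 ^ 2 = 1) (he : e ∈ latDirs) (heN : Real.sqrt 3 / 2 ≤ bgaN t e)
    (hg : g = latRot e ∨ g = e - latRot e) (hsg : sg ≤ 1 / 100)
    (hin : ∀ u, m ≤ latN (u - c) → latN (u - c) ≤ M → sg * latN (u - c) ≤ bgaN t (u - c) → u ∈ latInt F)
    (hout : ∀ u, m ≤ latN (u - c) → latN (u - c) ≤ M → bgaN t (u - c) ≤ -(sg * latN (u - c)) → u ∉ F)
    {κ L : ℕ} (hκ3 : 3 ≤ κ) (hκ : 4 * κ ≤ L) (hm : m ≤ 2 * L) (hM : 6 * L ≤ M) :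
    ∃ z q : TV, BgtW (fun w => latN (w - c) = 4 * L ∧ latBall w κ ⊆ latInt F) (12 * L) (c + ((4 * L : ℕ) : ℤ) • e) z ∧
      q ∉ latInt F ∧ latDist z q ≤ 2 * κ ∧ latBall q L ⊆ latBall c (6 * L) ∧ Disjoint (latBall q L) (latBall c (2 * L)) ∧
      ∀ u ∈ latBall q L, (bgtX e g : ℝ) * bgaT t (u - c) < 0 := by
  obtain ⟨s1, s2, _⟩ := bga_sqrt3
  have s3 : (17 : ℝ) / 10 ≤ Real.sqrt 3 := by nlinarith
  have hL12 : 12 ≤ L := by omega
  have hLr : (12 : ℝ) ≤ L := by exact_mod_cast hL12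
  have hκr : 4 * (κ : ℝ) ≤ L := by exact_mod_cast hκ
  have hκ0 : (0 : ℝ) ≤ κ := Nat.cast_nonneg κ
  set k : ℕ := 4 * L with hk
  have hkr : (k : ℝ) = 4 * L := by rw [hk]; push_cast; ring
  have hNe : (17 : ℝ) / 20 ≤ bgaN t e := by linarith
  have hsgle : ∀ x : ℝ, 0 ≤ x → sg * x ≤ 1 / 100 * x := fun x hx => mul_le_mul_of_nonneg_right hsg hx
  -- the top corner is good
  have htop : latBall (c + (k : ℤ) • e) κ ⊆ latInt F := by
    intro v hv
    have hz : latN (c + (k : ℤ) • e - c) = k := by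
      rw [add_sub_cancel_left]; exact bgt_latN_smul he k
    obtain ⟨r1, r2⟩ := bgt_ball_range hz hv
    refine hin v (by omega) (by omega) ?_
    have n1 := (abs_le.1 (bgt_N_diff ht c v (c + (k : ℤ) • e))).1
    have n2 : bgaN t (c + (k : ℤ) • e - c) = k * bgaN t e := by
      rw [add_sub_cancel_left, bga_N_zsmul, Int.cast_natCast]
    have n3 : (latN (v - (c + (k : ℤ) • e)) : ℝ) ≤ κ := by exact_mod_cast lat_mem_ball.1 hv
    have n4 : (latN (v - c) : ℝ) ≤ k + κ := by exact_mod_cast r2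
    have n5 := hsgle _ (Nat.cast_nonneg (latN (v - c)))
    have n6 : (k : ℝ) * (17 / 20) ≤ k * bgaN t e := mul_le_mul_of_nonneg_left hNe (Nat.cast_nonneg _)
    rw [n2] at n1
    linarith
  -- the bottom corner is bad
  have hbot : ¬ latBall (c + (k : ℤ) • (-e)) κ ⊆ latInt F := by
    intro h
    have h1 := lat_int_sub F (h (hg_center_mem_latBall _ κ))
    have hz : latN (c + (k : ℤ) • (-e) - c) = k := by
      rw [add_sub_cancel_left]; exact bgt_latN_smul (lat_dirs_neg he) k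
    refine hout _ (by omega) (by omega) ?_ h1
    rw [hz, add_sub_cancel_left, bga_N_zsmul, bga_N_neg, Int.cast_natCast]
    have n5 := hsgle _ (Nat.cast_nonneg k)
    have n6 : (k : ℝ) * (17 / 20) ≤ k * bgaN t e := mul_le_mul_of_nonneg_left hNe (Nat.cast_nonneg _)
    have n7 : (0 : ℝ) ≤ k := Nat.cast_nonneg k
    linarith
  obtain ⟨z, z', hw, hadj, hP', hG'⟩ :=
    bgt_W_exit (G := fun w => latBall w κ ⊆ latInt F) (bgt_half he hg c k) htop hbot
  obtain ⟨q, hq, hqF⟩ := Finset.not_subset.1 hG'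
  obtain ⟨⟨hzk, _⟩, hzG⟩ := bgt_W_right hw
  obtain ⟨r1, r2⟩ := bgt_ball_range hP'.1 hq
  have hqz' : latN (q - z') ≤ κ := lat_mem_ball.1 hq
  have hzz' : latN (z' - z) = 1 := hg_latN_dir ((lat_adj_iff _ _).1 hadj)
  have hqz : latN (q - z) ≤ κ + 1 := by
    have := hg_latN_add_le (q - z') (z' - z)
    rw [sub_add_sub_cancel] at this
    omega
  refine ⟨z, q, bgt_W_mono (by omega) (bgt_W_imp (fun w h => ⟨h.1.1, h.2⟩) hw), hqF, ?_, ?_, ?_, ?_⟩
  · unfold latDist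
    omega
  · intro u hu
    have h4 := lat_mem_ball.1 hu
    have h5 := hg_latN_add_le (u - q) (q - c)
    rw [sub_add_sub_cancel] at h5
    exact lat_mem_ball.2 (by omega)
  · rw [Finset.disjoint_left]
    intro u hu hu'
    have h4 := lat_mem_ball.1 hu
    have h4' := lat_mem_ball.1 hu'
    have h5 := hg_latN_add_le (q - u) (u - c)
    rw [sub_add_sub_cancel, hg_latN_sub_comm q u] at h5
    omega
  · obtain ⟨_, _, _, hS⟩ := bgt_half_dirs he hg
    have hS' : (bgtX e g : ℝ) = 1 ∨ (bgtX e g : ℝ) = -1 := by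
      rcases hS with h | h
      · left; rw [h]; norm_num
      · right; rw [h]; norm_num
    have c1 : (latN (q - c) : ℝ) ≤ k + κ := by exact_mod_cast r2
    have a1 : bgaN t (q - c) ≤ 1 / 100 * (k + κ) := by
      by_contra hc
      push Not at hc
      refine hqF (hin q (by omega) (by omega) ?_)
      have := hsgle _ (Nat.cast_nonneg (latN (q - c)))
      linarith
    have a2 : -(1 / 100 * (k : ℝ)) ≤ bgaN t (z - c) := by
      by_contra hc
      push Not at hc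
      refine hout z (by omega) (by omega) ?_ (lat_int_sub F (hzG (hg_center_mem_latBall _ κ)))
      rw [hzk]
      have := hsgle _ (Nat.cast_nonneg k)
      linarith
    have a3 := abs_le.1 ((bgt_N_diff ht c q z).trans (by exact_mod_cast hqz : (latN (q - z) : ℝ) ≤ κ + 1))
    have b1 : |bgaN t (q - c)| ≤ 3 / 8 * L := abs_le.2 ⟨by linarith [a3.1], by linarith⟩
    exact bgt_sign ht he heN hS' hL12 hκ (by exact_mod_cast hP'.2) hqz' (by omega) b1

theorem bgt_list_of_fun {R : TV → TV → Prop} (z : ℕ → TV) (N : ℕ) (hR : ∀ i < N, R (z i) (z (i + 1))) :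
    ((List.range (N + 1)).map z) ≠ [] ∧ ((List.range (N + 1)).map z).length = N + 1 ∧
      ((List.range (N + 1)).map z).IsChain R ∧ ((List.range (N + 1)).map z).head? = some (z 0) ∧
      ((List.range (N + 1)).map z).getLast? = some (z N) ∧ ∀ x ∈ (List.range (N + 1)).map z, ∃ i ≤ N, x = z i := by
  refine ⟨by simp, by simp, ?_, ?_, ?_, ?_⟩
  · rw [List.isChain_map, List.isChain_range_succ]
    exact hR
  · rw [List.head?_map, List.head?_range]
    simp
  · rw [List.getLast?_map, List.getLast?_range]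
    simp
  · intro x hx
    obtain ⟨i, hi, rfl⟩ := List.mem_map.1 hx
    exact ⟨i, by have := List.mem_range.1 hi; omega, rfl⟩

theorem bgt_X_dirs {e : TV} (he : e ∈ latDirs) : bgtX e (latRot e) = 1 ∧ bgtX e (e - latRot e) = -1 := by
  revert e
  decide

/-- **THE TUBE OF ONE BLOCK** (fields `zs_*`, `q*_off`, `q*_near`, `q*_ball` of `BdyBlk` with `r1 = 2 L`, `r2 = 6 L`, `A = latInt F`).
`hin`, `hout` = the two cone clauses;  LEFT = positive abscissa `bgaT`, RIGHT = negative abscissa. -/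
theorem bgt_blk_tube {F : Finset TV} {t : ℝ × ℝ} {c d : TV} {sg : ℝ} {m M : ℕ}
    (ht : t.1 ^ 2 + t.2 ^ 2 = 1) (hd : d ∈ latDirs) (hN : bgaN t d ≤ -(Real.sqrt 3 / 2)) (hsg : sg ≤ 1 / 100)
    (hin : ∀ u, m ≤ latN (u - c) → latN (u - c) ≤ M → sg * latN (u - c) ≤ bgaN t (u - c) → u ∈ latInt F)
    (hout : ∀ u, m ≤ latN (u - c) → latN (u - c) ≤ M → bgaN t (u - c) ≤ -(sg * latN (u - c)) → u ∉ F)
    {K1 Lq ρ L : ℕ} (hK1 : 3 ≤ K1) (hLq : 4 * K1 ≤ Lq) (hρ : 1 ≤ ρ) (hL : L = Lq * ρ) (hm : m ≤ 2 * L) (hM : 6 * L ≤ M) :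
    ∃ (zs : List TV) (qL qR : TV), zs ≠ [] ∧ zs.length ≤ 100 * Lq ∧ zs.IsChain (fun z z' => latDist z z' ≤ ρ) ∧
      (∀ z ∈ zs, latBall z (K1 * ρ) ⊆ latInt F ∧ latBall z (K1 * ρ) ⊆ latBall c (6 * L) ∧
        Disjoint (latBall z (K1 * ρ)) (latBall c (2 * L))) ∧
      (qL ∉ latInt F ∧ (∀ z, zs.head? = some z → latDist z qL ≤ 2 * K1 * ρ) ∧ latBall qL L ⊆ latBall c (6 * L) ∧
        Disjoint (latBall qL L) (latBall c (2 * L)) ∧ ∀ u ∈ latBall qL L, 0 < bgaT t (u - c)) ∧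
      (qR ∉ latInt F ∧ (∀ z, zs.getLast? = some z → latDist z qR ≤ 2 * K1 * ρ) ∧ latBall qR L ⊆ latBall c (6 * L) ∧
        Disjoint (latBall qR L) (latBall c (2 * L)) ∧ ∀ u ∈ latBall qR L, bgaT t (u - c) < 0) := by
  obtain ⟨he, _, heN, _⟩ := bga_e ht hd hN
  have hκ3 : 3 ≤ K1 * ρ := le_trans hK1 (Nat.le_mul_of_pos_right _ hρ)
  have hκ : 4 * (K1 * ρ) ≤ L := by
    rw [hL, ← mul_assoc]
    exact Nat.mul_le_mul_right _ hLq
  obtain ⟨x1, x5⟩ := bgt_X_dirs he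
  obtain ⟨zl, qL, wL, l1, l2, l3, l4, l5⟩ := bgt_half_tube ht he heN (Or.inr rfl) hsg hin hout hκ3 hκ hm hM
  obtain ⟨zr, qR, wR, r1, r2, r3, r4, r5⟩ := bgt_half_tube ht he heN (Or.inl rfl) hsg hin hout hκ3 hκ hm hM
  obtain ⟨N, z, hN1, z0, zN, hstep, hprop⟩ := bgt_subsample (bgt_W_trans (bgt_W_symm wL) wR) hρ
  have hN2 : N ≤ 24 * Lq + 1 := by
    have e : 12 * L + 12 * L = 24 * Lq * ρ := by rw [hL]; ring
    rw [e, Nat.mul_div_cancel _ (by omega : 0 < ρ)] at hN1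
    exact hN1
  obtain ⟨g1, g2, g3, g4, g5, g6⟩ := bgt_list_of_fun (R := fun z z' => latDist z z' ≤ ρ) z N hstep
  refine ⟨(List.range (N + 1)).map z, qL, qR, g1, by rw [g2]; omega, g3, ?_, ⟨l1, ?_, l3, l4, ?_⟩, ⟨r1, ?_, r3, r4, ?_⟩⟩
  · intro x hx
    obtain ⟨i, hi, rfl⟩ := g6 x hx
    obtain ⟨p1, p2⟩ := hprop i hi
    refine ⟨p2, fun v hv => ?_, ?_⟩
    · have := bgt_ball_range p1 hv
      exact lat_mem_ball.2 (by omega)
    · rw [Finset.disjoint_left]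
      intro v hv hv'
      have := bgt_ball_range p1 hv
      have h4 := lat_mem_ball.1 hv'
      omega
  · intro x hx
    rw [g4, Option.some.injEq] at hx
    rw [← hx, z0, mul_assoc]
    exact l2
  · intro u hu
    have := l5 u hu
    rw [x5] at this
    push_cast at this
    linarith
  · intro x hx
    rw [g5, Option.some.injEq] at hx
    rw [← hx, zN, mul_assoc]
    exact r2
  · intro u hu
    have := r5 u hu
    rw [x1] at this
    push_cast at this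
    linarith

end Claimed.Agent.R291
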