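import Claimed.Agent.R291.Dis.HtOrd

/-!
# Row 291 (S0539), unit BDY, file Bdy/HInv      (owner: helper173; prefix `bdy_` / `bdy`)

HEIGHT INVASIONS, STOPPING SETS, STRONG MARKOV PROPERTY on `Defs/Ht`.   Design: `origin/helper173:notes/R291/sec6b_173.md` (R1, R2, H2, H3).
Replaces TEX[boundary:extremal] (extremal site circuits) and every "explore from one side, the rest keeps its Gibbs law" of Sec. 6.

* `bdy_smarkov`, `bdy_smarkov_mul`   STRONG MARKOV: `MM h ⊆ A` a stopping set (`h' = h` off `MM h` ⟹ `MM h' = MM h`):  `htE x A b (fun g => htE x (MM g) g F) = htE x A b F`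
* `bdy_E_bc`          the law in `A` reads the boundary function on `latOut A` only (local observables)
* `bdy_split`, `bdy_split_prod`   non adjacent free sets are independent
* `bdyInv U P O`      invasion of `O` inside `U` through the passable sites `P` (contains its impassable rim);  `bdy_inv_*` closure API, `bdy_inv_stop` (stopping set), `bdy_inv_rim`
* `bdy_mean_nonneg`   nonnegative boundary values ⟹ nonnegative mean of a nonnegative average
-/

set_option autoImplicit false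

namespace Claimed.Agent.R291

open Claims Claims.C0467

/-! ## 1. Strong Markov property -/

/-- **STRONG MARKOV** with an outside factor: `MM` is a stopping set, `G` is read off `MM`. -/
theorem bdy_smarkov_mul {x : ℝ} (hx0 : 0 < x) {A : Finset TV} (b : TV → ℤ) (MM : (TV → ℤ) → Finset TV)
    (hsub : ∀ h, MM h ⊆ A) (hstop : ∀ h h' : TV → ℤ, (∀ u, u ∉ MM h → h' u = h u) → MM h' = MM h)
    (F G : (TV → ℤ) → ℝ) (hG : ∀ h h' : TV → ℤ, (∀ u, u ∉ MM h → h' u = h u) → G h' = G h) :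
    htE x A b (fun g => G g * htE x (MM g) g F) = htE x A b (fun h => G h * F h) := by
  classical
  have e2 : ∀ (Φ : (TV → ℤ) → ℝ), htE x A b Φ = ∑ M ∈ A.powerset, htE x A b (fun g => if MM g = M then Φ g else 0) := by
    intro Φ
    rw [← ht_E_sum]
    congr 1
    funext g
    rw [Finset.sum_eq_single (MM g)]
    · simp
    · intro M _ hM
      simp [Ne.symm hM]
    · intro hM
      exact absurd (Finset.mem_powerset.2 (hsub g)) hM
  rw [e2 (fun g => G g * htE x (MM g) g F), e2 (fun h => G h * F h)]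
  refine Finset.sum_congr rfl fun M hM => ?_
  have hMA := Finset.mem_powerset.1 hM
  have key := hto_dlr_mul hx0 hMA b F (fun g => if MM g = M then G g else 0) (by
    intro g h hgh
    by_cases h1 : MM g = M
    · have h2 : MM h = M := by rw [← h1]; exact hstop g h (by rw [h1]; exact hgh)
      rw [if_pos h1, if_pos h2]
      exact hG g h (by rw [h1]; exact hgh)
    · have h2 : MM h ≠ M := by
        intro h2
        apply h1
        rw [← h2]
        exact hstop h g (by rw [h2]; exact fun u hu => (hgh u hu).symm)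
      rw [if_neg h1, if_neg h2])
  have l : (fun g => if MM g = M then G g * htE x (MM g) g F else 0)
      = fun g => (if MM g = M then G g else 0) * htE x M g F := by
    funext g
    by_cases h1 : MM g = M
    · simp [h1]
    · simp [h1]
  have r : (fun h => if MM h = M then G h * F h else 0) = fun h => (if MM h = M then G h else 0) * F h := by
    funext g
    by_cases h1 : MM g = M
    · simp [h1]
    · simp [h1]
  rw [l, r, key]

/-- **STRONG MARKOV PROPERTY** for a stopping set `MM`. -/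
theorem bdy_smarkov {x : ℝ} (hx0 : 0 < x) {A : Finset TV} (b : TV → ℤ) (MM : (TV → ℤ) → Finset TV)
    (hsub : ∀ h, MM h ⊆ A) (hstop : ∀ h h' : TV → ℤ, (∀ u, u ∉ MM h → h' u = h u) → MM h' = MM h)
    (F : (TV → ℤ) → ℝ) : htE x A b (fun g => htE x (MM g) g F) = htE x A b F := by
  have := bdy_smarkov_mul hx0 b MM hsub hstop F (fun _ => 1) (fun _ _ _ => rfl)
  simpa using this

/-! ## 2. The law reads the boundary function on `latOut A` only -/

theorem bdy_mem_out {A : Finset TV} {u : TV} : u ∈ latOut A ↔ u ∉ A ∧ ∃ v ∈ A, triAdj v u := by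
  unfold latOut
  rw [Finset.mem_sdiff, Finset.mem_biUnion]
  constructor
  · rintro ⟨⟨v, hv, hvu⟩, hu⟩; exact ⟨hu, v, hv, lat_mem_nb.1 hvu⟩
  · rintro ⟨hu, v, hv, hvu⟩; exact ⟨⟨v, hv, lat_mem_nb.2 hvu⟩, hu⟩

theorem bdy_cl_eq {A : Finset TV} {u : TV} : u ∈ latCl A ↔ u ∈ A ∨ u ∈ latOut A := by
  rw [lat_mem_cl, bdy_mem_out]
  by_cases h : u ∈ A <;> simp [h]

theorem bdy_E_ends {A : Finset TV} {p : TV × TV} (hp : p ∈ latE A) : p.1 ∈ latCl A ∧ p.1 + p.2 ∈ latCl A := by
  obtain ⟨h1, h2⟩ := lat_mem_E.1 hp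
  have hadj : triAdj p.1 (p.1 + p.2) := lat_adj_add _ (lat_pos_sub h1)
  rcases h2 with h | h
  · exact ⟨lat_mem_cl.2 (Or.inl h), lat_mem_cl.2 (Or.inr ⟨_, h, hadj⟩)⟩
  · exact ⟨lat_mem_cl.2 (Or.inr ⟨_, h, lat_adj_symm hadj⟩), lat_mem_cl.2 (Or.inl h)⟩

theorem bdy_N_congr {A : Finset TV} {h h' : TV → ℤ} (hh : ∀ u ∈ latCl A, h u = h' u) : htN A h = htN A h' := by
  unfold htN
  refine Finset.sum_congr rfl fun p hp => ?_
  obtain ⟨h1, h2⟩ := bdy_E_ends hp
  rw [hh _ h1, hh _ h2]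

open Classical in
/-- replace the boundary function -/
noncomputable def bdyRe (A : Finset TV) (b' h : TV → ℤ) : TV → ℤ := fun u => if u ∈ A then h u else b' u

theorem bdy_re_cl {A : Finset TV} {b b' h : TV → ℤ} (hb : ∀ u ∈ latOut A, b u = b' u) (hh : HtAdm A b h) :
    ∀ u ∈ latCl A, bdyRe A b' h u = h u := by
  intro u hu
  unfold bdyRe
  by_cases hA : u ∈ A
  · rw [if_pos hA]
  · rw [if_neg hA, hh.1 u hA]
    rcases bdy_cl_eq.1 hu with h1 | h1
    · exact absurd h1 hA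
    · exact (hb u h1).symm

theorem bdy_re_adm {A : Finset TV} {b b' h : TV → ℤ} (hb : ∀ u ∈ latOut A, b u = b' u) (hh : HtAdm A b h) :
    HtAdm A b' (bdyRe A b' h) := by
  refine ⟨fun u hu => by unfold bdyRe; rw [if_neg hu], fun u hu d hd => ?_⟩
  rw [bdy_re_cl hb hh u (lat_mem_cl.2 (Or.inl hu)),
    bdy_re_cl hb hh (u + d) (lat_mem_cl.2 (Or.inr ⟨u, hu, lat_adj_add u hd⟩))]
  exact hh.2 u hu d hd

theorem bdy_S_bc (x : ℝ) (A : Finset TV) {b b' : TV → ℤ} (hb : ∀ u ∈ latOut A, b u = b' u) {G : (TV → ℤ) → ℝ}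
    (hG : ∀ h h' : TV → ℤ, HtAdm A b h → HtAdm A b' h' → (∀ u ∈ A, h u = h' u) → G h = G h') :
    htS x A b G = htS x A b' G := by
  unfold htS
  have hb' : ∀ u ∈ latOut A, b' u = b u := fun u hu => (hb u hu).symm
  refine Finset.sum_nbij' (bdyRe A b') (bdyRe A b) ?_ ?_ ?_ ?_ ?_
  · intro h hh; exact ht_mem_cfg.2 (bdy_re_adm hb (ht_mem_cfg.1 hh))
  · intro h hh; exact ht_mem_cfg.2 (bdy_re_adm hb' (ht_mem_cfg.1 hh))
  · intro h hh
    have := ht_mem_cfg.1 hh
    funext u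
    unfold bdyRe
    by_cases hA : u ∈ A
    · simp [hA]
    · simp [hA, this.1 u hA]
  · intro h hh
    have := ht_mem_cfg.1 hh
    funext u
    unfold bdyRe
    by_cases hA : u ∈ A
    · simp [hA]
    · simp [hA, this.1 u hA]
  · intro h hh
    have h1 := ht_mem_cfg.1 hh
    have e1 : htWt x A (bdyRe A b' h) = htWt x A h := by
      unfold htWt; rw [bdy_N_congr (bdy_re_cl hb h1)]
    rw [e1, hG h (bdyRe A b' h) h1 (bdy_re_adm hb h1) (fun u hu => by unfold bdyRe; rw [if_pos hu])]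

/-- **the law in `A` reads the boundary function on `latOut A` only** -/
theorem bdy_E_bc (x : ℝ) (A : Finset TV) {b b' : TV → ℤ} (hb : ∀ u ∈ latOut A, b u = b' u) {G : (TV → ℤ) → ℝ}
    (hG : ∀ h h' : TV → ℤ, HtAdm A b h → HtAdm A b' h' → (∀ u ∈ A, h u = h' u) → G h = G h') :
    htE x A b G = htE x A b' G := by
  rw [hto_E_eq, hto_E_eq, hto_Z_eq, hto_Z_eq, bdy_S_bc x A hb hG, bdy_S_bc x A hb (fun _ _ _ _ _ => rfl)]

theorem bdy_E_bc_loc (x : ℝ) (A : Finset TV) {b b' : TV → ℤ} (hb : ∀ u ∈ latOut A, b u = b' u) {G : (TV → ℤ) → ℝ}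
    (hG : HtLoc (latCl A) G) : htE x A b G = htE x A b' G := by
  refine bdy_E_bc x A hb fun h h' hh hh' he => hG h h' fun u hu => ?_
  rcases bdy_cl_eq.1 hu with h1 | h1
  · exact he u h1
  · have h2 := (bdy_mem_out.1 h1).1
    rw [hh.1 u h2, hh'.1 u h2, hb u h1]

/-! ## 3. Order and means with the boundary values compared on `latOut A` only -/

open Classical in
/-- **order in the trace**, local form -/
theorem bdy_order {x : ℝ} (hx0 : 0 < x) (hx1 : x ≤ 1) (A : Finset TV) {b₁ b₂ : TV → ℤ} (hb : ∀ u ∈ latOut A, b₁ u ≤ b₂ u)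
    (h₁ : ∃ h, HtAdm A b₁ h) (h₂ : ∃ h, HtAdm A b₂ h) {F : (TV → ℤ) → ℝ} (hF : HtMono F) (hloc : HtLoc (latCl A) F) :
    htE x A b₁ F ≤ htE x A b₂ F := by
  have c1 : ∀ u ∈ latOut A, b₁ u = (fun u => if u ∈ latOut A then b₁ u else 0) u := fun u hu => by simp [hu]
  have c2 : ∀ u ∈ latOut A, b₂ u = (fun u => if u ∈ latOut A then b₂ u else 0) u := fun u hu => by simp [hu]
  rw [bdy_E_bc_loc x A c1 hloc, bdy_E_bc_loc x A c2 hloc]
  obtain ⟨g1, hg1⟩ := h₁
  obtain ⟨g2, hg2⟩ := h₂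
  refine hto_order hx0 hx1 A (fun u => ?_) ⟨_, bdy_re_adm c1 hg1⟩ ⟨_, bdy_re_adm c2 hg2⟩ hF
  by_cases hu : u ∈ latOut A
  · simp [hu, hb u hu]
  · simp [hu]

theorem bdy_lin_mono (S : Finset TV) {w : TV → ℝ} (hw : ∀ u, 0 ≤ w u) : HtMono (fun h => ∑ u ∈ S, w u * (h u : ℝ)) := by
  intro h h' hh
  exact Finset.sum_le_sum fun u _ => mul_le_mul_of_nonneg_left (by exact_mod_cast hh u) (hw u)

theorem bdy_lin_loc {S T : Finset TV} (hST : S ⊆ T) (w : TV → ℝ) : HtLoc T (fun h => ∑ u ∈ S, w u * (h u : ℝ)) := by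
  intro h h' hh
  exact Finset.sum_congr rfl fun u hu => by rw [hh u (hST hu)]

/-- mean of a linear statistic under a flat boundary function -/
theorem bdy_mean_flat {x : ℝ} (hx0 : 0 < x) (A S : Finset TV) (c : ℤ) (w : TV → ℝ) :
    htE x A (fun _ => c) (fun h => ∑ u ∈ S, w u * (h u : ℝ)) = c * ∑ u ∈ S, w u := by
  have z : htE x A 0 (fun h => ∑ u ∈ S, w u * (h u : ℝ)) = 0 := by
    have h1 := hto_neg x A 0 (fun h => ∑ u ∈ S, w u * (h u : ℝ))
    have e0 : (fun u => -(0 : TV → ℤ) u) = (0 : TV → ℤ) := by funext u; simp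
    rw [e0] at h1
    have e1 : (fun h : TV → ℤ => ∑ u ∈ S, w u * (((fun u => -h u) u : ℤ) : ℝ)) = fun h => -∑ u ∈ S, w u * (h u : ℝ) := by
      funext h
      rw [← Finset.sum_neg_distrib]
      exact Finset.sum_congr rfl fun u _ => by push_cast; ring
    rw [e1, ht_E_neg_fun] at h1
    linarith
  have h2 := hto_shift x A 0 c (fun h => ∑ u ∈ S, w u * (h u : ℝ))
  have e0 : (fun u => (0 : TV → ℤ) u + c) = fun _ => c := by funext u; simp
  rw [e0] at h2
  rw [h2]
  have e1 : (fun h : TV → ℤ => ∑ u ∈ S, w u * (((fun u => h u + c) u : ℤ) : ℝ))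
      = fun h => (∑ u ∈ S, w u * (h u : ℝ)) + (c * ∑ u ∈ S, w u) := by
    funext h
    rw [Finset.mul_sum, ← Finset.sum_add_distrib]
    exact Finset.sum_congr rfl fun u _ => by push_cast; ring
  rw [e1, ht_E_add, z, ht_E_const hx0 (ht_adm_zero A), zero_add]

theorem bdy_adm_flat (A : Finset TV) (c : ℤ) : HtAdm A (fun _ => c) (fun _ => c) :=
  ht_adm_self (fun _ _ _ _ => by simp)

/-- boundary values `≥ c` ⟹ mean of a nonnegative combination `≥ c ∑ w` -/
theorem bdy_mean_ge {x : ℝ} (hx0 : 0 < x) (hx1 : x ≤ 1) {A S : Finset TV} (hS : S ⊆ latCl A) {b : TV → ℤ} (hne : ∃ h, HtAdm A b h)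
    {c : ℤ} (hb : ∀ u ∈ latOut A, c ≤ b u) {w : TV → ℝ} (hw : ∀ u, 0 ≤ w u) :
    c * ∑ u ∈ S, w u ≤ htE x A b (fun h => ∑ u ∈ S, w u * (h u : ℝ)) := by
  rw [← bdy_mean_flat hx0 A S c w]
  exact bdy_order hx0 hx1 A hb ⟨_, bdy_adm_flat A c⟩ hne (bdy_lin_mono S hw) (bdy_lin_loc hS w)

/-- boundary values `≤ c` ⟹ mean of a nonnegative combination `≤ c ∑ w` -/
theorem bdy_mean_le {x : ℝ} (hx0 : 0 < x) (hx1 : x ≤ 1) {A S : Finset TV} (hS : S ⊆ latCl A) {b : TV → ℤ} (hne : ∃ h, HtAdm A b h)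
    {c : ℤ} (hb : ∀ u ∈ latOut A, b u ≤ c) {w : TV → ℝ} (hw : ∀ u, 0 ≤ w u) :
    htE x A b (fun h => ∑ u ∈ S, w u * (h u : ℝ)) ≤ c * ∑ u ∈ S, w u := by
  rw [← bdy_mean_flat hx0 A S c w]
  exact bdy_order hx0 hx1 A hb hne ⟨_, bdy_adm_flat A c⟩ (bdy_lin_mono S hw) (bdy_lin_loc hS w)

/-! ## 4. Independence of non adjacent free sets -/

theorem bdy_adm_sub {A' A : Finset TV} (hA : A' ⊆ A) {b g : TV → ℤ} (hg : HtAdm A b g) : HtAdm A' g g :=
  ⟨fun _ _ => rfl, fun u hu d hd => hg.2 u (hA hu) d hd⟩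

theorem bdy_disj_symm {M1 M2 : Finset TV} (h : Disjoint (latCl M1) M2) : Disjoint (latCl M2) M1 := by
  rw [Finset.disjoint_left] at h ⊢
  intro u hu hu1
  rcases lat_mem_cl.1 hu with h2 | ⟨v, hv, hvu⟩
  · exact h (lat_mem_cl.2 (Or.inl hu1)) h2
  · exact h (lat_mem_cl.2 (Or.inr ⟨u, hu1, lat_adj_symm hvu⟩)) hv

/-- the law in `M2` does not see the configuration in a non adjacent set `M1` -/
theorem bdy_split_aux (x : ℝ) {M1 M2 : Finset TV} (hdis : Disjoint (latCl M1) M2) {b g : TV → ℤ}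
    (hg : ∀ u, u ∉ M1 ∪ M2 → g u = b u) {G2 : (TV → ℤ) → ℝ}
    (h2 : ∀ h h' : TV → ℤ, (∀ u, u ∉ M1 → h' u = h u) → G2 h' = G2 h) : htE x M2 g G2 = htE x M2 b G2 := by
  have hd' := bdy_disj_symm hdis
  have hout : ∀ u ∈ latOut M2, u ∉ M1 ∪ M2 := by
    intro u hu
    rw [Finset.mem_union, not_or]
    exact ⟨fun hc => (Finset.disjoint_left.1 hd') (bdy_cl_eq.2 (Or.inr hu)) hc, (bdy_mem_out.1 hu).1⟩
  refine bdy_E_bc x M2 (fun u hu => hg u (hout u hu)) fun h h' hh hh' he => ?_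
  refine (h2 h h' fun u hu => ?_).symm
  by_cases hu2 : u ∈ M2
  · exact (he u hu2).symm
  · rw [hh.1 u hu2, hh'.1 u hu2, hg u (by simp [hu, hu2])]

/-- **independence of two non adjacent free sets** -/
theorem bdy_split {x : ℝ} (hx0 : 0 < x) {M1 M2 : Finset TV} (hdis : Disjoint (latCl M1) M2) {b : TV → ℤ}
    (hne : ∃ h, HtAdm (M1 ∪ M2) b h) (G1 G2 : (TV → ℤ) → ℝ)
    (h1 : ∀ h h' : TV → ℤ, (∀ u, u ∉ M2 → h' u = h u) → G1 h' = G1 h)
    (h2 : ∀ h h' : TV → ℤ, (∀ u, u ∉ M1 → h' u = h u) → G2 h' = G2 h) :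
    htE x (M1 ∪ M2) b (fun h => G1 h * G2 h) = htE x M1 b G1 * htE x M2 b G2 := by
  obtain ⟨h0, hh0⟩ := hne
  rw [← hto_dlr_mul hx0 (Finset.subset_union_right) b G2 G1 (fun g h hgh => h1 g h hgh)]
  have e1 : htE x (M1 ∪ M2) b (fun g => G1 g * htE x M2 g G2) = htE x (M1 ∪ M2) b (fun g => G1 g * htE x M2 b G2) :=
    ht_E_congr x _ _ fun g hg => by rw [bdy_split_aux x hdis hg.1 h2]
  rw [e1, ht_E_mul_const, ← hto_dlr hx0 (Finset.subset_union_left) b G1]
  have e2 : htE x (M1 ∪ M2) b (fun g => htE x M1 g G1) = htE x (M1 ∪ M2) b (fun _ => htE x M1 b G1) :=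
    ht_E_congr x _ _ fun g hg => by
      rw [bdy_split_aux x (bdy_disj_symm hdis) (by rw [Finset.union_comm]; exact hg.1) h1]
  rw [e2, ht_E_const hx0 hh0]

/-- **independence of finitely many pairwise non adjacent free sets**; `b` itself is 1-Lipschitz on the edges meeting the free sets -/
theorem bdy_split_prod {x : ℝ} (hx0 : 0 < x) {ι : Type*} [DecidableEq ι] (s : Finset ι) (M : ι → Finset TV) (b : TV → ℤ)
    (G : ι → (TV → ℤ) → ℝ) (hb : ∀ i ∈ s, ∀ u ∈ M i, ∀ d ∈ latDirs, |b (u + d) - b u| ≤ 1)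
    (hdis : ∀ i ∈ s, ∀ j ∈ s, i ≠ j → Disjoint (latCl (M i)) (M j))
    (hG : ∀ i ∈ s, ∀ j ∈ s, i ≠ j → ∀ h h' : TV → ℤ, (∀ u, u ∉ M j → h' u = h u) → G i h' = G i h) :
    htE x (s.biUnion M) b (fun h => ∏ i ∈ s, G i h) = ∏ i ∈ s, htE x (M i) b (G i) := by
  induction s using Finset.induction_on with
  | empty =>
    simp only [Finset.biUnion_empty, Finset.prod_empty]
    exact ht_E_const hx0 (h := b) ⟨fun _ _ => rfl, fun u hu => by simp at hu⟩ 1
  | insert i s hi ih =>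
    rw [Finset.biUnion_insert, Finset.prod_insert hi]
    have e : (fun h => ∏ j ∈ insert i s, G j h) = fun h => G i h * ∏ j ∈ s, G j h := by
      funext h; rw [Finset.prod_insert hi]
    rw [e]
    have hd : Disjoint (latCl (M i)) (s.biUnion M) := by
      rw [Finset.disjoint_biUnion_right]
      intro j hj
      exact hdis i (Finset.mem_insert_self _ _) j (Finset.mem_insert_of_mem hj) (fun hc => hi (hc ▸ hj))
    -- invariance of `G i` under changes inside the union: change one set after the other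
    have hinv : ∀ (t : Finset ι), t ⊆ s → ∀ h h' : TV → ℤ, (∀ u, u ∉ t.biUnion M → h' u = h u) → G i h' = G i h := by
      classical
      intro t
      induction t using Finset.induction_on with
      | empty =>
        intro _ h h' hh
        have : h' = h := funext fun u => hh u (by simp)
        rw [this]
      | insert j t hj iht =>
        intro hts h h' hh
        have hjs : j ∈ s := hts (Finset.mem_insert_self _ _)
        -- intermediate configuration
        have m1 := hG i (Finset.mem_insert_self _ _) j (Finset.mem_insert_of_mem hjs) (fun hc => hi (hc ▸ hjs))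
          (fun u => if u ∈ M j then h u else h' u) h' (fun u hu => by simp [hu])
        rw [m1]
        refine iht (fun a ha => hts (Finset.mem_insert_of_mem ha)) h _ fun u hu => ?_
        by_cases huj : u ∈ M j
        · simp [huj]
        · simp only [huj, if_false]
          refine hh u ?_
          rw [Finset.biUnion_insert, Finset.mem_union, not_or]
          exact ⟨huj, hu⟩
    rw [bdy_split hx0 hd ⟨b, ⟨fun _ _ => rfl, fun u hu d hd' => ?_⟩⟩ (G i) (fun h => ∏ j ∈ s, G j h) (hinv s le_rfl) ?_]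
    · rw [ih (fun j hj => hb j (Finset.mem_insert_of_mem hj))
        (fun j hj k hk => hdis j (Finset.mem_insert_of_mem hj) k (Finset.mem_insert_of_mem hk))
        (fun j hj k hk => hG j (Finset.mem_insert_of_mem hj) k (Finset.mem_insert_of_mem hk))]
    · intro h h' hh
      refine Finset.prod_congr rfl fun j hj => ?_
      exact hG j (Finset.mem_insert_of_mem hj) i (Finset.mem_insert_self _ _) (fun hc => hi (hc ▸ hj)) h h' hh
    · rcases Finset.mem_union.1 hu with h1 | h1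
      · exact hb i (Finset.mem_insert_self _ _) u h1 d hd'
      · obtain ⟨j, hj, huj⟩ := Finset.mem_biUnion.1 h1
        exact hb j (Finset.mem_insert_of_mem hj) u huj d hd'

/-! ## 5. Invasions -/

/-- one step of the invasion inside `U` through the passable sites `P`: leave a passable site -/
def bdyStep (U : Finset TV) (P : TV → Prop) (u v : TV) : Prop := triAdj u v ∧ P u ∧ u ∈ U ∧ v ∈ U

open Classical in
/-- **invasion** of `O` inside `U` through the passable sites `P`: the sites of `U` reached from `O` by walks all of whose sites except possibly the last one are passable.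
It contains its impassable rim. -/
noncomputable def bdyInv (U : Finset TV) (P : TV → Prop) (O : Finset TV) : Finset TV :=
  U.filter (fun v => ∃ o ∈ O, Relation.ReflTransGen (bdyStep U P) o v)

theorem bdy_mem_inv {U O : Finset TV} {P : TV → Prop} {v : TV} :
    v ∈ bdyInv U P O ↔ v ∈ U ∧ ∃ o ∈ O, Relation.ReflTransGen (bdyStep U P) o v := by
  classical
  unfold bdyInv
  rw [Finset.mem_filter]

theorem bdy_inv_sub (U O : Finset TV) (P : TV → Prop) : bdyInv U P O ⊆ U := fun _ h => (bdy_mem_inv.1 h).1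

theorem bdy_inv_seed {U O : Finset TV} {P : TV → Prop} {o : TV} (ho : o ∈ O) (hU : o ∈ U) : o ∈ bdyInv U P O :=
  bdy_mem_inv.2 ⟨hU, o, ho, Relation.ReflTransGen.refl⟩

/-- closure property -/
theorem bdy_inv_step {U O : Finset TV} {P : TV → Prop} {u v : TV} (hu : u ∈ bdyInv U P O) (hP : P u) (hv : v ∈ U)
    (huv : triAdj u v) : v ∈ bdyInv U P O := by
  obtain ⟨hU, o, ho, hr⟩ := bdy_mem_inv.1 hu
  exact bdy_mem_inv.2 ⟨hv, o, ho, hr.tail ⟨huv, hP, hU, hv⟩⟩

/-- the rim is impassable -/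
theorem bdy_inv_rim {U O : Finset TV} {P : TV → Prop} {u v : TV} (hu : u ∈ bdyInv U P O) (hv : v ∈ U)
    (hv' : v ∉ bdyInv U P O) (huv : triAdj u v) : ¬ P u := fun hP => hv' (bdy_inv_step hu hP hv huv)

/-- minimality -/
theorem bdy_inv_min {U O J : Finset TV} {P : TV → Prop} (hO : ∀ o ∈ O, o ∈ U → o ∈ J)
    (hJ : ∀ u ∈ J, P u → ∀ v ∈ U, triAdj u v → v ∈ J) : bdyInv U P O ⊆ J := by
  intro v hv
  obtain ⟨-, o, ho, hr⟩ := bdy_mem_inv.1 hv
  induction hr with
  | refl => exact hO o ho (bdy_mem_inv.1 hv).1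
  | @tail u w hr' hs ih =>
    exact hJ u (ih (bdy_mem_inv.2 ⟨hs.2.2.1, o, ho, hr'⟩)) hs.2.1 w hs.2.2.2 hs.1

/-- monotonicity in the passable set -/
theorem bdy_inv_mono {U O : Finset TV} {P Q : TV → Prop} (hPQ : ∀ u ∈ U, P u → Q u) : bdyInv U P O ⊆ bdyInv U Q O :=
  bdy_inv_min (fun _ ho hU => bdy_inv_seed ho hU) (fun u hu hP _ hv huv => bdy_inv_step hu (hPQ u (bdy_inv_sub _ _ _ hu) hP) hv huv)

/-- **an invasion is a stopping set**: it is determined by the passability of its own sites -/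
theorem bdy_inv_stop {U O : Finset TV} {P Q : TV → Prop} (h : ∀ u ∈ bdyInv U P O, (P u ↔ Q u)) : bdyInv U Q O = bdyInv U P O := by
  apply Finset.Subset.antisymm
  · exact bdy_inv_min (fun _ ho hU => bdy_inv_seed ho hU) (fun u hu hQ v hv huv => bdy_inv_step hu ((h u hu).2 hQ) hv huv)
  · intro v hv
    obtain ⟨-, o, ho, hr⟩ := bdy_mem_inv.1 hv
    induction hr with
    | refl => exact bdy_inv_seed ho (bdy_mem_inv.1 hv).1
    | @tail u w hr' hs ih =>
      have hu : u ∈ bdyInv U P O := bdy_mem_inv.2 ⟨hs.2.2.1, o, ho, hr'⟩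
      exact bdy_inv_step (ih hu) ((h u hu).1 hs.2.1) hs.2.2.2 hs.1

/-- union of seeds -/
theorem bdy_inv_union (U O O' : Finset TV) (P : TV → Prop) : bdyInv U P (O ∪ O') = bdyInv U P O ∪ bdyInv U P O' := by
  ext v
  rw [Finset.mem_union, bdy_mem_inv, bdy_mem_inv, bdy_mem_inv]
  constructor
  · rintro ⟨hU, o, ho, hr⟩
    rcases Finset.mem_union.1 ho with h | h
    · exact Or.inl ⟨hU, o, h, hr⟩
    · exact Or.inr ⟨hU, o, h, hr⟩
  · rintro (⟨hU, o, ho, hr⟩ | ⟨hU, o, ho, hr⟩)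
    · exact ⟨hU, o, Finset.mem_union_left _ ho, hr⟩
    · exact ⟨hU, o, Finset.mem_union_right _ ho, hr⟩

/-- every site of the invasion is joined to a seed inside the invasion -/
theorem bdy_inv_conn {U O : Finset TV} {P : TV → Prop} {v : TV} (hv : v ∈ bdyInv U P O) :
    ∃ o ∈ O, o ∈ U ∧ Relation.ReflTransGen (fun a c => triAdj a c ∧ a ∈ bdyInv U P O ∧ c ∈ bdyInv U P O) o v := by
  obtain ⟨-, o, ho, hr⟩ := bdy_mem_inv.1 hv
  induction hr with
  | refl => exact ⟨o, ho, (bdy_mem_inv.1 hv).1, Relation.ReflTransGen.refl⟩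
  | @tail u w hr' hs ih =>
    have hu : u ∈ bdyInv U P O := bdy_mem_inv.2 ⟨hs.2.2.1, o, ho, hr'⟩
    obtain ⟨o', ho', hU', hr''⟩ := ih hu
    exact ⟨o', ho', hU', hr''.tail ⟨hs.1, hu, hv⟩⟩

/-- **blocking**: a walk inside `U` which starts in the invasion and leaves it visits an impassable site of the invasion -/
theorem bdy_inv_block {U O : Finset TV} {P : TV → Prop} {a z : TV}
    (hw : Relation.ReflTransGen (fun u v => triAdj u v ∧ P u ∧ u ∈ U ∧ v ∈ U) a z) (ha : a ∈ bdyInv U P O) : z ∈ bdyInv U P O := by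
  induction hw with
  | refl => exact ha
  | tail _ hs ih => exact bdy_inv_step ih hs.2.1 hs.2.2.2 hs.1

/-! ### height invasions -/

/-- invasion through the sites of height `< k` -/
noncomputable def bdyLo (U : Finset TV) (k : ℤ) (O : Finset TV) (h : TV → ℤ) : Finset TV := bdyInv U (fun u => h u < k) O

/-- invasion through the sites of height `> k` -/
noncomputable def bdyHi (U : Finset TV) (k : ℤ) (O : Finset TV) (h : TV → ℤ) : Finset TV := bdyInv U (fun u => k < h u) O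

theorem bdy_lo_stop {U O : Finset TV} {k : ℤ} {h h' : TV → ℤ} (hh : ∀ u ∈ bdyLo U k O h, h' u = h u) : bdyLo U k O h' = bdyLo U k O h :=
  bdy_inv_stop (fun u hu => by rw [hh u hu])

theorem bdy_hi_stop {U O : Finset TV} {k : ℤ} {h h' : TV → ℤ} (hh : ∀ u ∈ bdyHi U k O h, h' u = h u) : bdyHi U k O h' = bdyHi U k O h :=
  bdy_inv_stop (fun u hu => by rw [hh u hu])

theorem bdy_lo_anti {U O : Finset TV} {k : ℤ} {h h' : TV → ℤ} (hh : ∀ u, h u ≤ h' u) : bdyLo U k O h' ⊆ bdyLo U k O h :=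
  bdy_inv_mono (fun u _ hu => lt_of_le_of_lt (hh u) hu)

theorem bdy_hi_mono {U O : Finset TV} {k : ℤ} {h h' : TV → ℤ} (hh : ∀ u, h u ≤ h' u) : bdyHi U k O h ⊆ bdyHi U k O h' :=
  bdy_inv_mono (fun u _ hu => lt_of_lt_of_le hu (hh u))

theorem bdy_lo_rim {U O : Finset TV} {k : ℤ} {h : TV → ℤ} {u v : TV} (hu : u ∈ bdyLo U k O h) (hv : v ∈ U) (hv' : v ∉ bdyLo U k O h)
    (huv : triAdj u v) : k ≤ h u := not_lt.1 (bdy_inv_rim hu hv hv' huv)

theorem bdy_hi_rim {U O : Finset TV} {k : ℤ} {h : TV → ℤ} {u v : TV} (hu : u ∈ bdyHi U k O h) (hv : v ∈ U) (hv' : v ∉ bdyHi U k O h)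
    (huv : triAdj u v) : h u ≤ k := not_lt.1 (bdy_inv_rim hu hv hv' huv)

theorem bdy_hinv_eqns_cite : True := by
  have := @bdyRe.eq_1; have := @bdyStep.eq_1; have := @bdyInv.eq_1; have := @bdyLo.eq_1; have := @bdyHi.eq_1
  trivial

end Claimed.Agent.R291
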