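/-
# Row 291 (S0539), unit BDY, file Bdy/Mom.lean            OWNER: helper176

TEX[prop:boundary-moments] (fixed interior spectators) = `LimBD`  and  TEX[prop:bracket-collapse] (upper bracket) = `BdyCol`,
from  [ARCH] `BdyArch` (128/173),  [SM] `LimSM` (122),  the cluster flip (Bdy/Flip),  height order (Dis/HtOrd, only for the second moment with a trace)  and the geometry of FRZ (Geo/*).

* Part 0  localisation of face weights, small tools
* Part 1  `bdy_sm_depth` (TEX eq. boundary:uniform-depth-moments, 4th moment), `bdy_bd : BdyArch → LimSM → LimBD`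
* Part 2  `bdy_sm_trace` (second moment with a trace in [0,1]), `bdy_col : BdyArch → LimSM → BdyCol`
-/
import Claimed.Agent.R291.Bdy.Flip
import Claimed.Agent.R291.Lim.Sm
import Claimed.Agent.R291.Dis.HtOrd

set_option autoImplicit false
set_option linter.unusedSectionVars false
set_option linter.unusedVariables false
set_option linter.unnecessarySeqFocus false

namespace Claimed.Agent.R291

open MeasureTheory Filter Topology Set
open Claims Claims.C0467

/-! ## Part 0 : tools -/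

/-- a face weight vanishes if the function vanishes on the face. -/
theorem bdy_latW_zero {δ : ℝ} {g : ℝ × ℝ → ℝ} {u : TV} (h : ∀ y ∈ hexFace δ u, g y = 0) : latW δ g u = 0 := by
  unfold latW
  exact setIntegral_eq_zero_of_forall_eq_zero h

theorem bdy_latW_nonneg {δ : ℝ} {g : ℝ × ℝ → ℝ} (hg : ∀ y, 0 ≤ g y) (u : TV) : 0 ≤ latW δ g u := by
  unfold latW
  exact integral_nonneg hg

theorem bdy_mem_in_of_dist {δ r : ℝ} {p : ℝ × ℝ} {u : TV} (hr : 0 < r) (h : dist (triPos δ u) p ≤ r / 2) :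
    u ∈ bdyIn δ p r := by
  have h1 := hg_sqDist_le_dist_sq (triPos δ u) p
  have h2 : dist (triPos δ u) p ^ 2 ≤ (r / 2) ^ 2 := pow_le_pow_left₀ dist_nonneg h 2
  show sqDist (triPos δ u) p < r ^ 2
  nlinarith

theorem bdy_dist_of_not_out {δ R : ℝ} {p : ℝ × ℝ} {u : TV} (hR : 0 < R) (h : u ∉ bdyOut δ p R) :
    dist (triPos δ u) p < R := by
  have h0 : sqDist (triPos δ u) p < R ^ 2 := not_le.mp h
  have h1 := hg_dist_sq_le_sqDist (triPos δ u) p
  exact (abs_lt_of_sq_lt_sq' (lt_of_le_of_lt h1 h0) hR.le).2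

/-- the weights of a function carried by `closedBall z s` live on `bdyIn δ p r` as soon as `δ + s + dist z p ≤ r/2`. -/
theorem bdy_latW_in {δ r s : ℝ} (hδ : 0 < δ) (hr : 0 < r) {p z : ℝ × ℝ} {g : ℝ × ℝ → ℝ}
    (hg : ∀ y, s < dist y z → g y = 0) (h : δ + s + dist z p ≤ r / 2) {u : TV} (hu : latW δ g u ≠ 0) :
    u ∈ bdyIn δ p r := by
  by_contra hc
  refine hu (bdy_latW_zero fun y hy => hg y ?_)
  by_contra hys
  refine hc (bdy_mem_in_of_dist hr ?_)
  have h1 : dist (triPos δ u) y ≤ δ := by rw [dist_comm]; exact hg_dist_center_le hδ hy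
  have h2 := dist_triangle (triPos δ u) y p
  have h3 := dist_triangle y z p
  linarith [not_lt.mp hys]

/-- the weights of a function vanishing on `ball p (2R)` live on `bdyOut δ p R` as soon as `δ ≤ R`. -/
theorem bdy_latW_out {δ R : ℝ} (hδ : 0 < δ) (hR : 0 < R) (hδR : δ ≤ R) {p : ℝ × ℝ} {f : ℝ × ℝ → ℝ}
    (hf : ∀ y, dist y p < 2 * R → f y = 0) {u : TV} (hu : u ∉ bdyOut δ p R) : latW δ f u = 0 := by
  refine bdy_latW_zero fun y hy => hf y ?_
  have h1 : dist y (triPos δ u) ≤ δ := hg_dist_center_le hδ hy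
  have h2 := dist_triangle y (triPos δ u) p
  have h3 := bdy_dist_of_not_out hR hu
  linarith

/-- a finite family of positive numbers has a positive lower bound. -/
theorem bdy_fin_pos {α : Type*} (t : Finset α) (r : α → ℝ) (h : ∀ p ∈ t, 0 < r p) :
    ∃ a : ℝ, 0 < a ∧ ∀ p ∈ t, a ≤ r p := by
  classical
  induction t using Finset.induction_on with
  | empty => exact ⟨1, one_pos, fun p hp => absurd hp (Finset.notMem_empty p)⟩
  | insert q t hq ih =>
    obtain ⟨a, ha, hat⟩ := ih fun p hp => h p (Finset.mem_insert_of_mem hp)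
    refine ⟨min a (r q), lt_min ha (h q (Finset.mem_insert_self q t)), fun p hp => ?_⟩
    rcases Finset.mem_insert.mp hp with rfl | hp
    · exact min_le_right _ _
    · exact (min_le_left _ _).trans (hat p hp)

/-- crude substitute for Hölder: a product of `k ≥ 1` nonnegative numbers is at most the sum of their `k`-th powers. -/
theorem bdy_prod_le_sum_pow {k : ℕ} (y : Fin k → ℝ) (hy : ∀ i, 0 ≤ y i) (hk : 0 < k) :
    ∏ i, y i ≤ ∑ i, y i ^ k := by
  have : Nonempty (Fin k) := ⟨⟨0, hk⟩⟩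
  obtain ⟨j, -, hj⟩ := Finset.exists_max_image (Finset.univ : Finset (Fin k)) y Finset.univ_nonempty
  calc ∏ i, y i ≤ ∏ _i : Fin k, y j := Finset.prod_le_prod (fun i _ => hy i) fun i _ => hj i (Finset.mem_univ i)
    _ = y j ^ k := by simp
    _ ≤ ∑ i, y i ^ k := Finset.single_le_sum (f := fun i => y i ^ k) (fun i _ => pow_nonneg (hy i) k) (Finset.mem_univ j)

/-- a compact subset of the open set `D` is at a positive distance of the frontier. -/
theorem bdy_clearance {D K : Set (ℝ × ℝ)} (hD : IsOpen D) (hK : IsCompact K) (hKD : K ⊆ D) :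
    ∃ R : ℝ, 0 < R ∧ ∀ p ∈ frontier D, ∀ y ∈ K, 2 * R ≤ dist y p := by
  obtain ⟨r, hr, hrD⟩ := hK.exists_cthickening_subset_open hD hKD
  refine ⟨r / 2, by positivity, fun p hp y hy => ?_⟩
  by_contra hc
  have h1 : p ∈ Metric.cthickening r K :=
    Metric.mem_cthickening_of_dist_le p y r K hy (by rw [dist_comm]; linarith [not_le.mp hc])
  have h2 : p ∈ D := hrD h1
  have h3 : p ∉ interior D := (mem_sdiff p).mp hp |>.2
  rw [hD.interior_eq] at h3
  exact h3 h2

theorem bdy_negX_neg {h : TV → ℤ} {A T : Set TV} :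
    BdyPosX triAdj (fun u => - h u) A T ↔ BdyNegX triAdj h A T := by
  have e : (fun a => 1 ≤ (fun u => - h u) a) = fun a => h a ≤ -1 := by
    funext a
    simp only [eq_iff_iff]
    omega
  unfold BdyNegX BdyPosX
  rw [e]

open Classical in
/-- zero boundary values: positive and negative walks have the same probability. -/
theorem bdy_posX_zero (x : ℝ) (Λ : Finset TV) (A T : Set TV) :
    htP x Λ 0 (fun h => BdyPosX triAdj h A T) = htP x Λ 0 (fun h => BdyNegX triAdj h A T) := by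
  unfold htP
  have h1 := hto_neg x Λ 0 (fun h => if BdyPosX triAdj h A T then (1 : ℝ) else 0)
  have e0 : (fun u : TV => - (0 : TV → ℤ) u) = 0 := by funext u; simp
  rw [e0] at h1
  rw [h1]
  refine congrArg _ ?_
  funext h
  simp only [bdy_negX_neg]

/-! ## Part 1 : [BD] -/

/-- the open sup-ball of radius `limDep D z` about `z ∈ D` lies in `D`. -/
theorem bdy_ball_dep {D : Set (ℝ × ℝ)} (hB : Bornology.IsBounded D) {z : ℝ × ℝ} (hz : z ∈ D) :
    Metric.ball z (limDep D z) ⊆ D := by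
  have hne : D ≠ univ := by
    intro h
    rw [h] at hB
    exact (NormedSpace.unbounded_univ ℝ (ℝ × ℝ)) hB
  obtain ⟨y, hy, hyd⟩ := exists_mem_frontier_infDist_compl_eq_dist hz hne
  have h1 : limDep D z ≤ Metric.infDist z Dᶜ := by
    rw [hyd]
    exact Metric.infDist_le_dist_of_mem hy
  exact (Metric.ball_subset_ball h1).trans Metric.ball_infDist_compl_subset

/-- scale invariant variant of `lim_sm_w_core` (helper172): the logarithm is `log (R/r)`. -/
theorem bdy_sm_core {x : ℝ} {m : ℕ} {C1 c0 : ℝ} (hC1 : 0 < C1) (hc0 : 0 < c0)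
    (hSM : ∀ (F : Finset TV) (u0 : TV) (a N N' : ℕ) (w : TV → ℝ),
      LimCoConn F → 1 ≤ a → (a : ℝ) ≤ c0 * N → latBall u0 N ⊆ F → ¬ latBall u0 N' ⊆ F →
      (∀ u, |w u| ≤ 1 / (a : ℝ) ^ 2) →
      htFz x F (fun h => (∑ u ∈ latBall u0 a, w u * (h u : ℝ)) ^ (2 * m))
        ≤ C1 * (1 + Real.log (N' / a)) ^ m)
    {F : Finset TV} (hco : LimCoConn F) {d c R r : ℝ} (hd : 0 < d) (hc : 0 < c) (hR : 0 < R)
    (hr : 0 < r) (hdr : d ≤ r) (hdc : d ≤ c / 2) (hdR : d ≤ R)
    (hrc : 10 * r ≤ c0 * c) (hrc' : 6 * r ≤ c) {u0 : TV} {z : ℝ × ℝ} (hz : z ∈ hexFace d u0)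
    (hin : ∀ N : ℕ, (N : ℝ) * d ≤ c → latBall u0 N ⊆ F)
    (hout : ∀ N : ℕ, R ≤ (N : ℝ) * d → ¬ latBall u0 N ⊆ F)
    {M : ℝ} {w : TV → ℝ} (hw : ∀ u, |w u| ≤ M * d ^ 2)
    (hw0 : ∀ u, triPos d u ∉ wkBall z r → w u = 0) :
    htFz x F (fun h => (∑ u ∈ latInt F, w u * (h u : ℝ)) ^ (2 * m)) ≤
      C1 * 25 ^ (2 * m) * (M * r ^ 2) ^ (2 * m) * (1 + Real.log (R / r)) ^ m := by
  obtain ⟨a, N, N', ha1, ha2, ha3, hN, haN, hN'1, hN'2⟩ :=
    lim_sm_radii hd hc hR hr hc0 hdr hdc hdR hrc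
  have hd2 : 0 < d ^ 2 := by positivity
  have hM : 0 ≤ M := by
    have := (abs_nonneg _).trans (hw u0)
    by_contra hc
    push Not at hc
    nlinarith
  have ha0 : (0 : ℝ) < a := by exact_mod_cast ha1
  have hsubF : latBall u0 (a + 1) ⊆ F := hin (a + 1) (by push_cast; nlinarith)
  have hsub : latBall u0 a ⊆ latInt F := hg_latBall_subset_latInt hsubF
  have haN' : a < N' := by
    by_contra hcon
    push Not at hcon
    exact hout N' hN'1 ((hg_latBall_mono u0 (hcon.trans (Nat.le_succ a))).trans hsubF)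
  have haN'' : (a : ℝ) < N' := by exact_mod_cast haN'
  have hl1 : 1 ≤ (N' : ℝ) / a := by rw [le_div_iff₀ ha0]; linarith
  have hl0 : 0 ≤ Real.log (N' / a) := Real.log_nonneg hl1
  have hl3 : (N' : ℝ) / a ≤ R / r := by
    rw [div_le_div_iff₀ ha0 hr]
    have e1 : (N' : ℝ) * r * d ≤ R * a * d := by nlinarith
    exact le_of_mul_le_mul_right e1 hd
  have hl4 : Real.log (N' / a) ≤ Real.log (R / r) := Real.log_le_log (by linarith) hl3
  set s : ℝ := M * d ^ 2 * (a : ℝ) ^ 2 with hs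
  have hs0 : 0 ≤ s := by positivity
  have hs25 : s ≤ 25 * (M * r ^ 2) := by
    have e1 : ((a : ℝ) * d) ^ 2 ≤ (5 * r) ^ 2 := pow_le_pow_left₀ (by positivity) ha3 2
    have e2 : s = M * ((a : ℝ) * d) ^ 2 := by rw [hs]; ring
    rw [e2]
    nlinarith [mul_le_mul_of_nonneg_left e1 hM]
  have hws : ∀ u, w u = s * (w u / s) := by
    intro u
    rcases hs0.eq_or_lt with h0 | h0
    · have e1 : M * d ^ 2 = 0 := by
        have : M * d ^ 2 * (a : ℝ) ^ 2 = 0 := by rw [← hs]; exact h0.symm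
        rcases mul_eq_zero.1 this with h | h
        · exact h
        · exact absurd h (by positivity)
      have e2 : w u = 0 := by
        have := hw u
        rw [e1] at this
        exact abs_eq_zero.1 (le_antisymm this (abs_nonneg _))
      rw [e2]; simp
    · field_simp
  have hw' : ∀ u, |w u / s| ≤ 1 / (a : ℝ) ^ 2 := by
    intro u
    rcases hs0.eq_or_lt with h0 | h0
    · rw [← h0]; simp
    · rw [abs_div, abs_of_pos h0, div_le_div_iff₀ h0 (by positivity)]
      have := hw u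
      rw [hs]
      nlinarith [mul_le_mul_of_nonneg_right this (by positivity : (0:ℝ) ≤ (a : ℝ) ^ 2)]
  have hfun : (fun h : TV → ℤ => (∑ u ∈ latInt F, w u * (h u : ℝ)) ^ (2 * m)) =
      fun h => s ^ (2 * m) * (∑ u ∈ latBall u0 a, (w u / s) * (h u : ℝ)) ^ (2 * m) := by
    funext h
    rw [← mul_pow, Finset.mul_sum]
    congr 1
    rw [← Finset.sum_subset hsub]
    · refine Finset.sum_congr rfl fun u _ => ?_
      rw [← mul_assoc, ← hws u]
    · intro u _ hu
      have : w u = 0 := by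
        apply hw0
        intro hmem
        apply hu
        rw [lat_mem_ball]
        have h1 := hg_face_meets_disc hd hr.le hz (hg_center_mem d u) hmem
        have h2 : d * (latN (u - u0) : ℝ) ≤ d * a := by linarith
        have h3 : (latN (u - u0) : ℝ) ≤ a := le_of_mul_le_mul_left h2 hd
        exact_mod_cast h3
      rw [this, zero_mul]
  rw [hfun]
  unfold htFz
  rw [ht_E_smul]
  have h1 := hSM F u0 a N N' (fun u => w u / s) hco ha1 haN (hin N hN) (hout N' hN'1) hw'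
  unfold htFz at h1
  have h2 : s ^ (2 * m) ≤ 25 ^ (2 * m) * (M * r ^ 2) ^ (2 * m) := by
    rw [← mul_pow]; exact pow_le_pow_left₀ hs0 hs25 _
  have h3 : (1 + Real.log (N' / a)) ^ m ≤ (1 + Real.log (R / r)) ^ m :=
    pow_le_pow_left₀ (by linarith) (by linarith) _
  have h4 : 0 ≤ (1 + Real.log (N' / a)) ^ m := pow_nonneg (by linarith) _
  calc s ^ (2 * m) * htE x (latInt F) 0
        (fun h => (∑ u ∈ latBall u0 a, w u / s * (h u : ℝ)) ^ (2 * m))
      ≤ s ^ (2 * m) * (C1 * (1 + Real.log (N' / a)) ^ m) :=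
        mul_le_mul_of_nonneg_left h1 (by positivity)
    _ ≤ (25 ^ (2 * m) * (M * r ^ 2) ^ (2 * m)) * (C1 * (1 + Real.log (R / r)) ^ m) := by
        apply mul_le_mul h2 (mul_le_mul_of_nonneg_left h3 hC1.le) (by positivity) (by positivity)
    _ = _ := by ring

/-- TEX eq. (boundary:uniform-depth-moments), fourth moment, at finite mesh: a test of size `M` carried by the disc of radius `θ · depth` has a fourth moment `≤ C (M depth²)⁴`,
`C` INDEPENDENT of `z` (the threshold in `n` depends on `z`).  Radii (`d = limDep D z`): inner `c = d/2`, outer `R = 4 d`, test `r = 2 θ d`, `θ = min (1/24) (c₀/40)`. -/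
theorem bdy_sm_depth {x : ℝ} (hx : 0 < x) (hSM : LimSM x) {D : Set (ℝ × ℝ)} (hD : IsOpen D) (hB : Bornology.IsBounded D)
    {δ : ℕ → ℝ} {F : ℕ → Finset TV} (hF : IsInsideApprox D δ F) :
    ∃ θ C : ℝ, 0 < θ ∧ θ ≤ 1 / 4 ∧ 0 < C ∧ ∀ z ∈ D, ∀ᶠ n in atTop, ∀ (M : ℝ) (g : ℝ × ℝ → ℝ),
      (∀ y, |g y| ≤ M) → (∀ y, y ∉ wkBall z (θ * limDep D z) → g y = 0) →
      htFz x (F n) (fun h => htSm (δ n) (F n) g h ^ 4) ≤ C * (M * limDep D z ^ 2) ^ 4 := by
  obtain ⟨C1, c0, hC1, hc0, hSM'⟩ := hSM 2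
  set θ : ℝ := min (1 / 24) (c0 / 40) with hθdef
  have hθ : 0 < θ := lt_min (by norm_num) (by positivity)
  have hθ1 : θ ≤ 1 / 24 := min_le_left _ _
  have hθ2 : θ ≤ c0 / 40 := min_le_right _ _
  have hlog : 0 ≤ Real.log (2 / θ) := Real.log_nonneg (by rw [le_div_iff₀ hθ]; linarith)
  refine ⟨θ, C1 * 25 ^ (2 * 2) * (1 + Real.log (2 / θ)) ^ 2, hθ, by linarith, by positivity, fun z hz => ?_⟩
  by_cases hfr : (frontier D).Nonempty
  swap
  · -- no frontier: impossible for a bounded nonempty open set, but then `limDep = 0` and `g = 0` off a point... we use `bdy_ball_dep`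
    exfalso
    have hne : D ≠ univ := by
      intro h
      rw [h] at hB
      exact (NormedSpace.unbounded_univ ℝ (ℝ × ℝ)) hB
    obtain ⟨y, hy, -⟩ := exists_mem_frontier_infDist_compl_eq_dist hz hne
    exact hfr ⟨y, hy⟩
  set dep : ℝ := limDep D z with hdep
  have hd0 : 0 < dep := by
    have hzf : z ∉ frontier D := fun h => by
      have := ((mem_sdiff z).mp h).2
      rw [hD.interior_eq] at this
      exact this hz
    exact (isClosed_frontier.notMem_iff_infDist_pos hfr).mp hzf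
  obtain ⟨q, hq, hqd⟩ := isClosed_frontier.exists_infDist_eq_dist hfr z
  have hqd' : dist z q = dep := hqd.symm
  have hqD : q ∉ D := fun h => by
    have := ((mem_sdiff q).mp hq).2
    rw [hD.interior_eq] at this
    exact this h
  have hKc : IsCompact (Metric.closedBall z (3 * dep / 4)) := isCompact_closedBall z _
  have hKD : Metric.closedBall z (3 * dep / 4) ⊆ D :=
    (Metric.closedBall_subset_ball (by linarith)).trans (bdy_ball_dep hB hz)
  have e1 : ∀ᶠ n in atTop, δ n < θ * dep := hF.2.1.eventually (gt_mem_nhds (by positivity))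
  filter_upwards [hF.2.2.2.1 _ hKc hKD, e1] with n hn1 hn2 M g hg hg0
  have hδ := hF.1 n
  have hM : 0 ≤ M := (abs_nonneg _).trans (hg 0)
  obtain ⟨u0, hu0⟩ := hg_cover hδ z
  have hθd : θ * dep ≤ dep / 24 := by nlinarith
  have hin : ∀ N : ℕ, (N : ℝ) * δ n ≤ dep / 2 → latBall u0 N ⊆ F n := by
    intro N hN u hu
    refine hg_mem_of_center_mem hδ (hn1 ?_)
    rw [Metric.mem_closedBall]
    have a1 : dist (triPos (δ n) u) (triPos (δ n) u0) ≤ δ n * latN (u - u0) :=
      (hg_dist_le_E _ _).trans (hg_E_le_latN hδ u u0)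
    have a2 : (latN (u - u0) : ℝ) ≤ N := by exact_mod_cast lat_mem_ball.mp hu
    have a3 : dist (triPos (δ n) u0) z ≤ δ n := by rw [dist_comm]; exact hg_dist_center_le hδ hu0
    have a4 := dist_triangle (triPos (δ n) u) (triPos (δ n) u0) z
    have a5 : δ n * latN (u - u0) ≤ δ n * N := mul_le_mul_of_nonneg_left a2 hδ.le
    nlinarith
  have hout : ∀ N : ℕ, 4 * dep ≤ (N : ℝ) * δ n → ¬ latBall u0 N ⊆ F n := by
    intro N hN hsub
    have hqr : q ∉ faceRegion (δ n) (F n) := fun h => hqD (hF.2.2.1 n h)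
    rw [hg_mem_faceRegion_iff hδ] at hqr
    push Not at hqr
    obtain ⟨v, hv1, hv2⟩ := hqr
    refine hv2 (hsub (lat_mem_ball.mpr ?_))
    have b1 : sqDist q z ≤ (3 * dep / 2) ^ 2 := by
      have := hg_sqDist_le_dist_sq q z
      rw [dist_comm, hqd'] at this
      nlinarith
    have b2 := hg_face_meets_disc hδ (by positivity : (0 : ℝ) ≤ 3 * dep / 2) hu0 hv1 b1
    have b3 : δ n * (latN (v - u0) : ℝ) ≤ δ n * N := by nlinarith
    have b4 : (latN (v - u0) : ℝ) ≤ N := le_of_mul_le_mul_left b3 hδ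
    exact_mod_cast b4
  have core := bdy_sm_core (m := 2) hC1 hc0 hSM' (fun u v hu hv => hg_compl_reach hF n hu hv) hδ
    (by positivity : (0 : ℝ) < dep / 2) (by positivity : (0 : ℝ) < 4 * dep) (by positivity : (0 : ℝ) < 2 * (θ * dep))
    (by linarith) (by nlinarith) (by nlinarith) (by nlinarith) (by nlinarith) hu0 hin hout
    (M := M) (w := latW (δ n) g)
    (fun u => by
      refine (hg_abs_latW_le hδ u hg).trans ?_
      have : Real.sqrt 3 / 2 ≤ 1 := by
        have : Real.sqrt 3 ≤ 2 := by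
          rw [show (2 : ℝ) = Real.sqrt 4 by
            rw [show (4 : ℝ) = 2 ^ 2 by norm_num]; exact (Real.sqrt_sq (by norm_num)).symm]
          exact Real.sqrt_le_sqrt (by norm_num)
        linarith
      have h2 : Real.sqrt 3 / 2 * δ n ^ 2 ≤ 1 * δ n ^ 2 :=
        mul_le_mul_of_nonneg_right this (by positivity)
      nlinarith [mul_le_mul_of_nonneg_left h2 hM])
    (fun u hu => by
      apply hg_latW_eq_zero
      intro y hy
      apply hg0
      intro hy'
      apply hu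
      have a1 : hgE (triPos (δ n) u) z ≤ 2 * (θ * dep) := by
        have t := hg_E_triangle (triPos (δ n) u) y z
        have t1 := hg_E_face_le hδ hy
        rw [hg_E_comm] at t1
        have t2 : hgE y z ≤ θ * dep := (hg_E_le_iff (by positivity)).2 hy'
        linarith
      exact (hg_E_le_iff (by positivity)).1 a1)
  have h2 : (fun h : TV → ℤ => htSm (δ n) (F n) g h ^ 4) =
      fun h => (∑ u ∈ latInt (F n), latW (δ n) g u * (h u : ℝ)) ^ (2 * 2) := rfl
  rw [h2]
  refine core.trans ?_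
  have eR : 4 * dep / (2 * (θ * dep)) = 2 / θ := by field_simp; ring
  rw [eR]
  have hsm : (M * (2 * (θ * dep)) ^ 2) ^ (2 * 2) ≤ (M * dep ^ 2) ^ 4 := by
    refine pow_le_pow_left₀ (by positivity) ?_ 4
    refine mul_le_mul_of_nonneg_left ?_ hM
    refine pow_le_pow_left₀ (by positivity) ?_ 2
    nlinarith
  calc C1 * 25 ^ (2 * 2) * (M * (2 * (θ * dep)) ^ 2) ^ (2 * 2) * (1 + Real.log (2 / θ)) ^ 2
      ≤ C1 * 25 ^ (2 * 2) * (M * dep ^ 2) ^ 4 * (1 + Real.log (2 / θ)) ^ 2 := by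
        refine mul_le_mul_of_nonneg_right ?_ (by positivity)
        exact mul_le_mul_of_nonneg_left hsm (by positivity)
    _ = _ := by ring

/-- fourth moment of a product of fixed interior spectators. -/
theorem bdy_pi_mom {x : ℝ} (hx : 0 < x) (hSM : LimSM x) {D : Set (ℝ × ℝ)} (hD : IsOpen D) (hB : Bornology.IsBounded D)
    {δ : ℕ → ℝ} {F : ℕ → Finset TV} (hF : IsInsideApprox D δ F) {k : ℕ} (f : Fin k → ℝ × ℝ → ℝ) (hf : ∀ i, WkTest D (f i)) :
    ∃ B : ℝ, 0 ≤ B ∧ ∀ᶠ n in atTop, htFz x (F n) (fun h => (∏ i, htSm (δ n) (F n) (f i) h) ^ 4) ≤ B := by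
  rcases Nat.eq_zero_or_pos k with rfl | hk
  · refine ⟨1, zero_le_one, Eventually.of_forall fun n => ?_⟩
    simpa [htFz] using ht_E_one_le hx (latInt (F n)) 0
  have hK : IsCompact (⋃ i, tsupport (f i)) := isCompact_iUnion fun i => (hf i).comp
  have hKD : (⋃ i, tsupport (f i)) ⊆ D := iUnion_subset fun i => (hf i).sub
  obtain ⟨C, hC, hev⟩ := lim_sm_fixed hx hSM hD hB hF hK hKD (2 * k)
  choose M hM using fun i => (hf i).comp.exists_bound_of_continuous (hf i).cont
  refine ⟨∑ i, C * M i ^ (2 * (2 * k)), Finset.sum_nonneg fun i _ => by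
    have : 0 ≤ M i ^ (2 * (2 * k)) := by rw [pow_mul]; positivity
    positivity, ?_⟩
  filter_upwards [hev] with n hn
  have h1 : ∀ i, htFz x (F n) (fun h => htSm (δ n) (F n) (f i) h ^ (2 * (2 * k))) ≤ C * M i ^ (2 * (2 * k)) := fun i =>
    hn (M i) (f i) (fun y => by simpa using hM i y) fun y hy => by
      by_contra hne
      exact hy (mem_iUnion.mpr ⟨i, subset_tsupport _ hne⟩)
  calc htFz x (F n) (fun h => (∏ i, htSm (δ n) (F n) (f i) h) ^ 4)
      ≤ htFz x (F n) (fun h => ∑ i, htSm (δ n) (F n) (f i) h ^ (2 * (2 * k))) := by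
        refine ht_E_mono hx _ _ fun h _ => ?_
        rw [← Finset.prod_pow]
        refine (bdy_prod_le_sum_pow (fun i => htSm (δ n) (F n) (f i) h ^ 4) (fun i => by positivity) hk).trans
          (le_of_eq (Finset.sum_congr rfl fun i _ => ?_))
        rw [← pow_mul]
        congr 1
        ring
    _ = ∑ i, htFz x (F n) (fun h => htSm (δ n) (F n) (f i) h ^ (2 * (2 * k))) := ht_E_sum x _ _ _ _
    _ ≤ _ := Finset.sum_le_sum fun i _ => h1 i

/-- one mesh, one centre: the flip + Cauchy-Schwarz.  `Y` = smeared field of `g ≥ 0` whose weights live on `bdyIn p r`, the weights of the spectators live on `bdyOut p R`. -/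
theorem bdy_bd_step {x : ℝ} (hx : 0 < x) (δ : ℝ) (F : Finset TV) (p : ℝ × ℝ) (r R : ℝ) {k : ℕ} (f : Fin k → ℝ × ℝ → ℝ)
    (g : ℝ × ℝ → ℝ) (hg0 : ∀ y, 0 ≤ g y) (hgin : ∀ u, latW δ g u ≠ 0 → u ∈ bdyIn δ p r)
    (hfout : ∀ i u, u ∉ bdyOut δ p R → latW δ (f i) u = 0) {ε BY BP : ℝ}
    (harch : htP x (latInt F) 0 (fun h => BdyNegX triAdj h (bdyOut δ p R) (bdyIn δ p r)) ≤ ε)
    (hY : htFz x F (fun h => htSm δ F g h ^ 4) ≤ BY) (hP : htFz x F (fun h => (∏ i, htSm δ F (f i) h) ^ 4) ≤ BP) :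
    (htFz x F fun h => htSm δ F g h * ∏ i, htSm δ F (f i) h) ^ 2 ≤ (BY + BP) * ε := by
  classical
  set Λ := latInt F with hΛ
  set s := Λ.filter (fun u => latW δ g u ≠ 0) with hs
  have hYs : ∀ h : TV → ℤ, htSm δ F g h = ∑ u ∈ s, latW δ g u * (h u : ℝ) := by
    intro h
    unfold htSm latPair
    rw [hs, Finset.sum_filter_of_ne]
    intro u _ hne hz
    exact hne (by rw [hz, zero_mul])
  have hPi : ∀ h h' : TV → ℤ, (∀ v ∈ bdyOut δ p R, h v = h' v) →
      (∏ i, htSm δ F (f i) h) = ∏ i, htSm δ F (f i) h' := by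
    intro h h' hh
    refine Finset.prod_congr rfl fun i _ => ?_
    unfold htSm latPair
    refine Finset.sum_congr rfl fun u _ => ?_
    by_cases hu : u ∈ bdyOut δ p R
    · rw [hh u hu]
    · rw [hfout i u hu, zero_mul, zero_mul]
  have core := bdy_ht_core hx.le Λ 0 (bdyOut δ p R) (bdyIn δ p r) (fun _ _ _ => rfl)
    (fun h => ∏ i, htSm δ F (f i) h) hPi s (latW δ g) (fun u _ => bdy_latW_nonneg hg0 u)
    (fun u hu => hgin u (Finset.mem_filter.mp hu).2)
  rw [bdy_posX_zero] at core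
  have e1 : (htFz x F fun h => htSm δ F g h * ∏ i, htSm δ F (f i) h)
      = htE x Λ 0 (fun h => (∏ i, htSm δ F (f i) h) * ∑ u ∈ s, latW δ g u * (h u : ℝ)) := by
    unfold htFz
    refine congrArg _ ?_
    funext h
    rw [hYs h, mul_comm]
  have e2 : htE x Λ 0 (fun h => ((∏ i, htSm δ F (f i) h) * ∑ u ∈ s, latW δ g u * (h u : ℝ)) ^ 2) ≤ (BY + BP) / 2 := by
    have h1 : htE x Λ 0 (fun h => ((∏ i, htSm δ F (f i) h) * ∑ u ∈ s, latW δ g u * (h u : ℝ)) ^ 2)
        ≤ htE x Λ 0 (fun h => (1 / 2) * (htSm δ F g h ^ 4 + (∏ i, htSm δ F (f i) h) ^ 4)) := by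
      refine ht_E_mono hx _ _ fun h _ => ?_
      rw [← hYs h]
      nlinarith [sq_nonneg ((∏ i, htSm δ F (f i) h) ^ 2 - htSm δ F g h ^ 2)]
    rw [ht_E_smul, ht_E_add] at h1
    unfold htFz at hY hP
    linarith
  have hP0 : 0 ≤ htP x Λ 0 (fun h => BdyNegX triAdj h (bdyOut δ p R) (bdyIn δ p r)) := ht_P_nonneg hx _ _ _
  have hE0 : 0 ≤ htE x Λ 0 (fun h => ((∏ i, htSm δ F (f i) h) * ∑ u ∈ s, latW δ g u * (h u : ℝ)) ^ 2) :=
    ht_E_nonneg hx _ _ fun h _ => sq_nonneg _
  rw [e1]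
  refine core.trans ?_
  have hB0 : 0 ≤ (BY + BP) / 2 := hE0.trans e2
  calc _ ≤ (BY + BP) / 2 * (ε + ε) := mul_le_mul e2 (add_le_add harch harch) (add_nonneg hP0 hP0) hB0
    _ = (BY + BP) * ε := by ring

/-- **[BD]** TEX[prop:boundary-moments], eq. (boundary:spectator-vanishing), fixed interior spectators, uniformly along the boundary. -/
theorem bdy_bd {x : ℝ} (hx : 0 < x) {D : Set (ℝ × ℝ)} (hD : IsC2JordanDomain D) {δ : ℕ → ℝ} {F : ℕ → Finset TV}
    (hF : IsInsideApprox D δ F) (hA : BdyArch x D δ F) (hSM : LimSM x) : LimBD x D δ F := by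
  classical
  have hDo : IsOpen D := hD.1
  have hDb : Bornology.IsBounded D := hD.2.1
  obtain ⟨θ, C, hθ, hθ4, hC, hdepth⟩ := bdy_sm_depth hx hSM hDo hDb hF
  refine ⟨θ, hθ, hθ4, fun k f hf A hA0 η hη => ?_⟩
  obtain ⟨BP, hBP, hpi⟩ := bdy_pi_mom hx hSM hDo hDb hF f hf
  -- clearance of the spectators
  have hK : IsCompact (⋃ i, tsupport (f i)) := isCompact_iUnion fun i => (hf i).comp
  have hKD : (⋃ i, tsupport (f i)) ⊆ D := iUnion_subset fun i => (hf i).sub
  obtain ⟨R, hR, hclear⟩ := bdy_clearance hDo hK hKD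
  -- accuracy of the arch
  set BB : ℝ := C * A ^ 4 + BP with hBB
  have hBB0 : 0 ≤ BB := by positivity
  set ε : ℝ := η ^ 2 / (BB + 1) with hε
  have hε0 : 0 < ε := by positivity
  have hBε : BB * ε ≤ η ^ 2 := by
    rw [hε, mul_div_assoc']
    rw [div_le_iff₀ (by positivity)]
    nlinarith [sq_nonneg η]
  choose! rr hrr0 hrrR harch using fun p (hp : p ∈ frontier D) => hA p hp R hR ε hε0
  -- finite subcover of the frontier
  have hcomp : IsCompact (frontier D) :=
    Metric.isCompact_of_isClosed_isBounded isClosed_frontier (hDb.closure.subset frontier_subset_closure)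
  obtain ⟨t, htD, hcov⟩ := hcomp.elim_nhds_subcover (fun p => Metric.ball p (if p ∈ frontier D then rr p / 8 else 1))
    (fun p hp => Metric.ball_mem_nhds p (by rw [if_pos hp]; linarith [hrr0 p hp]))
  obtain ⟨a, ha, hat⟩ := bdy_fin_pos t (fun p => rr p / 8) fun p hp => by linarith [hrr0 p (htD p hp)]
  refine ⟨a, ha, fun z hz hdep g hgc hg0 hgA hgs => ?_⟩
  -- the nearest frontier point and the centre of the cover
  have hne : (frontier D).Nonempty := by
    obtain ⟨c, ℓ, -, -, -, -, -, hc⟩ := hD.2.2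
    exact ⟨c 0, hc ▸ mem_range_self 0⟩
  obtain ⟨q, hq, hqd⟩ := isClosed_frontier.exists_infDist_eq_dist hne z
  have hqd' : dist z q = limDep D z := hqd.symm
  obtain ⟨p, hpt, hqp⟩ := mem_iUnion₂.mp (hcov hq)
  have hpD := htD p hpt
  rw [if_pos hpD, Metric.mem_ball] at hqp
  have hrp := hrr0 p hpD
  have hap := hat p hpt
  have hd0 : 0 < limDep D z := by
    have hzf : z ∉ frontier D := fun h => by
      have := ((mem_sdiff z).mp h).2
      rw [hDo.interior_eq] at this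
      exact this hz
    exact (isClosed_frontier.notMem_iff_infDist_pos hne).mp hzf
  have hδ0 : ∀ᶠ n in atTop, δ n ≤ min R (rr p / 8) :=
    (hF.2.1.eventually (gt_mem_nhds (lt_min hR (by linarith)))).mono fun n hn => hn.le
  filter_upwards [harch p hpD, hdepth z hz, hpi, hδ0] with n h1 h2 h3 h4
  have hδn := hF.1 n
  have hgabs : ∀ y, |g y| ≤ A / limDep D z ^ 2 := fun y => by rw [abs_of_nonneg (hg0 y)]; exact hgA y
  have hY := h2 (A / limDep D z ^ 2) g hgabs hgs
  have eA : A / limDep D z ^ 2 * limDep D z ^ 2 = A := by field_simp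
  rw [eA] at hY
  have hs0 : 0 ≤ θ * limDep D z := by positivity
  have hgin : ∀ u, latW (δ n) g u ≠ 0 → u ∈ bdyIn (δ n) p (rr p) := fun u hu =>
    bdy_latW_in (s := θ * limDep D z) hδn hrp
      (fun y hy => hgs y fun hmem => by
        have := wk_ball_subset z hs0 hmem
        rw [Metric.mem_closedBall] at this
        linarith)
      (by
        have t1 := dist_triangle z q p
        have t2 : θ * limDep D z ≤ 1 / 4 * limDep D z := mul_le_mul_of_nonneg_right hθ4 hd0.le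
        have t3 := h4.trans (min_le_right _ _)
        linarith) hu
  have hfout : ∀ i u, u ∉ bdyOut (δ n) p R → latW (δ n) (f i) u = 0 := fun i u hu =>
    bdy_latW_out hδn hR (h4.trans (min_le_left _ _))
      (fun y hy => by
        by_contra hne'
        have := hclear p hpD y (mem_iUnion.mpr ⟨i, subset_tsupport _ hne'⟩)
        linarith) hu
  have harch0 := h1 0 (fun _ => Or.inr rfl) (fun _ _ _ => rfl)
  have step := bdy_bd_step hx (δ n) (F n) p (rr p) R f g hg0 hgin hfout harch0 hY h3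
  exact abs_le_of_sq_le_sq (step.trans hBε) hη.le

/-! ## Part 2 : [COL] -/

theorem bdy_conn_symm {V : Type*} {adj : V → V → Prop} (hs : ∀ a b, adj a b → adj b a) {p : V → Prop} {u v : V}
    (h : bdyConn adj p u v) : bdyConn adj p v u := by
  obtain ⟨hu, hr⟩ := h
  induction hr with
  | refl => exact bdy_conn_refl hu
  | tail _ hab ih => exact ⟨hab.2, Relation.ReflTransGen.head ⟨hs _ _ hab.1, ih.1⟩ ih.2⟩

theorem bdy_htE_infeasible (x : ℝ) {Λ : Finset TV} {t : TV → ℤ} (hne : ¬ ∃ h, HtAdm Λ t h) (G : (TV → ℤ) → ℝ) :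
    htE x Λ t G = 0 := by
  have : htCfg Λ t = ∅ := Finset.eq_empty_of_forall_notMem fun h hh => hne ⟨h, ht_mem_cfg.1 hh⟩
  unfold htE
  rw [this]
  simp

/-- TEX l.445-452 of 03-moments (bounded traces by height order), second moment, nonnegative weights, trace in `[0,1]`. -/
theorem bdy_sm_trace {x : ℝ} (hx0 : 0 < x) (hx1 : x ≤ 1) (Λ : Finset TV) (t : TV → ℤ) (ht : ∀ u, 0 ≤ t u ∧ t u ≤ 1)
    (s : Finset TV) (w : TV → ℝ) (hw : ∀ u ∈ s, 0 ≤ w u) :
    htE x Λ t (fun h => (∑ u ∈ s, w u * (h u : ℝ)) ^ 2)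
      ≤ 3 * htE x Λ 0 (fun h => (∑ u ∈ s, w u * (h u : ℝ)) ^ 2) + 2 * (∑ u ∈ s, w u) ^ 2 := by
  set X : (TV → ℤ) → ℝ := fun h => ∑ u ∈ s, w u * (h u : ℝ) with hX
  have hE0 : 0 ≤ htE x Λ 0 (fun h => X h ^ 2) := ht_E_nonneg hx0 _ _ fun h _ => sq_nonneg _
  by_cases hne : ∃ h, HtAdm Λ t h
  swap
  · rw [bdy_htE_infeasible x hne]
    positivity
  have hXm : HtMono X := fun h h' hh => Finset.sum_le_sum fun u hu =>
    mul_le_mul_of_nonneg_left (by exact_mod_cast hh u) (hw u hu)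
  have hPm : HtMono (fun h => (max (X h) 0) ^ 2) := fun h h' hh =>
    pow_le_pow_left₀ (le_max_right _ _) (max_le_max (hXm h h' hh) le_rfl) 2
  have hNm : HtMono (fun h => - (max (- X h) 0) ^ 2) := fun h h' hh =>
    neg_le_neg (pow_le_pow_left₀ (le_max_right _ _) (max_le_max (neg_le_neg (hXm h h' hh)) le_rfl) 2)
  have h1adm : ∃ h, HtAdm Λ (fun u => (0 : TV → ℤ) u + 1) h := ⟨_, ht_adm_self fun _ _ _ _ => by simp⟩
  have h0adm : ∃ h, HtAdm Λ (0 : TV → ℤ) h := ⟨0, ht_adm_zero Λ⟩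
  have a1 := hto_order hx0 hx1 Λ (b₁ := t) (b₂ := fun u => (0 : TV → ℤ) u + 1) (fun u => by simpa using (ht u).2) hne h1adm hPm
  rw [hto_shift] at a1
  have a2 := hto_order hx0 hx1 Λ (b₁ := 0) (b₂ := t) (fun u => by simpa using (ht u).1) h0adm hne hNm
  rw [ht_E_neg_fun, ht_E_neg_fun] at a2
  have eshift : ∀ h : TV → ℤ, X (fun u => h u + 1) = X h + ∑ u ∈ s, w u := by
    intro h
    simp only [hX, Int.cast_add, Int.cast_one, mul_add, mul_one, Finset.sum_add_distrib]
  have a3 : htE x Λ 0 (fun h => (max (X (fun u => h u + 1)) 0) ^ 2)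
      ≤ 2 * htE x Λ 0 (fun h => X h ^ 2) + 2 * (∑ u ∈ s, w u) ^ 2 := by
    have : htE x Λ 0 (fun h => (max (X (fun u => h u + 1)) 0) ^ 2)
        ≤ htE x Λ 0 (fun h => 2 * X h ^ 2 + 2 * (∑ u ∈ s, w u) ^ 2) := by
      refine ht_E_mono hx0 _ _ fun h _ => ?_
      rw [eshift]
      rcases le_total 0 (X h + ∑ u ∈ s, w u) with h0 | h0
      · rw [max_eq_left h0]
        nlinarith [sq_nonneg (X h - ∑ u ∈ s, w u)]
      · rw [max_eq_right h0]
        nlinarith [sq_nonneg (X h), sq_nonneg (∑ u ∈ s, w u)]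
    rw [ht_E_add, ht_E_smul, ht_E_const hx0 (ht_adm_zero Λ)] at this
    exact this
  have a4 : htE x Λ 0 (fun h => (max (- X h) 0) ^ 2) ≤ htE x Λ 0 (fun h => X h ^ 2) := by
    refine ht_E_mono hx0 _ _ fun h _ => ?_
    rcases le_total 0 (- X h) with h0 | h0
    · rw [max_eq_left h0]; nlinarith
    · rw [max_eq_right h0]; nlinarith [sq_nonneg (X h)]
  have a5 : htE x Λ t (fun h => X h ^ 2)
      = htE x Λ t (fun h => (max (X h) 0) ^ 2) + htE x Λ t (fun h => (max (- X h) 0) ^ 2) := by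
    rw [← ht_E_add]
    refine congrArg _ ?_
    funext h
    rcases le_total 0 (X h) with h0 | h0
    · rw [max_eq_left h0, max_eq_right (by linarith)]; ring
    · rw [max_eq_right h0, max_eq_left (by linarith)]; ring
  rw [a5]
  linarith

open Classical in
/-- finite union bound. -/
theorem bdy_htP_finset {x : ℝ} (hx : 0 < x) (Λ : Finset TV) (t : TV → ℤ) {α : Type*} (P : Finset α) (K : α → (TV → ℤ) → Prop) :
    htP x Λ t (fun h => ∃ c ∈ P, K c h) ≤ ∑ c ∈ P, htP x Λ t (K c) := by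
  unfold htP
  rw [← ht_E_sum]
  refine ht_E_mono hx _ _ fun h _ => ?_
  by_cases hex : ∃ c ∈ P, K c h
  · rw [if_pos hex]
    obtain ⟨c, hc, hK⟩ := hex
    calc (1 : ℝ) = if K c h then 1 else 0 := by rw [if_pos hK]
      _ ≤ _ := Finset.single_le_sum (f := fun c => if K c h then (1 : ℝ) else 0)
        (fun i _ => by split_ifs <;> norm_num) hc
  · rw [if_neg hex]
    exact Finset.sum_nonneg fun i _ => by split_ifs <;> norm_num

open Classical in
/-- positive walks under the trace `t` = negative walks under the trace `-t`. -/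
theorem bdy_posX_trace (x : ℝ) (Λ : Finset TV) (t : TV → ℤ) (A T : Set TV) :
    htP x Λ t (fun h => BdyPosX triAdj h A T) = htP x Λ (fun u => - t u) (fun h => BdyNegX triAdj h A T) := by
  unfold htP
  rw [hto_neg]
  refine congrArg _ ?_
  funext h
  have : BdyNegX triAdj (fun u => - h u) A T ↔ BdyPosX triAdj h A T := bdy_posX_neg (h := h)
  simp only [this]

/-- one mesh: the flip + Cauchy-Schwarz + union bound over the windows. -/
theorem bdy_col_step {x : ℝ} (hx : 0 < x) (δ : ℝ) (F : Finset TV) (P : Finset (ℝ × ℝ)) (r R : ℝ) (ψ : ℝ × ℝ → ℝ)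
    (hψ0 : ∀ y, 0 ≤ ψ y) (hψout : ∀ c ∈ P, ∀ u, u ∉ bdyOut δ c R → latW δ ψ u = 0)
    (t : TV → ℤ) (ht : ∀ u, t u = 0 ∨ t u = 1) (htw : ∀ u, (∀ c ∈ P, u ∉ bdyIn δ c r) → t u = 0) {ε B2 : ℝ}
    (harch : ∀ c ∈ P, htP x (latInt F) (fun u => - t u) (fun h => BdyNegX triAdj h (bdyOut δ c R) (bdyIn δ c r)) ≤ ε)
    (h2 : htE x (latInt F) t (fun h => htSm δ F ψ h ^ 2) ≤ B2) :
    0 ≤ htE x (latInt F) t (fun h => htSm δ F ψ h) ∧
      (htE x (latInt F) t (fun h => htSm δ F ψ h)) ^ 2 ≤ B2 * (P.card * ε) := by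
  classical
  set Λ := latInt F with hΛ
  set s := Λ.filter (fun u => latW δ ψ u ≠ 0) with hs
  have hYs : ∀ h : TV → ℤ, htSm δ F ψ h = ∑ u ∈ s, latW δ ψ u * (h u : ℝ) := by
    intro h
    unfold htSm latPair
    rw [hs, Finset.sum_filter_of_ne]
    intro u _ hne hz
    exact hne (by rw [hz, zero_mul])
  have hfun : (fun h => htSm δ F ψ h) = fun h : TV → ℤ => ∑ u ∈ s, latW δ ψ u * (h u : ℝ) := funext hYs
  have hfun2 : (fun h => htSm δ F ψ h ^ 2) = fun h : TV → ℤ => (∑ u ∈ s, latW δ ψ u * (h u : ℝ)) ^ 2 :=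
    funext fun h => by rw [hYs h]
  have ht0 : ∀ u, 0 ≤ t u := fun u => by rcases ht u with h | h <;> omega
  have hmean := bdy_ht_mean_nonneg hx.le Λ t (fun v _ => ht0 v) s (latW δ ψ) (fun u _ => bdy_latW_nonneg hψ0 u)
  set S : Set TV := {u | ∃ c ∈ P, u ∈ bdyIn δ c r} with hS
  set T : Set TV := {u | ∀ c ∈ P, u ∈ bdyOut δ c R} with hT
  have col := bdy_ht_col hx.le Λ t S T
    (fun v _ hv => le_of_eq (htw v fun c hc hin => hv ⟨c, hc, hin⟩)) s (latW δ ψ)
    (fun u _ => bdy_latW_nonneg hψ0 u)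
    (fun u hu c hc => by
      by_contra hout
      exact (Finset.mem_filter.mp hu).2 (hψout c hc u hout)) hmean
  have hprob : htP x Λ t (fun h => BdyPosX triAdj h S T) ≤ P.card * ε := by
    calc htP x Λ t (fun h => BdyPosX triAdj h S T)
        ≤ htP x Λ t (fun h => ∃ c ∈ P, BdyPosX triAdj h (bdyOut δ c R) (bdyIn δ c r)) := by
          refine ht_P_mono hx _ _ fun h _ hX => ?_
          obtain ⟨u, hu, v, ⟨c, hc, hv⟩, hconn⟩ := hX
          exact ⟨c, hc, v, hv, u, hu c hc, bdy_conn_symm (fun a b => lat_adj_symm) hconn⟩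
      _ ≤ ∑ c ∈ P, htP x Λ t (fun h => BdyPosX triAdj h (bdyOut δ c R) (bdyIn δ c r)) := bdy_htP_finset hx _ _ _ _
      _ ≤ ∑ _c ∈ P, ε := Finset.sum_le_sum fun c hc => by rw [bdy_posX_trace]; exact harch c hc
      _ = P.card * ε := by rw [Finset.sum_const, nsmul_eq_mul]
  rw [hfun]
  rw [hfun2] at h2
  refine ⟨hmean, col.trans ?_⟩
  have hP0 : 0 ≤ htP x Λ t (fun h => BdyPosX triAdj h S T) := ht_P_nonneg hx _ _ _
  have hE0 : 0 ≤ htE x Λ t (fun h => (∑ u ∈ s, latW δ ψ u * (h u : ℝ)) ^ 2) := ht_E_nonneg hx _ _ fun h _ => sq_nonneg _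
  exact mul_le_mul h2 hprob hP0 (hE0.trans h2)

theorem bdy_in_mono {δ : ℝ} {p : ℝ × ℝ} {r r' : ℝ} (h0 : 0 ≤ r) (h : r ≤ r') : bdyIn δ p r ⊆ bdyIn δ p r' := fun u hu =>
  lt_of_lt_of_le (show sqDist (triPos δ u) p < r ^ 2 from hu) (pow_le_pow_left₀ h0 h 2)

/-- the total mass of the face weights of a nonnegative test is at most its integral. -/
theorem bdy_mass_le {δ : ℝ} (hδ : 0 < δ) (Λ : Finset TV) {ψ : ℝ × ℝ → ℝ} (hψ : Integrable ψ) (hψ0 : ∀ y, 0 ≤ ψ y) :
    ∑ u ∈ Λ, latW δ ψ u ≤ ∫ y, ψ y := by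
  have h1 := hg_sum_abs_face_integral_le hδ Λ hψ
  have h2 : ∑ u : Λ, |∫ z in hexFace δ u, ψ z| = ∑ u ∈ Λ, latW δ ψ u := by
    rw [Finset.sum_coe_sort Λ fun u => |∫ z in hexFace δ u, ψ z|]
    refine Finset.sum_congr rfl fun u _ => ?_
    exact abs_of_nonneg (bdy_latW_nonneg hψ0 u)
  have h3 : ∫ y, |ψ y| = ∫ y, ψ y := integral_congr_ae (Eventually.of_forall fun y => abs_of_nonneg (hψ0 y))
  rw [h2, h3] at h1
  exact h1

/-- **[COL]** TEX[prop:bracket-collapse], upper bracket, uniformly over the deterministic traces carried by the windows. -/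
theorem bdy_col {x : ℝ} (hx : 0 < x) (hx1 : x ≤ 1) {D : Set (ℝ × ℝ)} (hD : IsC2JordanDomain D) {δ : ℕ → ℝ} {F : ℕ → Finset TV}
    (hF : IsInsideApprox D δ F) (hA : BdyArch x D δ F) (hSM : LimSM x) : BdyCol x D δ F := by
  classical
  have hDo : IsOpen D := hD.1
  have hDb : Bornology.IsBounded D := hD.2.1
  intro P hP ψ hψ hψ0 η hη
  -- moments
  obtain ⟨C, hC, hmom⟩ := lim_sm_fixed hx hSM hDo hDb hF hψ.comp hψ.sub 1
  obtain ⟨M, hM⟩ := hψ.comp.exists_bound_of_continuous hψ.cont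
  have hint : Integrable ψ := hψ.cont.integrable_of_hasCompactSupport hψ.comp
  set B2 : ℝ := 3 * (C * M ^ (2 * 1)) + 2 * (∫ y, ψ y) ^ 2 with hB2
  have hB20 : 0 ≤ B2 := by
    have : 0 ≤ M ^ (2 * 1) := by rw [pow_mul]; positivity
    positivity
  -- radii
  obtain ⟨R1, hR1, hclear⟩ := bdy_clearance hDo hψ.comp hψ.sub
  obtain ⟨R2, hR2, hsep⟩ := bdy_fin_pos ((P ×ˢ P).filter fun q => q.1 ≠ q.2) (fun q => dist q.1 q.2 / 4)
    fun q hq => by
      have := dist_pos.mpr (Finset.mem_filter.mp hq).2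
      positivity
  set R : ℝ := min R1 R2 with hRdef
  have hR : 0 < R := lt_min hR1 hR2
  set ε : ℝ := η ^ 2 / ((B2 + 1) * (P.card + 1)) with hε
  have hε0 : 0 < ε := by positivity
  have hBε : B2 * (P.card * ε) ≤ η ^ 2 := by
    have e : B2 * (P.card * ε) = (B2 * P.card) * η ^ 2 / ((B2 + 1) * (P.card + 1)) := by rw [hε]; ring
    rw [e, div_le_iff₀ (by positivity)]
    have hc : (0 : ℝ) ≤ P.card := Nat.cast_nonneg _
    nlinarith [sq_nonneg η, mul_nonneg hB20 hc, mul_nonneg (mul_nonneg hB20 hc) (sq_nonneg η),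
      mul_nonneg hB20 (sq_nonneg η), mul_nonneg hc (sq_nonneg η)]
  choose! rr hrr0 hrrR harch using fun p (hp : p ∈ frontier D) => hA p hp R hR ε hε0
  obtain ⟨r, hr, hrle⟩ := bdy_fin_pos P rr fun c hc => hrr0 c (hP c hc)
  refine ⟨r, hr, ?_⟩
  have hall : ∀ᶠ n in atTop, ∀ c ∈ P, ∀ t : TV → ℤ, (∀ u, t u = -1 ∨ t u = 0) →
      (∀ u, u ∉ bdyIn (δ n) c (rr c) → u ∉ bdyOut (δ n) c R → t u = 0) →
      htP x (latInt (F n)) t (fun h => BdyNegX triAdj h (bdyOut (δ n) c R) (bdyIn (δ n) c (rr c))) ≤ ε :=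
    (Filter.eventually_all_finset P).mpr fun c hc => harch c (hP c hc)
  have hδ0 : ∀ᶠ n in atTop, δ n ≤ R := (hF.2.1.eventually (gt_mem_nhds hR)).mono fun n hn => hn.le
  filter_upwards [hall, hmom, hδ0] with n h1 h2 h3 t ht htw
  have hδn := hF.1 n
  have ht01 : ∀ u, 0 ≤ t u ∧ t u ≤ 1 := fun u => by rcases ht u with h | h <;> omega
  -- weights of ψ
  have hψout : ∀ c ∈ P, ∀ u, u ∉ bdyOut (δ n) c R → latW (δ n) ψ u = 0 := fun c hc u hu =>
    bdy_latW_out hδn hR h3
      (fun y hy => by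
        by_contra hne'
        have := hclear c (hP c hc) y (subset_tsupport _ hne')
        have hRR1 : R ≤ R1 := min_le_left _ _
        linarith) hu
  -- the arches
  have harch' : ∀ c ∈ P, htP x (latInt (F n)) (fun u => - t u)
      (fun h => BdyNegX triAdj h (bdyOut (δ n) c R) (bdyIn (δ n) c r)) ≤ ε := by
    intro c hc
    have hb := h1 c hc (fun u => - t u) (fun u => by rcases ht u with h | h <;> simp [h]) (fun u hin hout => by
      have : t u = 0 := by
        refine htw u fun c' hc' hin' => ?_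
        by_cases hcc : c' = c
        · subst hcc
          exact hin (bdy_in_mono hr.le (hrle c' hc') hin')
        · refine hout ?_
          have d1 : dist c' c / 4 ≥ R2 := hsep (c', c) (Finset.mem_filter.mpr ⟨Finset.mem_product.mpr ⟨hc', hc⟩, hcc⟩)
          have hrR : r < R := lt_of_le_of_lt (hrle c' hc') (hrrR c' (hP c' hc'))
          have d2 : dist (triPos (δ n) u) c' < R := by
            have h0 : sqDist (triPos (δ n) u) c' < r ^ 2 := hin'
            have h1' := hg_dist_sq_le_sqDist (triPos (δ n) u) c'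
            have := (abs_lt_of_sq_lt_sq' (lt_of_le_of_lt h1' h0) hr.le).2
            linarith
          have d3 := dist_triangle c' (triPos (δ n) u) c
          rw [dist_comm c' (triPos (δ n) u)] at d3
          have hRR2 : R ≤ R2 := min_le_right _ _
          have d4 : R ≤ dist (triPos (δ n) u) c := by linarith
          show R ^ 2 ≤ sqDist (triPos (δ n) u) c
          exact (pow_le_pow_left₀ hR.le d4 2).trans (hg_dist_sq_le_sqDist _ _)
      simp [this])
    refine le_trans (ht_P_mono hx _ _ fun h _ hX => ?_) hb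
    obtain ⟨u, hu, v, hv, hconn⟩ := hX
    exact ⟨u, bdy_in_mono hr.le (hrle c hc) hu, v, hv, hconn⟩
  -- second moment with the trace
  have hsec : htE x (latInt (F n)) t (fun h => htSm (δ n) (F n) ψ h ^ 2) ≤ B2 := by
    have s1 := bdy_sm_trace hx hx1 (latInt (F n)) t ht01 (latInt (F n)) (latW (δ n) ψ) (fun u _ => bdy_latW_nonneg hψ0 u)
    have s2 := h2 M ψ (fun y => by simpa using hM y) (fun y hy => by
      by_contra hne'
      exact hy (subset_tsupport _ hne'))
    have s3 := bdy_mass_le hδn (latInt (F n)) hint hψ0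
    have s4 : 0 ≤ ∑ u ∈ latInt (F n), latW (δ n) ψ u := Finset.sum_nonneg fun u _ => bdy_latW_nonneg hψ0 u
    have s5 : (∑ u ∈ latInt (F n), latW (δ n) ψ u) ^ 2 ≤ (∫ y, ψ y) ^ 2 := pow_le_pow_left₀ s4 s3 2
    unfold htFz at s2
    simp only [htSm, latPair] at s2 ⊢
    rw [hB2]
    simp only [mul_one] at s2 ⊢
    linarith
  obtain ⟨c0, c1⟩ := bdy_col_step hx (δ n) (F n) P r R ψ hψ0 hψout t ht htw harch' hsec
  exact abs_le_of_sq_le_sq' (c1.trans hBε) hη.le |>.2

end Claimed.Agent.R291
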