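import Claimed.Agent.R291.Defs.BdySyn
import Claimed.Agent.R291.Bdy.HInv

/-!
# Row 291 (S0539), unit BDY, file Bdy/Syn      (owner: helper128, HEAD BDY; prefix `bdy_syn_`, `bdy_lox_`, `bdy_hix_`)

THE SYNTHETIC LAW `bdySynE x A P` (Defs/BdySyn) AS A MIXTURE OF GIBBS LAWS.      TEX[lem:synthetic-trace] (06-boundary l.60-140), height-only.
* calculus: `bdy_syn_den_pos`, `bdy_syn_mono`, `bdy_syn_const`, `bdy_syn_add`, `bdy_syn_sub`, `bdy_syn_smul`, `bdy_syn_cs` (Cauchy-Schwarz), `bdy_syn_P_*`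
* `bdy_syn_dlr`       DLR: `bdySynE x A P (fun g => htE x A g G) = bdySynE x A P G`  (the pocket is disjoint from `A`)
* `bdy_syn_trace`     the traces of the mixture: off `A` the height is `-1`, or `0` at a site of the pocket
* `bdy_syn_dom`       **domination**: `η ≥ -1` on `latOut A`, `η ≥ 0` on `latOut A ∩ P`, `G` increasing and local: `bdySynE x A P G ≤ htE x A η G`;  event forms `bdy_syn_dom_inc`, `bdy_syn_dom_dec`
* `bdy_lox_*`, `bdy_hix_*`   monotonicity and locality of the crossing events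
-/

set_option autoImplicit false

namespace Claimed.Agent.R291

open Claims Claims.C0467

/-! ## 1. crossing events -/

theorem bdy_lox_anti {A : Finset TV} {k : ℤ} {O Z : Set TV} {h h' : TV → ℤ} (hh : ∀ u ∈ A, h u ≤ h' u)
    (hx : BdyLoX A k O Z h') : BdyLoX A k O Z h := by
  obtain ⟨a, ha, b, hb, haA, hak, hr⟩ := hx
  exact ⟨a, ha, b, hb, haA, (hh a haA).trans hak, tsc_R_mono (fun u (hu : u ∈ A ∧ h' u ≤ k) => (⟨hu.1, (hh u hu.1).trans hu.2⟩ : u ∈ A ∧ h u ≤ k)) hr⟩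

theorem bdy_hix_mono {A : Finset TV} {k : ℤ} {O Z : Set TV} {h h' : TV → ℤ} (hh : ∀ u ∈ A, h u ≤ h' u)
    (hx : BdyHiX A k O Z h) : BdyHiX A k O Z h' := by
  obtain ⟨a, ha, b, hb, haA, hak, hr⟩ := hx
  exact ⟨a, ha, b, hb, haA, hak.trans (hh a haA), tsc_R_mono (fun u (hu : u ∈ A ∧ k ≤ h u) => (⟨hu.1, hu.2.trans (hh u hu.1)⟩ : u ∈ A ∧ k ≤ h' u)) hr⟩

theorem bdy_lox_congr {A : Finset TV} {k : ℤ} {O Z : Set TV} {h h' : TV → ℤ} (hh : ∀ u ∈ A, h u = h' u) :
    BdyLoX A k O Z h ↔ BdyLoX A k O Z h' :=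
  ⟨bdy_lox_anti fun u hu => (hh u hu).ge, bdy_lox_anti fun u hu => (hh u hu).le⟩

theorem bdy_hix_congr {A : Finset TV} {k : ℤ} {O Z : Set TV} {h h' : TV → ℤ} (hh : ∀ u ∈ A, h u = h' u) :
    BdyHiX A k O Z h ↔ BdyHiX A k O Z h' :=
  ⟨bdy_hix_mono fun u hu => (hh u hu).le, bdy_hix_mono fun u hu => (hh u hu).ge⟩

theorem bdy_lox_sets {A : Finset TV} {k : ℤ} {O O' Z Z' : Set TV} {h : TV → ℤ} (hO : O ⊆ O') (hZ : Z ⊆ Z')
    (hx : BdyLoX A k O Z h) : BdyLoX A k O' Z' h := by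
  obtain ⟨a, ha, b, hb, h3⟩ := hx
  exact ⟨a, hO ha, b, hZ hb, h3⟩

theorem bdy_hix_sets {A : Finset TV} {k : ℤ} {O O' Z Z' : Set TV} {h : TV → ℤ} (hO : O ⊆ O') (hZ : Z ⊆ Z')
    (hx : BdyHiX A k O Z h) : BdyHiX A k O' Z' h := by
  obtain ⟨a, ha, b, hb, h3⟩ := hx
  exact ⟨a, hO ha, b, hZ hb, h3⟩

/-! ## 2. calculus of the synthetic law -/

section kit

variable {x : ℝ} (hx0 : 0 < x) (A P : Finset TV)

theorem bdy_syn_flat_pk (P : Finset TV) : BdyPk P (fun _ => -1) := fun _ _ => Or.inl rfl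

include hx0 in
/-- the conditioning event has positive probability -/
theorem bdy_syn_den_pos : 0 < htP x (A ∪ P) (fun _ => -1) (BdyPk P) := by
  classical
  have hadm : HtAdm (A ∪ P) (fun _ => -1) (fun _ => -1) := bdy_adm_flat _ _
  unfold htP htE
  refine div_pos ?_ (ht_Z_pos hx0 hadm)
  refine lt_of_lt_of_le ?_ (Finset.single_le_sum (f := fun h => htWt x (A ∪ P) h * (if BdyPk P h then (1 : ℝ) else 0))
    (fun h _ => mul_nonneg (ht_wt_pos hx0 _ h).le (by split_ifs <;> norm_num)) (ht_mem_cfg.2 hadm))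
  simp only [bdy_syn_flat_pk P, if_true, mul_one]
  exact ht_wt_pos hx0 _ _

open Classical in
theorem bdy_syn_def (x : ℝ) (A P : Finset TV) (G : (TV → ℤ) → ℝ) :
    bdySynE x A P G = htE x (A ∪ P) (fun _ => -1) (fun h => if BdyPk P h then G h else 0) /
      htP x (A ∪ P) (fun _ => -1) (BdyPk P) := rfl

include hx0 in
theorem bdy_syn_mono {G1 G2 : (TV → ℤ) → ℝ}
    (h : ∀ g, HtAdm (A ∪ P) (fun _ => -1) g → BdyPk P g → G1 g ≤ G2 g) : bdySynE x A P G1 ≤ bdySynE x A P G2 := by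
  classical
  rw [bdy_syn_def, bdy_syn_def]
  refine div_le_div_of_nonneg_right (ht_E_mono hx0 _ _ fun g hg => ?_) (bdy_syn_den_pos hx0 A P).le
  by_cases hk : BdyPk P g
  · simp only [hk, if_true]; exact h g hg hk
  · simp only [hk, if_false]; exact le_rfl

include hx0 in
theorem bdy_syn_congr {G1 G2 : (TV → ℤ) → ℝ}
    (h : ∀ g, HtAdm (A ∪ P) (fun _ => -1) g → BdyPk P g → G1 g = G2 g) : bdySynE x A P G1 = bdySynE x A P G2 :=
  le_antisymm (bdy_syn_mono hx0 A P fun g h1 h2 => (h g h1 h2).le) (bdy_syn_mono hx0 A P fun g h1 h2 => (h g h1 h2).ge)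

theorem bdy_syn_smul (x : ℝ) (A P : Finset TV) (c : ℝ) (G : (TV → ℤ) → ℝ) :
    bdySynE x A P (fun h => c * G h) = c * bdySynE x A P G := by
  classical
  rw [bdy_syn_def, bdy_syn_def, ← mul_div_assoc, ← ht_E_smul]
  congr 2
  funext h
  split_ifs <;> simp

theorem bdy_syn_add (x : ℝ) (A P : Finset TV) (G1 G2 : (TV → ℤ) → ℝ) :
    bdySynE x A P (fun h => G1 h + G2 h) = bdySynE x A P G1 + bdySynE x A P G2 := by
  classical
  rw [bdy_syn_def, bdy_syn_def, bdy_syn_def, ← add_div, ← ht_E_add]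
  congr 2
  funext h
  split_ifs <;> simp

theorem bdy_syn_sub (x : ℝ) (A P : Finset TV) (G1 G2 : (TV → ℤ) → ℝ) :
    bdySynE x A P (fun h => G1 h - G2 h) = bdySynE x A P G1 - bdySynE x A P G2 := by
  classical
  rw [bdy_syn_def, bdy_syn_def, bdy_syn_def, ← sub_div, ← ht_E_sub]
  congr 2
  funext h
  split_ifs <;> simp

include hx0 in
theorem bdy_syn_const (c : ℝ) : bdySynE x A P (fun _ => c) = c := by
  classical
  have h1 : bdySynE x A P (fun _ => (1 : ℝ)) = 1 := by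
    rw [bdy_syn_def]
    exact div_self (bdy_syn_den_pos hx0 A P).ne'
  have := bdy_syn_smul x A P c (fun _ => (1 : ℝ))
  simpa [h1] using this

include hx0 in
theorem bdy_syn_nonneg {G : (TV → ℤ) → ℝ} (h : ∀ g, HtAdm (A ∪ P) (fun _ => -1) g → BdyPk P g → 0 ≤ G g) :
    0 ≤ bdySynE x A P G := by
  rw [← bdy_syn_const hx0 A P 0]
  exact bdy_syn_mono hx0 A P h

include hx0 in
/-- Cauchy-Schwarz -/
theorem bdy_syn_cs (G1 G2 : (TV → ℤ) → ℝ) :
    bdySynE x A P (fun h => G1 h * G2 h) ^ 2 ≤ bdySynE x A P (fun h => G1 h ^ 2) * bdySynE x A P (fun h => G2 h ^ 2) := by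
  classical
  rw [bdy_syn_def, bdy_syn_def, bdy_syn_def, div_pow, div_mul_div_comm, ← sq]
  refine div_le_div_of_nonneg_right ?_ (sq_nonneg _)
  have key := ht_E_cs hx0 (A ∪ P) (fun _ => -1) (fun h => if BdyPk P h then G1 h else 0) (fun h => if BdyPk P h then G2 h else 0)
  have e0 : (fun h => (if BdyPk P h then G1 h else 0) * (if BdyPk P h then G2 h else 0)) = fun h => if BdyPk P h then G1 h * G2 h else 0 := by
    funext h; split_ifs <;> simp
  have e1 : ∀ G : (TV → ℤ) → ℝ, (fun h => (if BdyPk P h then G h else 0) ^ 2) = fun h => if BdyPk P h then G h ^ 2 else 0 := by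
    intro G; funext h; split_ifs <;> simp
  rw [e0, e1, e1] at key
  exact key

include hx0 in
theorem bdy_syn_P_nonneg (K : (TV → ℤ) → Prop) : 0 ≤ bdySynP x A P K := by
  classical
  exact bdy_syn_nonneg hx0 A P fun g _ _ => by split_ifs <;> norm_num

include hx0 in
theorem bdy_syn_P_le_one (K : (TV → ℤ) → Prop) : bdySynP x A P K ≤ 1 := by
  classical
  rw [← bdy_syn_const hx0 A P 1]
  exact bdy_syn_mono hx0 A P fun g _ _ => by split_ifs <;> norm_num

include hx0 in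
theorem bdy_syn_P_not (K : (TV → ℤ) → Prop) : bdySynP x A P (fun h => ¬ K h) = 1 - bdySynP x A P K := by
  classical
  unfold bdySynP
  rw [← bdy_syn_const hx0 A P 1, ← bdy_syn_sub, bdy_syn_const hx0 A P 1]
  refine bdy_syn_congr hx0 A P fun g _ _ => ?_
  by_cases hk : K g <;> simp [hk]

include hx0 in
theorem bdy_syn_P_mono {K1 K2 : (TV → ℤ) → Prop}
    (h : ∀ g, HtAdm (A ∪ P) (fun _ => -1) g → BdyPk P g → K1 g → K2 g) : bdySynP x A P K1 ≤ bdySynP x A P K2 := by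
  classical
  refine bdy_syn_mono hx0 A P fun g h1 h2 => ?_
  by_cases k1 : K1 g
  · simp [k1, h g h1 h2 k1]
  · simp only [k1, if_false]; split_ifs <;> norm_num

end kit

/-! ## 3. the mixture -/

/-- the traces of the mixture -/
theorem bdy_syn_trace {A P : Finset TV} {g : TV → ℤ} (hg : HtAdm (A ∪ P) (fun _ => -1) g) (hk : BdyPk P g) {u : TV} (hu : u ∉ A) :
    g u = -1 ∨ (g u = 0 ∧ u ∈ P) := by
  by_cases hP : u ∈ P
  · rcases hk u hP with h | h
    · exact Or.inl h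
    · exact Or.inr ⟨h, hP⟩
  · exact Or.inl (hg.1 u (by simp [hu, hP]))

/-- **DLR** for the synthetic law -/
theorem bdy_syn_dlr {x : ℝ} (hx0 : 0 < x) {A P : Finset TV} (hAP : Disjoint A P) (G : (TV → ℤ) → ℝ) :
    bdySynE x A P (fun g => htE x A g G) = bdySynE x A P G := by
  classical
  rw [bdy_syn_def, bdy_syn_def]
  congr 1
  have key := hto_dlr_mul hx0 (Finset.subset_union_left : A ⊆ A ∪ P) (fun _ => -1) G
    (fun h => if BdyPk P h then (1 : ℝ) else 0) (fun g h hgh => by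
      have : BdyPk P h ↔ BdyPk P g := by
        unfold BdyPk
        refine forall₂_congr fun u hu => ?_
        rw [hgh u (fun hA => (Finset.disjoint_left.1 hAP hA) hu)]
      simp only [this])
  have e1 : (fun g => (if BdyPk P g then (1 : ℝ) else 0) * htE x A g G) = fun g => if BdyPk P g then htE x A g G else 0 := by
    funext g; split_ifs <;> simp
  have e2 : (fun h => (if BdyPk P h then (1 : ℝ) else 0) * G h) = fun h => if BdyPk P h then G h else 0 := by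
    funext g; split_ifs <;> simp
  rw [e1, e2] at key
  exact key

/-- upper bound through the mixture -/
theorem bdy_syn_le_of_mix {x : ℝ} (hx0 : 0 < x) {A P : Finset TV} (hAP : Disjoint A P) {G : (TV → ℤ) → ℝ} {c : ℝ}
    (h : ∀ g, HtAdm (A ∪ P) (fun _ => -1) g → BdyPk P g → htE x A g G ≤ c) : bdySynE x A P G ≤ c := by
  rw [← bdy_syn_dlr hx0 hAP, ← bdy_syn_const hx0 A P c]
  exact bdy_syn_mono hx0 A P h

/-- lower bound through the mixture -/
theorem bdy_syn_ge_of_mix {x : ℝ} (hx0 : 0 < x) {A P : Finset TV} (hAP : Disjoint A P) {G : (TV → ℤ) → ℝ} {c : ℝ}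
    (h : ∀ g, HtAdm (A ∪ P) (fun _ => -1) g → BdyPk P g → c ≤ htE x A g G) : c ≤ bdySynE x A P G := by
  rw [← bdy_syn_dlr hx0 hAP, ← bdy_syn_const hx0 A P c]
  exact bdy_syn_mono hx0 A P h

/-- every law of the mixture is feasible -/
theorem bdy_syn_feas {A P : Finset TV} {g : TV → ℤ} (hg : HtAdm (A ∪ P) (fun _ => -1) g) : ∃ h, HtAdm A g h :=
  ⟨g, bdy_adm_sub Finset.subset_union_left hg⟩

/-- union bound -/
theorem bdy_syn_P_or_le {x : ℝ} (hx0 : 0 < x) (A P : Finset TV) (K1 K2 : (TV → ℤ) → Prop) :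
    bdySynP x A P (fun h => K1 h ∨ K2 h) ≤ bdySynP x A P K1 + bdySynP x A P K2 := by
  classical
  unfold bdySynP
  rw [← bdy_syn_add]
  refine bdy_syn_mono hx0 A P fun g _ _ => ?_
  by_cases h1 : K1 g <;> by_cases h2 : K2 g <;> simp [h1, h2]

/-- **DOMINATION**: the synthetic law is below every Gibbs law whose trace is `≥ -1`, and `≥ 0` on the pocket -/
theorem bdy_syn_dom {x : ℝ} (hx0 : 0 < x) (hx1 : x ≤ 1) {A P : Finset TV} (hAP : Disjoint A P) {η : TV → ℤ} (hne : ∃ h, HtAdm A η h)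
    (h1 : ∀ u ∈ latOut A, -1 ≤ η u) (h0 : ∀ u ∈ latOut A, u ∈ P → 0 ≤ η u) {G : (TV → ℤ) → ℝ} (hG : HtMono G)
    (hloc : HtLoc (latCl A) G) : bdySynE x A P G ≤ htE x A η G := by
  refine bdy_syn_le_of_mix hx0 hAP fun g hg hk => ?_
  refine bdy_order hx0 hx1 A (fun u hu => ?_) ⟨g, bdy_adm_sub Finset.subset_union_left hg⟩ hne hG hloc
  rcases bdy_syn_trace hg hk (bdy_mem_out.1 hu).1 with h | ⟨h, hP⟩
  · rw [h]; exact h1 u hu
  · rw [h]; exact h0 u hu hP

open Classical in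
/-- domination, increasing events read in `A` -/
theorem bdy_syn_dom_inc {x : ℝ} (hx0 : 0 < x) (hx1 : x ≤ 1) {A P : Finset TV} (hAP : Disjoint A P) {η : TV → ℤ} (hne : ∃ h, HtAdm A η h)
    (h1 : ∀ u ∈ latOut A, -1 ≤ η u) (h0 : ∀ u ∈ latOut A, u ∈ P → 0 ≤ η u) {K : (TV → ℤ) → Prop}
    (hK : ∀ h h' : TV → ℤ, (∀ u ∈ A, h u ≤ h' u) → K h → K h') : bdySynP x A P K ≤ htP x A η K := by
  refine bdy_syn_dom hx0 hx1 hAP hne h1 h0 (fun h h' hh => ?_) (fun h h' hh => ?_)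
  · by_cases k : K h
    · simp [k, hK h h' (fun u _ => hh u) k]
    · simp only [k, if_false]; split_ifs <;> norm_num
  · have : K h ↔ K h' := ⟨hK h h' fun u hu => (hh u (lat_mem_cl.2 (Or.inl hu))).le, hK h' h fun u hu => (hh u (lat_mem_cl.2 (Or.inl hu))).ge⟩
    simp only [this]

/-- domination, decreasing events read in `A` -/
theorem bdy_syn_dom_dec {x : ℝ} (hx0 : 0 < x) (hx1 : x ≤ 1) {A P : Finset TV} (hAP : Disjoint A P) {η : TV → ℤ} (hne : ∃ h, HtAdm A η h)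
    (h1 : ∀ u ∈ latOut A, -1 ≤ η u) (h0 : ∀ u ∈ latOut A, u ∈ P → 0 ≤ η u) {K : (TV → ℤ) → Prop}
    (hK : ∀ h h' : TV → ℤ, (∀ u ∈ A, h u ≤ h' u) → K h' → K h) : htP x A η K ≤ bdySynP x A P K := by
  have key := bdy_syn_dom_inc hx0 hx1 hAP hne h1 h0 (K := fun h => ¬ K h) (fun h h' hh k k' => k (hK h h' hh k'))
  obtain ⟨h, hh⟩ := hne
  rw [bdy_syn_P_not hx0, ht_P_not hx0 hh] at key
  linarith

theorem bdy_syn_eqns_cite : True := by
  have := @BdyLoX.eq_1; have := @BdyHiX.eq_1; have := @BdyPk.eq_1; have := @bdySynE.eq_1; have := @bdySynP.eq_1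
  have := @bdyNbr.eq_1; have := @bdyAvg.eq_1
  trivial

end Claimed.Agent.R291
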