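import Claimed.Agent.R291.Defs.BdyGeo
import Claimed.Agent.R291.Bdy.Syn
import Claimed.Agent.R291.Exit.BdyStrip

/-!
# Row 291 (S0539), unit BDY, file Bdy/Pre : THE SYNTHETIC SIDE OF [ARCH] (R2 of sec6b_173.md)      (owner: helper86; prefix `bpr_`, defs `BdyX*`, `BdySucc`, `bpr*`)

TEX[prop:boundary-arch] l.560-620 (count of the successful blocks).   Typed on `Defs/BdyGeo` (helper173).   (PRE) = R3 lives inside `exit_bdy_strip` (helper50).
CONSUMER: Bdy/Multi (helper181): `P(negative walk) ≤ E[∏_j (1 - a3 1{S_j})]` for HIS success events `S_j`, implied by `BdySucc`.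

* `BdyXin A c ms B h`    the inner shield strip of the block `B` is crossed by a walk of sites of `A` of height `≤ -2`: from `latBall c r0` to the complement of `latBall c (ms r0)`   (`ms r0 < r1`)
* `BdyXout A c ms B h`   the same for the outer shield strip: from `latBall c (r2 + 1)` to the complement of `latBall c (ms (r2 + 1))`   (`ms (r2 + 1) < r3`)
* `BdySucc A c ms B h`   neither strip is crossed      INCREASING in `h`
* `bpr_main`             `E_t[∏_{j<N} (1 - a3 1{S_j})] ≤ C (1 - a3/2)^N`, uniformly in the pack, in the trace `t ∈ {-1,0}` (`0` in the annulus) and in `a3 ∈ [0,1]`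

WHY `ms` IS LARGE.  The subset form of `exit_bdy_strip` (`P(all slots of T crossed) ≤ C (1-a1)^|T|`) does not control "one of the TWO strips of every block fails" when `a1 < 1/2` (union bound `2 (1 - a1)`).
A strip of ratio `ms ≥ q^m`, `q = max κ L 2`, contains the `m` separated slots of radii `r0 q^i`, `i < m`; a walk crossing the strip crosses all of them: failure probability `(1-a1)^m ≤ 1/4` per strip.
PROOF.  (1) pocket `P` := (complement of the component of `Sout` off `A ∪ latBall c Rtop`) minus `A ∪ Sin`: hole-free by construction, misses `Sout`: `t = 0` on `latOut A ∩ P`   (`bpr_pocket`);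
(2) `∏_j (1 - a3 1{Succ_j})` is decreasing and local in `A`: `bdy_syn_dom`   (`bpr_dom`);      (3) induction on the number of blocks, peeling the outermost block: `1 - a3 1{Succ} ≤ (1 - a3) + a3 1{Xin} + a3 1{Xout}`   (`bpr_ind`).
-/

set_option autoImplicit false

namespace Claimed.Agent.R291

open Claims Claims.C0467

/-- the inner shield strip is crossed by a walk of sites of `A` of height `≤ -2` -/
def BdyXin (A : Finset TV) (c : TV) (ms : ℕ) (B : BdyBlkD) (h : TV → ℤ) : Prop :=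
  BdyLoX A (-2) (latBall c B.r0 : Set TV) ((latBall c (ms * B.r0) : Set TV)ᶜ) h

/-- the outer shield strip is crossed by a walk of sites of `A` of height `≤ -2` -/
def BdyXout (A : Finset TV) (c : TV) (ms : ℕ) (B : BdyBlkD) (h : TV → ℤ) : Prop :=
  BdyLoX A (-2) (latBall c (B.r2 + 1) : Set TV) ((latBall c (ms * (B.r2 + 1)) : Set TV)ᶜ) h

/-- the block is successful: neither shield strip is crossed -/
def BdySucc (A : Finset TV) (c : TV) (ms : ℕ) (B : BdyBlkD) (h : TV → ℤ) : Prop :=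
  ¬ BdyXin A c ms B h ∧ ¬ BdyXout A c ms B h

/-- the slot of radius `r` and ratio `κ` is crossed -/
def BprSlot (A : Finset TV) (c : TV) (κ r : ℕ) (h : TV → ℤ) : Prop :=
  BdyLoX A (-2) (latBall c r : Set TV) ((latBall c (κ * r) : Set TV)ᶜ) h

/-- the radii of the `m` slots inside a strip of inner radius `b` -/
def bprSub (q m b : ℕ) : Finset ℕ := (Finset.range m).image (fun i => b * q ^ i)

theorem bpr_eqns_cite : True := by
  have := @BdyXin.eq_1; have := @BdyXout.eq_1; have := @BdySucc.eq_1; have := @BprSlot.eq_1; have := @bprSub.eq_1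
  trivial

/-! ## 1. the pocket -/

theorem bpr_ball_mono (c : TV) {r s : ℕ} (h : r ≤ s) : latBall c r ⊆ latBall c s :=
  fun _ hv => lat_mem_ball.2 ((lat_mem_ball.1 hv).trans h)

theorem bpr_ray_out (u0 d : TV) (hd : d ∈ latDirs) (M : ℕ) : ∃ j : ℕ, u0 + j • d ∉ tscBox (-M) M (-M) M := by
  refine ⟨M + u0.1.natAbs + u0.2.natAbs + 1, ?_⟩
  rintro ⟨h1, h2, h3, h4⟩
  have e1 : ∀ (j : ℕ) (d : TV), (u0 + j • d).1 = u0.1 + (j : ℤ) * d.1 := fun j d => by
    rw [Prod.fst_add, Prod.smul_fst, nsmul_eq_mul]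
  have e2 : ∀ (j : ℕ) (d : TV), (u0 + j • d).2 = u0.2 + (j : ℤ) * d.2 := fun j d => by
    rw [Prod.snd_add, Prod.smul_snd, nsmul_eq_mul]
  rw [e1] at h1 h2
  rw [e2] at h3 h4
  simp only [latDirs, Finset.mem_insert, Finset.mem_singleton] at hd
  rcases hd with rfl | rfl | rfl | rfl | rfl | rfl <;>
    simp only [mul_one, mul_zero, mul_neg, add_zero] at h1 h2 h3 h4 <;>
    simp only [Nat.cast_add, Nat.cast_one] at h1 h2 h3 h4 <;> omega

theorem bpr_pocket {A Sin Sout : Finset TV} {c : TV} {a0 Rtop : ℕ} (hg : BdyGeo A c Sin Sout a0 Rtop) (ha : a0 ≤ Rtop) :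
    ∃ P : Finset TV, Disjoint P A ∧ Disjoint P Sin ∧ Disjoint P Sout ∧ latBall c Rtop ⊆ A ∪ P ∪ Sin ∧ MomCo (A ∪ P ∪ Sin) := by
  classical
  obtain ⟨u0, hu0, d, hd, hray⟩ := hg.sout_ray
  obtain ⟨X, hX⟩ : ∃ X : Finset TV, X = A ∪ latBall c Rtop := ⟨_, rfl⟩
  obtain ⟨Ci, hCi⟩ : ∃ Ci : Set TV, Ci = tscComp tscG ((X : Set TV)ᶜ) u0 := ⟨_, rfl⟩
  have hmX : ∀ v, v ∈ X ↔ v ∈ A ∨ v ∈ latBall c Rtop := fun v => by rw [hX, Finset.mem_union]
  obtain ⟨M, hM⟩ : ∃ M : ℕ, ∀ u ∈ X, u.1.natAbs ≤ M ∧ u.2.natAbs ≤ M :=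
    ⟨X.sup (fun u => u.1.natAbs + u.2.natAbs), fun u hu => by
      have := Finset.le_sup (f := fun u : TV => u.1.natAbs + u.2.natAbs) hu
      omega⟩
  have hXbox : (X : Set TV) ⊆ tscBox (-M) M (-M) M := by
    intro u hu
    have := hM u hu
    refine ⟨?_, ?_, ?_, ?_⟩ <;> omega
  have hrayX : ∀ j : ℕ, u0 + j • d ∈ ((X : Set TV)ᶜ) := by
    intro j hj
    rcases (hmX _).1 hj with h | h
    · exact (hray j).1 h
    · exact (hray j).2 h
  have hrayR : ∀ j : ℕ, TscR tscG ((X : Set TV)ᶜ) u0 (u0 + j • d) := by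
    intro j
    induction j with
    | zero => simpa using tsc_R_refl (G := tscG) (s := ((X : Set TV)ᶜ)) u0
    | succ j ih =>
      refine tsc_R_trans ih (tsc_R_step ?_ (hrayX j) (hrayX (j + 1)))
      have : u0 + (j + 1) • d = (u0 + j • d) + d := by rw [succ_nsmul, add_assoc]
      rw [this]
      exact lat_adj_add _ hd
  obtain ⟨j, hj⟩ := bpr_ray_out u0 d hd M
  have hboxC : ∀ v, v ∉ tscBox (-M) M (-M) M → v ∈ Ci := by
    intro v hv
    rw [hCi]
    exact ⟨fun h => hv (hXbox h), tsc_R_trans (hrayR j)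
      (tsc_R_mono (Set.compl_subset_compl.2 hXbox) (tsc_box_compl_conn _ _ _ _ _ hj _ hv))⟩
  have hfin : (Ciᶜ).Finite := (tsc_box_finite (-M) M (-M) M).subset fun v hv => by
    by_contra hb
    exact hv (hboxC v hb)
  have hFill : ∀ v, v ∈ hfin.toFinset ↔ v ∉ Ci := fun v => by rw [Set.Finite.mem_toFinset]; rfl
  have hCX : ∀ v, v ∈ Ci → v ∉ X := fun v hv => by
    rw [hCi] at hv
    exact hv.1
  have hSoutC : ∀ v ∈ Sout, v ∈ Ci := by
    have hsub : (Sout : Set TV) ⊆ ((X : Set TV)ᶜ) := by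
      intro v hv hvX
      have hv' : v ∈ Sout := hv
      rcases (hmX _).1 hvX with h | h
      · exact Finset.disjoint_left.1 hg.sout_off hv' h
      · exact Finset.disjoint_left.1 hg.sout_far hv' h
    intro v hv
    rw [hCi]
    exact ⟨hsub hv, tsc_R_mono hsub (hg.sout_conn u0 hu0 v hv)⟩
  have hSinX : ∀ v ∈ Sin, v ∈ X := fun v hv => (hmX v).2 (Or.inr (bpr_ball_mono c ha (hg.sin_in hv)))
  refine ⟨hfin.toFinset \ (A ∪ Sin), ?_, ?_, ?_, ?_, ?_⟩
  · refine Finset.disjoint_left.2 fun v hv hA => ?_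
    exact (Finset.mem_sdiff.1 hv).2 (Finset.mem_union_left _ hA)
  · refine Finset.disjoint_left.2 fun v hv hA => ?_
    exact (Finset.mem_sdiff.1 hv).2 (Finset.mem_union_right _ hA)
  · refine Finset.disjoint_left.2 fun v hv hS => ?_
    exact (hFill v).1 (Finset.mem_sdiff.1 hv).1 (hSoutC v hS)
  · intro v hv
    have hvF : v ∈ hfin.toFinset := (hFill v).2 fun h => hCX v h ((hmX v).2 (Or.inr hv))
    by_cases h : v ∈ A ∪ Sin
    · rcases Finset.mem_union.1 h with h | h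
      · exact Finset.mem_union_left _ (Finset.mem_union_left _ h)
      · exact Finset.mem_union_right _ h
    · exact Finset.mem_union_left _ (Finset.mem_union_right _ (Finset.mem_sdiff.2 ⟨hvF, h⟩))
  · have heq : (((A ∪ hfin.toFinset \ (A ∪ Sin) ∪ Sin : Finset TV) : Set TV))ᶜ = Ci := by
      ext v
      constructor
      · intro hv
        by_contra hC
        apply hv
        have hvF : v ∈ hfin.toFinset := (hFill v).2 hC
        show v ∈ A ∪ hfin.toFinset \ (A ∪ Sin) ∪ Sin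
        by_cases h : v ∈ A ∪ Sin
        · rcases Finset.mem_union.1 h with h | h
          · exact Finset.mem_union_left _ (Finset.mem_union_left _ h)
          · exact Finset.mem_union_right _ h
        · exact Finset.mem_union_left _ (Finset.mem_union_right _ (Finset.mem_sdiff.2 ⟨hvF, h⟩))
      · intro hv hm
        have hm' : v ∈ A ∪ hfin.toFinset \ (A ∪ Sin) ∪ Sin := hm
        rcases Finset.mem_union.1 hm' with h | h
        · rcases Finset.mem_union.1 h with h | h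
          · exact hCX v hv ((hmX v).2 (Or.inl h))
          · exact (hFill v).1 (Finset.mem_sdiff.1 h).1 hv
        · exact hCX v hv (hSinX v h)
    unfold MomCo
    rw [heq, hCi]
    exact tsc_comp_conn _

/-! ## 2. the slots inside a strip -/

theorem bpr_sub_card {q m b : ℕ} (hq : 2 ≤ q) (hb : 1 ≤ b) : (bprSub q m b).card = m := by
  unfold bprSub
  rw [Finset.card_image_of_injective, Finset.card_range]
  intro i j hij
  have h1 : q ^ i = q ^ j := Nat.eq_of_mul_eq_mul_left (by omega) hij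
  exact Nat.pow_right_injective hq h1

theorem bpr_sub_mem {q m b r : ℕ} (hq : 2 ≤ q) (hr : r ∈ bprSub q m b) : b ≤ r ∧ q * r ≤ b * q ^ m := by
  unfold bprSub at hr
  obtain ⟨i, hi, rfl⟩ := Finset.mem_image.1 hr
  have hi' : i + 1 ≤ m := Finset.mem_range.1 hi
  refine ⟨Nat.le_mul_of_pos_right _ (pow_pos (by omega) _), ?_⟩
  calc q * (b * q ^ i) = b * q ^ (i + 1) := by ring
    _ ≤ b * q ^ m := Nat.mul_le_mul_left _ (Nat.pow_le_pow_right (by omega) hi')

theorem bpr_sub_sep {q m b r r' : ℕ} (hq : 2 ≤ q) (hr : r ∈ bprSub q m b) (hr' : r' ∈ bprSub q m b) (h : r < r') : q * r ≤ r' := by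
  unfold bprSub at hr hr'
  obtain ⟨i, _, rfl⟩ := Finset.mem_image.1 hr
  obtain ⟨j, _, rfl⟩ := Finset.mem_image.1 hr'
  have hij : i < j := by
    by_contra hc
    have : q ^ j ≤ q ^ i := Nat.pow_le_pow_right (by omega) (not_lt.1 hc)
    exact absurd h (not_lt.2 (Nat.mul_le_mul_left _ this))
  calc q * (b * q ^ i) = b * q ^ (i + 1) := by ring
    _ ≤ b * q ^ j := Nat.mul_le_mul_left _ (Nat.pow_le_pow_right (by omega) hij)

/-! ## 3. the induction on the blocks (synthetic law), domination -/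

/-- the radii of a set of slots are admissible for `exit_bdy_strip` -/
structure BprVal (c : TV) (Q1 : Finset TV) (κ L ρ0 R : ℕ) (T : Finset ℕ) : Prop where
  rng : ∀ r ∈ T, ρ0 ≤ r ∧ Q1 ⊆ latBall c r ∧ κ * r ≤ R
  sep : ∀ r ∈ T, ∀ r' ∈ T, r < r' → L * r ≤ r'

open Classical in
/-- indicator of a proposition -/
noncomputable def bprI (p : Prop) : ℝ := if p then 1 else 0

theorem bpr_I_eqns_cite : True := by
  have := @bprI.eq_1
  trivial

theorem bpr_I_true {p : Prop} (h : p) : bprI p = 1 := by unfold bprI; exact if_pos h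

theorem bpr_I_false {p : Prop} (h : ¬ p) : bprI p = 0 := by unfold bprI; exact if_neg h

theorem bpr_I_nonneg (p : Prop) : 0 ≤ bprI p := by
  by_cases h : p
  · rw [bpr_I_true h]; exact zero_le_one
  · rw [bpr_I_false h]

theorem bpr_succ_mono {A : Finset TV} {c : TV} {ms : ℕ} {B : BdyBlkD} {h h' : TV → ℤ} (hh : ∀ u ∈ A, h u ≤ h' u)
    (hs : BdySucc A c ms B h) : BdySucc A c ms B h' :=
  ⟨fun hx => hs.1 (bdy_lox_anti hh hx), fun hx => hs.2 (bdy_lox_anti hh hx)⟩

theorem bpr_succ_congr {A : Finset TV} {c : TV} {ms : ℕ} {B : BdyBlkD} {h h' : TV → ℤ} (hh : ∀ u ∈ A, h u = h' u) :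
    BdySucc A c ms B h ↔ BdySucc A c ms B h' :=
  ⟨bpr_succ_mono fun u hu => (hh u hu).le, bpr_succ_mono fun u hu => (hh u hu).ge⟩

theorem bpr_fac_nonneg {a : ℝ} (_ha0 : 0 ≤ a) (ha1 : a ≤ 1) (p : Prop) [Decidable p] : 0 ≤ 1 - a * (if p then 1 else 0) := by
  split_ifs <;> linarith

theorem bpr_fac_le_one {a : ℝ} (ha0 : 0 ≤ a) (p : Prop) [Decidable p] : 1 - a * (if p then 1 else 0) ≤ 1 := by
  split_ifs <;> linarith

theorem bpr_fac_anti {a : ℝ} (ha0 : 0 ≤ a) {p p' : Prop} [Decidable p] [Decidable p'] (h : p → p') :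
    1 - a * (if p' then 1 else 0) ≤ 1 - a * (if p then 1 else 0) := by
  by_cases hp : p
  · simp [hp, h hp]
  · simp only [hp, if_false]
    split_ifs <;> linarith

/-- a walk crossing a strip of ratio `ms ≥ q^m` crosses its `m` slots -/
theorem bpr_strip_slots {A : Finset TV} {c : TV} {κ q m ms b : ℕ} (hq : 2 ≤ q) (hκq : κ ≤ q) (hms : q ^ m ≤ ms) {h : TV → ℤ}
    (hx : BdyLoX A (-2) (latBall c b : Set TV) ((latBall c (ms * b) : Set TV)ᶜ) h) : ∀ r ∈ bprSub q m b, BprSlot A c κ r h := by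
  intro r hr
  obtain ⟨h1, h2⟩ := bpr_sub_mem hq hr
  refine bdy_lox_sets (Finset.coe_subset.2 (bpr_ball_mono c h1)) (Set.compl_subset_compl.2 (Finset.coe_subset.2 (bpr_ball_mono c ?_))) hx
  calc κ * r ≤ q * r := Nat.mul_le_mul_right _ hκq
    _ ≤ b * q ^ m := h2
    _ ≤ b * ms := Nat.mul_le_mul_left _ hms
    _ = ms * b := Nat.mul_comm _ _

/-- adding the slots of a strip below all the radii of `T` -/
theorem bpr_val_union {c : TV} {Q1 : Finset TV} {κ L ρ0 R q m b top : ℕ} {T : Finset ℕ} (hq : 2 ≤ q) (hκq : κ ≤ q) (hLq : L ≤ q)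
    (hT : BprVal c Q1 κ L ρ0 R T) (hb1 : 1 ≤ b) (hb : ρ0 ≤ b) (hQ : Q1 ⊆ latBall c b) (htop : b * q ^ m ≤ top) (hR : top ≤ R)
    (hTt : ∀ r ∈ T, top ≤ r) : BprVal c Q1 κ L ρ0 R (T ∪ bprSub q m b) ∧ Disjoint T (bprSub q m b) := by
  have hS : ∀ r ∈ bprSub q m b, b ≤ r ∧ q * r ≤ top := fun r hr =>
    ⟨(bpr_sub_mem hq hr).1, (bpr_sub_mem hq hr).2.trans htop⟩
  refine ⟨⟨fun r hr => ?_, fun r hr r' hr' hlt => ?_⟩, ?_⟩
  · rcases Finset.mem_union.1 hr with hr | hr
    · exact hT.rng r hr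
    · exact ⟨hb.trans (hS r hr).1, hQ.trans (bpr_ball_mono c (hS r hr).1),
        (Nat.mul_le_mul_right _ hκq).trans ((hS r hr).2.trans hR)⟩
  · rcases Finset.mem_union.1 hr with hr | hr <;> rcases Finset.mem_union.1 hr' with hr' | hr'
    · exact hT.sep r hr r' hr' hlt
    · exfalso
      have h1 := hTt r hr
      have h2 := (hS r' hr').2
      have h3 : r' ≤ q * r' := Nat.le_mul_of_pos_left _ (by omega)
      omega
    · exact (Nat.mul_le_mul_right _ hLq).trans ((hS r hr).2.trans (hTt r' hr'))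
    · exact (Nat.mul_le_mul_right _ hLq).trans (bpr_sub_sep hq hr hr' hlt)
  · refine Finset.disjoint_left.2 fun r hr hr' => ?_
    have h1 := hTt r hr
    have h2 := hS r hr'
    have h3 : 2 * r ≤ q * r := Nat.mul_le_mul_right _ hq
    omega

open Classical in
theorem bpr_pt {a Q : ℝ} (ha0 : 0 ≤ a) (hQ0 : 0 ≤ Q) {s xi xo t pI pO : Prop}
    (hs : ¬ s → xi ∨ xo) (hi : t → xi → pI) (ho : t → xo → pO) :
    Q * (1 - a * (if s then 1 else 0)) * bprI t ≤
      (1 - a) * (Q * bprI t) + (a * (Q * bprI pI) + a * (Q * bprI pO)) := by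
  have hi0 : (0 : ℝ) ≤ a * (Q * bprI pI) := mul_nonneg ha0 (mul_nonneg hQ0 (bpr_I_nonneg _))
  have ho0 : (0 : ℝ) ≤ a * (Q * bprI pO) := mul_nonneg ha0 (mul_nonneg hQ0 (bpr_I_nonneg _))
  by_cases ht : t
  · rw [bpr_I_true ht]
    by_cases hs' : s
    · simp only [hs', if_true, mul_one]
      linarith
    · rcases hs hs' with hx | hx
      · rw [bpr_I_true (hi ht hx)]
        simp only [hs', if_false, mul_one, mul_zero, sub_zero]
        linarith
      · rw [bpr_I_true (ho ht hx)]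
        simp only [hs', if_false, mul_one, mul_zero, sub_zero]
        linarith
  · rw [bpr_I_false ht]
    simp only [mul_zero, zero_add]
    linarith

open Classical in
/-- peeling the blocks from the outermost one -/
theorem bpr_ind {x : ℝ} (hx0 : 0 < x) {A P Q1 : Finset TV} {c : TV} {κ L ρ0 R q m ms : ℕ} {C e : ℝ} (hC : 0 < C) (he0 : 0 ≤ e) (hem : e ^ m ≤ 1 / 4)
    (hq : 2 ≤ q) (hκq : κ ≤ q) (hLq : L ≤ q) (hms : q ^ m ≤ ms)
    (hstrip : ∀ T : Finset ℕ, BprVal c Q1 κ L ρ0 R T → bdySynP x A P (fun h => ∀ r ∈ T, BprSlot A c κ r h) ≤ C * e ^ T.card)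
    (B : ℕ → BdyBlkD) (N0 : ℕ)
    (h0 : ∀ j < N0, 1 ≤ (B j).r0 ∧ ρ0 ≤ (B j).r0 ∧ Q1 ⊆ latBall c (B j).r0)
    (h1 : ∀ j < N0, ms * (B j).r0 ≤ (B j).r2 + 1) (h2 : ∀ j < N0, ms * ((B j).r2 + 1) ≤ (B j).r3) (h3 : ∀ j < N0, (B j).r3 ≤ R)
    (h4 : ∀ j j', j < j' → j' < N0 → (B j).r3 ≤ (B j').r0)
    {a : ℝ} (ha0 : 0 ≤ a) (ha1 : a ≤ 1) (N : ℕ) (hN : N ≤ N0) (T : Finset ℕ) (hT : BprVal c Q1 κ L ρ0 R T)
    (hTN : ∀ r ∈ T, ∀ j < N, (B j).r3 ≤ r) :
    bdySynE x A P (fun h => (∏ j ∈ Finset.range N, (1 - a * (if BdySucc A c ms (B j) h then 1 else 0))) * bprI (∀ r ∈ T, BprSlot A c κ r h))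
      ≤ C * e ^ T.card * (1 - a / 2) ^ N := by
  induction N generalizing T with
  | zero =>
    simp only [Finset.range_zero, Finset.prod_empty, one_mul, pow_zero, mul_one]
    exact hstrip T hT
  | succ N ih =>
    have hN' : N < N0 := hN
    obtain ⟨hb1, hbρ, hbQ⟩ := h0 N hN'
    have hms1 : 1 ≤ ms := le_trans (Nat.one_le_pow _ _ (by omega)) hms
    have hr0r2 : (B N).r0 ≤ (B N).r2 + 1 := le_trans (Nat.le_mul_of_pos_left _ hms1) (h1 N hN')
    have hr2r3 : (B N).r2 + 1 ≤ (B N).r3 := le_trans (Nat.le_mul_of_pos_left _ hms1) (h2 N hN')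
    have htopI : (B N).r0 * q ^ m ≤ (B N).r3 := by
      calc (B N).r0 * q ^ m ≤ (B N).r0 * ms := Nat.mul_le_mul_left _ hms
        _ = ms * (B N).r0 := Nat.mul_comm _ _
        _ ≤ (B N).r3 := (h1 N hN').trans hr2r3
    have htopO : ((B N).r2 + 1) * q ^ m ≤ (B N).r3 := by
      calc ((B N).r2 + 1) * q ^ m ≤ ((B N).r2 + 1) * ms := Nat.mul_le_mul_left _ hms
        _ = ms * ((B N).r2 + 1) := Nat.mul_comm _ _
        _ ≤ (B N).r3 := h2 N hN'
    have hTt : ∀ r ∈ T, (B N).r3 ≤ r := fun r hr => hTN r hr N (Nat.lt_succ_self N)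
    obtain ⟨hvI, hdI⟩ := bpr_val_union (m := m) hq hκq hLq hT hb1 hbρ hbQ htopI (h3 N hN') hTt
    obtain ⟨hvO, hdO⟩ := bpr_val_union (m := m) hq hκq hLq hT (by omega : 1 ≤ (B N).r2 + 1) (hbρ.trans hr0r2)
      (hbQ.trans (bpr_ball_mono c hr0r2)) htopO (h3 N hN') hTt
    have hcI : (T ∪ bprSub q m (B N).r0).card = T.card + m := by
      rw [Finset.card_union_of_disjoint hdI, bpr_sub_card hq hb1]
    have hcO : (T ∪ bprSub q m ((B N).r2 + 1)).card = T.card + m := by
      rw [Finset.card_union_of_disjoint hdO, bpr_sub_card hq (by omega)]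
    have ih0 := ih (by omega) T hT (fun r hr j hj => hTN r hr j (by omega))
    have ihI := ih (by omega) _ hvI (fun r hr j hj => by
      rcases Finset.mem_union.1 hr with hr | hr
      · exact hTN r hr j (by omega)
      · exact (h4 j N hj hN').trans (bpr_sub_mem hq hr).1)
    have ihO := ih (by omega) _ hvO (fun r hr j hj => by
      rcases Finset.mem_union.1 hr with hr | hr
      · exact hTN r hr j (by omega)
      · exact ((h4 j N hj hN').trans hr0r2).trans (bpr_sub_mem hq hr).1)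
    rw [hcI] at ihI
    rw [hcO] at ihO
    have hpt : ∀ h : TV → ℤ,
        (∏ j ∈ Finset.range (N + 1), (1 - a * (if BdySucc A c ms (B j) h then 1 else 0))) * bprI (∀ r ∈ T, BprSlot A c κ r h) ≤
        (1 - a) * ((∏ j ∈ Finset.range N, (1 - a * (if BdySucc A c ms (B j) h then 1 else 0))) * bprI (∀ r ∈ T, BprSlot A c κ r h)) +
        (a * ((∏ j ∈ Finset.range N, (1 - a * (if BdySucc A c ms (B j) h then 1 else 0))) * bprI (∀ r ∈ T ∪ bprSub q m (B N).r0, BprSlot A c κ r h)) +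
         a * ((∏ j ∈ Finset.range N, (1 - a * (if BdySucc A c ms (B j) h then 1 else 0))) * bprI (∀ r ∈ T ∪ bprSub q m ((B N).r2 + 1), BprSlot A c κ r h))) := by
      intro h
      rw [Finset.prod_range_succ]
      refine bpr_pt ha0 (Finset.prod_nonneg fun j _ => bpr_fac_nonneg ha0 ha1 (BdySucc A c ms (B j) h)) (xi := BdyXin A c ms (B N) h) (xo := BdyXout A c ms (B N) h)
        ?_ ?_ ?_
      · intro hs
        by_contra hc
        exact hs ⟨fun hx => hc (Or.inl hx), fun hx => hc (Or.inr hx)⟩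
      · intro ht hx r hr
        rcases Finset.mem_union.1 hr with hr | hr
        · exact ht r hr
        · exact bpr_strip_slots hq hκq hms hx r hr
      · intro ht hx r hr
        rcases Finset.mem_union.1 hr with hr | hr
        · exact ht r hr
        · exact bpr_strip_slots hq hκq hms hx r hr
    refine le_trans (bdy_syn_mono hx0 A P fun g _ _ => hpt g) ?_
    rw [bdy_syn_add, bdy_syn_add, bdy_syn_smul, bdy_syn_smul, bdy_syn_smul]
    obtain ⟨K, hK⟩ : ∃ K : ℝ, K = C * e ^ T.card * (1 - a / 2) ^ N := ⟨_, rfl⟩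
    have hK0 : 0 ≤ K := by
      rw [hK]
      have : 0 ≤ 1 - a / 2 := by linarith
      positivity
    have e1 : C * e ^ (T.card + m) * (1 - a / 2) ^ N = K * e ^ m := by rw [hK, pow_add]; ring
    rw [e1] at ihI ihO
    rw [← hK] at ih0
    have e2 : C * e ^ T.card * (1 - a / 2) ^ (N + 1) = K * (1 - a / 2) := by rw [hK, pow_succ]; ring
    rw [e2]
    have hKe : K * e ^ m ≤ K * (1 / 4) := mul_le_mul_of_nonneg_left hem hK0
    have s0 := mul_le_mul_of_nonneg_left ih0 (by linarith : 0 ≤ 1 - a)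
    have s1 := mul_le_mul_of_nonneg_left (ihI.trans hKe) ha0
    have s2 := mul_le_mul_of_nonneg_left (ihO.trans hKe) ha0
    refine le_trans (add_le_add s0 (add_le_add s1 s2)) (le_of_eq ?_)
    ring

open Classical in
theorem bpr_dom {x : ℝ} (hx0 : 0 < x) (hx1 : x ≤ 1) {A P : Finset TV} (hAP : Disjoint A P) {t : TV → ℤ} (hne : ∃ h, HtAdm A t h)
    (h1 : ∀ u ∈ latOut A, -1 ≤ t u) (h0 : ∀ u ∈ latOut A, u ∈ P → 0 ≤ t u) (c : TV) (ms : ℕ) (B : ℕ → BdyBlkD) (N : ℕ) {a : ℝ} (ha0 : 0 ≤ a) (ha1 : a ≤ 1) :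
    htE x A t (fun h => ∏ j ∈ Finset.range N, (1 - a * (if BdySucc A c ms (B j) h then 1 else 0)))
      ≤ bdySynE x A P (fun h => ∏ j ∈ Finset.range N, (1 - a * (if BdySucc A c ms (B j) h then 1 else 0))) := by
  have key := bdy_syn_dom hx0 hx1 hAP hne h1 h0
    (G := fun h => (-1) * ∏ j ∈ Finset.range N, (1 - a * (if BdySucc A c ms (B j) h then 1 else 0)))
    (fun h h' hh => by
      have : ∏ j ∈ Finset.range N, (1 - a * (if BdySucc A c ms (B j) h' then 1 else 0)) ≤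
          ∏ j ∈ Finset.range N, (1 - a * (if BdySucc A c ms (B j) h then 1 else 0)) :=
        Finset.prod_le_prod (fun j _ => bpr_fac_nonneg ha0 ha1 _) (fun j _ => bpr_fac_anti ha0 (bpr_succ_mono fun u _ => hh u))
      simp only [neg_mul, one_mul, neg_le_neg_iff]
      exact this)
    (fun h h' hh => by
      have : ∀ j, (BdySucc A c ms (B j) h ↔ BdySucc A c ms (B j) h') := fun j =>
        bpr_succ_congr fun u hu => hh u (lat_mem_cl.2 (Or.inl hu))
      simp only [this])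
  rw [bdy_syn_smul, ht_E_smul] at key
  linarith

/-! ## 5. the exit of this file -/

/-- the radii of one block are increasing -/
theorem bpr_blk_chain {A : Finset TV} {c : TV} {k K1 Lq n0 ms : ℕ} {B : BdyBlkD} (hB : BdyBlk A c k K1 Lq n0 ms B) (hms : 1 ≤ ms) :
    1 ≤ B.a ∧ n0 ≤ B.a ∧ B.a ≤ B.r0 ∧ ms * B.r0 ≤ B.r2 + 1 ∧ ms * (B.r2 + 1) ≤ B.r3 ∧ B.r0 ≤ B.r3 ∧ B.r3 ≤ B.b3 := by
  have h1 := hB.ha
  have h2 := hB.hb0
  have h3 := hB.hr0
  have h4 := hB.hr1
  have h5 := hB.hr12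
  have h6 := hB.hr3
  have h7 := hB.hb3
  have h8 : B.r0 ≤ ms * B.r0 := Nat.le_mul_of_pos_left _ hms
  have h9 : B.r2 + 1 ≤ ms * (B.r2 + 1) := Nat.le_mul_of_pos_left _ hms
  refine ⟨h1.1, h1.2, ?_, ?_, ?_, ?_, ?_⟩ <;> omega

/-- the blocks of a pack are nested -/
theorem bpr_pack_nest {δ : ℝ} {p : ℝ × ℝ} {r R : ℝ} {A : Finset TV} {K1 Lq n0 ms N : ℕ} {c : TV} {k : ℕ} {Sin Sout : Finset TV} {Rtop : ℕ}
    {B : ℕ → BdyBlkD} (hp : BdyPack δ p r R A K1 Lq n0 ms N c k Sin Sout Rtop B) (hms : 1 ≤ ms) :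
    ∀ j j', j < j' → j' < N → (B j).b3 ≤ (B j').a := by
  intro j j' hjj'
  induction j', hjj' using Nat.le_induction with
  | base =>
    intro hN
    have := hp.nest j hN
    show (B j).b3 ≤ (B (j + 1)).a
    omega
  | succ i hi ih =>
    intro hN
    have h1 := ih (by omega)
    have h2 := hp.nest i hN
    obtain ⟨_, _, h3, _, _, h4, h5⟩ := bpr_blk_chain (hp.blk i (by omega)) hms
    omega

open Classical in
/-- **the synthetic side of [ARCH]** -/
theorem bpr_main (x : ℝ) (hx1 : 1 / Real.sqrt 2 ≤ x) (hx2 : x ≤ 1) :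
    ∃ (C : ℝ) (ms0 n00 : ℕ), 0 < C ∧ ∀ (δ : ℝ) (p : ℝ × ℝ) (r R : ℝ) (A : Finset TV) (K1 Lq n0 ms N : ℕ) (c : TV) (k : ℕ) (Sin Sout : Finset TV) (Rtop : ℕ)
      (B : ℕ → BdyBlkD), ms0 ≤ ms → n00 ≤ n0 → BdyPack δ p r R A K1 Lq n0 ms N c k Sin Sout Rtop B →
      ∀ t : TV → ℤ, (∀ u, t u = -1 ∨ t u = 0) → (∀ u, u ∉ bdyIn δ p r → u ∉ bdyOut δ p R → t u = 0) →
      ∀ a3 : ℝ, 0 ≤ a3 → a3 ≤ 1 → ∀ S : ℕ → (TV → ℤ) → Prop, (∀ j < N, ∀ h, BdySucc A c ms (B j) h → S j h) →
        htE x A t (fun h => ∏ j ∈ Finset.range N, (1 - a3 * (if S j h then 1 else 0))) ≤ C * (1 - a3 / 2) ^ N := by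
  have hx0 : 0 < x := lt_of_lt_of_le (by positivity) hx1
  obtain ⟨C, a1, κ, L, ρ0, hC, ha1, ha1', hstrip⟩ := exit_bdy_strip x hx1 hx2
  obtain ⟨m, hm⟩ : ∃ m : ℕ, (1 - a1) ^ m < 1 / 4 := exists_pow_lt_of_lt_one (by norm_num) (by linarith)
  obtain ⟨q, hq⟩ : ∃ q : ℕ, q = max (max κ L) 2 := ⟨_, rfl⟩
  have hq2 : 2 ≤ q := by rw [hq]; exact le_max_right _ _
  have hκq : κ ≤ q := by rw [hq]; exact le_trans (le_max_left _ _) (le_max_left _ _)
  have hLq : L ≤ q := by rw [hq]; exact le_trans (le_max_right _ _) (le_max_left _ _)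
  refine ⟨max C 1, q ^ m, max ρ0 1, lt_of_lt_of_le hC (le_max_left _ _), ?_⟩
  intro δ p r R A K1 Lq n0 ms N c k Sin Sout Rtop B hms hn0 hp t ht01 ht0 a3 h30 h31 S hS
  have hms1 : 1 ≤ ms := le_trans (Nat.one_le_pow _ _ (by omega)) hms
  have hfac : 0 ≤ 1 - a3 / 2 := by linarith
  have hrhs : 0 ≤ max C 1 * (1 - a3 / 2) ^ N := mul_nonneg (le_trans hC.le (le_max_left _ _)) (pow_nonneg hfac _)
  have step1 : htE x A t (fun h => ∏ j ∈ Finset.range N, (1 - a3 * (if S j h then 1 else 0))) ≤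
      htE x A t (fun h => ∏ j ∈ Finset.range N, (1 - a3 * (if BdySucc A c ms (B j) h then 1 else 0))) :=
    ht_E_mono hx0 A t fun H _ => Finset.prod_le_prod (fun j _ => bpr_fac_nonneg h30 h31 (S j H))
      (fun j hj => bpr_fac_anti h30 (hS j (Finset.mem_range.1 hj) H))
  refine step1.trans ?_
  by_cases hne : ∃ h, HtAdm A t h
  swap
  · exact ht_E_le_const hx0 A t hrhs fun H hH => absurd ⟨H, hH⟩ hne
  rcases Nat.eq_zero_or_pos N with rfl | hNpos
  · simp only [Finset.range_zero, Finset.prod_empty, pow_zero, mul_one]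
    exact (ht_E_one_le hx0 A t).trans (le_max_right _ _)
  have hch := fun j (hj : j < N) => bpr_blk_chain (hp.blk j hj) hms1
  have hnest := bpr_pack_nest hp hms1
  have ha0R : (B 0).a ≤ Rtop := by
    obtain ⟨_, _, h3, _, _, h4, h5⟩ := hch 0 hNpos
    have := hp.last 0 hNpos
    omega
  obtain ⟨P, hPA, hPSin, hPSout, hball, hco⟩ := bpr_pocket hp.geo ha0R
  have h4 : ∀ j j', j < j' → j' < N → (B j).r3 ≤ (B j').r0 := by
    intro j j' hjj' hj'
    obtain ⟨_, _, _, _, _, _, h5⟩ := hch j (by omega)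
    obtain ⟨_, _, h3, _, _, _, _⟩ := hch j' hj'
    have := hnest j j' hjj' hj'
    omega
  have hstrip' : ∀ T : Finset ℕ, BprVal c Sin κ L ρ0 Rtop T →
      bdySynP x A P (fun h => ∀ r ∈ T, BprSlot A c κ r h) ≤ C * (1 - a1) ^ T.card := fun T hT =>
    hstrip A P Sin c Rtop T hp.geo.co hco hp.geo.sin_conn hPA hp.geo.sin_off hPSin hball hp.geo.c_off hT.rng hT.sep
  have hdom := bpr_dom hx0 hx2 hPA.symm hne (fun u _ => by rcases ht01 u with h | h <;> omega)
    (fun u hu huP => by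
      rw [ht0 u (fun hin => Finset.disjoint_left.1 hPSin huP (hp.win u hu hin))
        (fun hout => Finset.disjoint_left.1 hPSout huP (hp.far u hu hout))]) c ms B N h30 h31
  refine hdom.trans ?_
  have hind := bpr_ind hx0 hC (by linarith : 0 ≤ 1 - a1) hm.le hq2 hκq hLq hms hstrip' B N
    (fun j hj => by
      obtain ⟨g1, g2, g3, _, _, _, _⟩ := hch j hj
      refine ⟨by omega, le_trans (le_trans (le_max_left _ _) hn0) (by omega), hp.geo.sin_in.trans (bpr_ball_mono c ?_)⟩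
      rcases Nat.eq_zero_or_pos j with rfl | hj0
      · exact g3
      · obtain ⟨_, _, f3, _, _, f4, _⟩ := hch 0 hNpos
        have := h4 0 j hj0 hj
        omega)
    (fun j hj => (hch j hj).2.2.2.1) (fun j hj => (hch j hj).2.2.2.2.1)
    (fun j hj => by
      obtain ⟨_, _, _, _, _, _, g7⟩ := hch j hj
      have := hp.last j hj
      omega)
    h4 h30 h31 N le_rfl ∅ ⟨fun r hr => absurd hr (Finset.notMem_empty r), fun r hr => absurd hr (Finset.notMem_empty r)⟩
    (fun r hr => absurd hr (Finset.notMem_empty r))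
  have hI : ∀ h : TV → ℤ, bprI (∀ r ∈ (∅ : Finset ℕ), BprSlot A c κ r h) = 1 := fun h =>
    bpr_I_true fun r hr => absurd hr (Finset.notMem_empty r)
  simp only [hI, mul_one, Finset.card_empty, pow_zero] at hind
  exact hind.trans (mul_le_mul_of_nonneg_right (le_max_left _ _) (pow_nonneg hfac _))

end Claimed.Agent.R291
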