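import Claimed.Agent.R291.Bdy.Bulk
import Claimed.Agent.R291.Bdy.Att
import Claimed.Agent.R291.Bdy.Top
import Claimed.Agent.R291.Defs.BdyGeo

/-!
# Row 291 (S0539), unit BDY, file Bdy/Upg      (owner: helper205; head of BDY helper128; consumers helper173 `exit_bdy_arch`, helper181 `Bdy/Multi`; prefix `bdy_hull_`, `bdy_upg_`, `BdyRet`, `BdyBridge`)

UPGRADE OF A RETAINED BLOCK.      TEX[prop:boundary-arch] l.600-668, R6 of `origin/helper173:notes/R291/sec6b_173.md`, on the geometry `BdyBlk` of Defs/BdyGeo.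

* `bdyHull X`             the HULL of a finite set: `X` with the finite components of its complement.   `bdy_hull_sub`, `bdy_hull_co` (`MomCo`), `bdy_hull_ball`, `bdy_hull_out`, `bdy_hull_avoid`
* `BdyRet A c B M η I O`  **CONTRACT with Bdy/Multi**: the retained problem of one block: `M = A \ (I ∪ O)`, `I ⊇ latBall c r0` connected inside `latBall c r1` (inner ball + inner invasion),
                          `O ⊇ (latBall c r3)ᶜ` connected off `latBall c r2` (outside + outer invasion), the trace `η` is feasible, `≥ -1` on `latOut M`, `≥ 0` on the two boundary arcs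
* `BdyBridge M B h`       ONE walk of sites of height `≥ 0` from the anchor `aL` to the anchor `aR` inside `M ∪ PL ∪ PR`      (increasing)
* `bdy_upg`               **(UPG)**: `∃ K1 Lq n0 a3`, `a3 ≤ htP x M η (BdyBridge M B)` for every retained problem of every block
* `bdy_upg_arch`          bridge + (TOP) of Bdy/Top: no walk of sites of `A ∩ latBall c (3 b3 + 1)` of height `≤ -1` from the outside of `latBall c (3 b3)` to `latBall c a`;   `bdy_upg_blk` its probability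

PROOF.  Pockets `P = bdyHull (M ∪ latBall q L) \ M` at `q = qL, qR`: the set `I ∪ (opposite arc) ∪ O` is connected, misses `M ∪ latBall q L` and leaves every ball, so it misses the hull: `latOut M ∩ P` lies in the arc of `q` (`cover`), where `η ≥ 0`.
`bdy_att` twice (128), `bdy_tube_prob` (all the (P0) events at the tube centres), association: probability `≥ ca² c0^(100 Lq)`.
On the three events: `J` = invasion of the tube core through the negative sites, inside the working annulus; `PL ∪ latBall c r0 ∪ PR` is connected and misses `J`: ONE component `D`; the layer of `J` seen from `D` is connected (Timar), `h ≥ 0` on it,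
and both attachment walks reach it.
-/

set_option autoImplicit false

namespace Claimed.Agent.R291

open Claims Claims.C0467

/-! ## 1. the hull of a finite set -/

open Classical in
/-- the hull of `X`: the sites which are not joined to infinity off `X` -/
noncomputable def bdyHull (X : Finset TV) : Finset TV :=
  (latBall 0 (X.sup latN)).filter (fun u => ¬ TscR tscG ((↑X : Set TV)ᶜ) (((X.sup latN + 1 : ℕ) : ℤ), 0) u)

theorem bdy_hull_eqns_cite : True := by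
  have := @bdyHull.eq_1
  trivial

theorem bdy_hull_base (X : Finset TV) : X ⊆ latBall 0 (X.sup latN) := by
  intro u hu
  rw [lat_mem_ball, sub_zero]
  exact Finset.le_sup (f := latN) hu

theorem bdy_hull_pt (X : Finset TV) : ((((X.sup latN + 1 : ℕ) : ℤ), 0) : TV) ∉ latBall 0 (X.sup latN) := by
  rw [lat_mem_ball, sub_zero, plh_N_hor, Int.natAbs_natCast]
  omega

theorem bdy_hull_not_mem {X : Finset TV} {u : TV} :
    u ∉ bdyHull X ↔ TscR tscG ((↑X : Set TV)ᶜ) (((X.sup latN + 1 : ℕ) : ℤ), 0) u := by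
  classical
  unfold bdyHull
  rw [Finset.mem_filter, not_and, not_not]
  refine ⟨fun h => ?_, fun h _ => h⟩
  by_cases hu : u ∈ latBall 0 (X.sup latN)
  · exact h hu
  · refine tsc_R_mono (s := (↑(latBall 0 (X.sup latN)) : Set TV)ᶜ) ?_
      (plh_ball_compl_conn 0 (X.sup latN) _ (fun hm => bdy_hull_pt X (Finset.mem_coe.1 hm)) u (fun hm => hu (Finset.mem_coe.1 hm)))
    intro v hv hvX
    exact hv (Finset.mem_coe.2 (bdy_hull_base X (Finset.mem_coe.1 hvX)))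

theorem bdy_hull_sub (X : Finset TV) : X ⊆ bdyHull X := by
  intro u hu
  by_contra hn
  have h1 := bdy_hull_not_mem.1 hn
  have h0 : ((((X.sup latN + 1 : ℕ) : ℤ), 0) : TV) ∈ ((↑X : Set TV)ᶜ) := fun hm => bdy_hull_pt X (bdy_hull_base X (Finset.mem_coe.1 hm))
  exact tsc_R_mem h1 h0 (Finset.mem_coe.2 hu)

/-- a site off the hull is joined off `X` to sites off the hull only -/
theorem bdy_hull_out {X : Finset TV} {u v : TV} (hu : u ∉ bdyHull X) (hw : TscR tscG ((↑X : Set TV)ᶜ) u v) : v ∉ bdyHull X :=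
  bdy_hull_not_mem.2 (tsc_R_trans (bdy_hull_not_mem.1 hu) hw)

/-- **the hull has no hole** -/
theorem bdy_hull_co (X : Finset TV) : MomCo (bdyHull X) := by
  have h0 : ((((X.sup latN + 1 : ℕ) : ℤ), 0) : TV) ∈ ((↑X : Set TV)ᶜ) := fun hm => bdy_hull_pt X (bdy_hull_base X (Finset.mem_coe.1 hm))
  have e : ((↑(bdyHull X) : Set TV)ᶜ) = tscComp tscG ((↑X : Set TV)ᶜ) (((X.sup latN + 1 : ℕ) : ℤ), 0) := by
    ext u
    constructor
    · intro hu
      have h1 := bdy_hull_not_mem.1 (fun hm => hu (Finset.mem_coe.2 hm))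
      exact ⟨tsc_R_mem h1 h0, h1⟩
    · intro hu hm
      exact bdy_hull_not_mem.2 hu.2 (Finset.mem_coe.1 hm)
  unfold MomCo
  rw [e]
  exact tsc_comp_conn _

/-- the hull stays in every ball which contains `X` -/
theorem bdy_hull_ball {X : Finset TV} {c : TV} {R : ℕ} (hX : X ⊆ latBall c R) : bdyHull X ⊆ latBall c R := by
  intro u hu
  by_contra hn
  have hn' : R < latN (u - c) := by
    rw [lat_mem_ball] at hn
    omega
  obtain ⟨w, hw1, hw2⟩ := plh_escape c R (X.sup latN + latN c + 1) u hn'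
  have hwX : TscR tscG ((↑X : Set TV)ᶜ) u w := by
    refine tsc_R_mono (s := (↑(latBall c R) : Set TV)ᶜ) ?_ hw2
    intro v hv hvX
    exact hv (Finset.mem_coe.2 (hX (Finset.mem_coe.1 hvX)))
  have hw3 : w ∉ bdyHull X := by
    intro hm
    have h1 : w ∈ latBall 0 (X.sup latN) := by
      classical
      unfold bdyHull at hm
      exact (Finset.mem_filter.1 hm).1
    rw [lat_mem_ball, sub_zero] at h1
    have h2 : latN (w - c) ≤ latN w + latN c := by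
      have := plh_N_add w (-c)
      rwa [plh_N_neg, ← sub_eq_add_neg] at this
    omega
  exact bdy_hull_out hw3 (tsc_R_symm hwX) hu

/-- a connected set which misses `X` and leaves a ball containing `X` misses the hull -/
theorem bdy_hull_avoid {X : Finset TV} {c : TV} {R : ℕ} (hX : X ⊆ latBall c R) {E : Set TV} (hE : TscConn tscG E)
    (hEX : ∀ u ∈ E, u ∉ X) {e : TV} (he : e ∈ E) (heR : e ∉ latBall c R) : ∀ u ∈ E, u ∉ bdyHull X := by
  intro u hu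
  refine bdy_hull_out (fun hm => heR (bdy_hull_ball hX hm)) (tsc_R_mono (s := E) ?_ (hE e he u hu))
  intro v hv hvX
  exact hEX v hv (Finset.mem_coe.1 hvX)

/-! ## 2. the retained problem of one block -/

/-- **the retained problem of one block** (contract with Bdy/Multi).  `I` = inner ball + inner invasion, `O` = outside + outer invasion, `M = A \ (I ∪ O)`. -/
structure BdyRet (A : Finset TV) (c : TV) (B : BdyBlkD) (M : Finset TV) (η : TV → ℤ) (I O : Set TV) : Prop where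
  mem : ∀ u, u ∈ M ↔ u ∈ A ∧ u ∉ I ∧ u ∉ O
  I_conn : TscConn tscG I
  I_ball : ∀ u ∈ latBall c B.r0, u ∈ I
  I_in : ∀ u ∈ I, u ∈ latBall c B.r1
  O_conn : TscConn tscG O
  O_far : ∀ u, u ∉ latBall c B.r3 → u ∈ O
  O_out : ∀ u ∈ O, u ∉ latBall c B.r2
  feas : ∃ h, HtAdm M η h
  low : ∀ u ∈ latOut M, -1 ≤ η u
  zero : ∀ u, u ∈ B.PL ∨ u ∈ B.PR → 0 ≤ η u

/-- ONE walk of sites of height `≥ 0` from the anchor `aL` to the anchor `aR` inside `M ∪ PL ∪ PR` -/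
def BdyBridge (M : Finset TV) (B : BdyBlkD) (h : TV → ℤ) : Prop :=
  TscR tscG {u | 0 ≤ h u ∧ (u ∈ M ∨ u ∈ B.PL ∨ u ∈ B.PR)} B.aL B.aR

theorem bdy_upg_eqns_cite : True := by
  have := @BdyBridge.eq_1
  trivial

theorem bdy_upg_bridge_mono {M : Finset TV} {B : BdyBlkD} {h h' : TV → ℤ} (hh : ∀ u, h u ≤ h' u) (hb : BdyBridge M B h) :
    BdyBridge M B h' := by
  unfold BdyBridge at hb ⊢
  refine tsc_R_mono ?_ hb
  rintro u ⟨h1, h2⟩
  exact ⟨h1.trans (hh u), h2⟩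

section ret

variable {A : Finset TV} {c : TV} {B : BdyBlkD} {M : Finset TV} {η : TV → ℤ} {I O : Set TV}

theorem BdyRet.sub (hR : BdyRet A c B M η I O) : M ⊆ A := fun u hu => ((hR.mem u).1 hu).1

/-- the working annulus is retained -/
theorem BdyRet.work (hR : BdyRet A c B M η I O) {u : TV} (hu : u ∈ A) (h2 : u ∈ latBall c B.r2) (h1 : u ∉ latBall c B.r1) : u ∈ M :=
  (hR.mem u).2 ⟨hu, fun hI => h1 (hR.I_in u hI), fun hO => hR.O_out u hO h2⟩

theorem BdyRet.in3 (hR : BdyRet A c B M η I O) : M ⊆ latBall c B.r3 := by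
  intro u hu
  by_contra hn
  exact ((hR.mem u).1 hu).2.2 (hR.O_far u hn)

/-- a retained region has no hole -/
theorem BdyRet.co (hR : BdyRet A c B M η I O) (hA : MomCo A) (hc : c ∉ A) : MomCo M := by
  have e : ((↑M : Set TV)ᶜ) = ((↑A : Set TV)ᶜ ∪ I) ∪ O := by
    ext u
    simp only [Set.mem_compl_iff, Finset.mem_coe, Set.mem_union, hR.mem u]
    tauto
  obtain ⟨w, hw⟩ := Infinite.exists_notMem_finset (A ∪ latBall c B.r3)
  rw [Finset.mem_union, not_or] at hw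
  have h1 : TscConn tscG ((↑A : Set TV)ᶜ ∪ I) :=
    tsc_conn_union hA hR.I_conn (a := c) (b := c) (fun hm => hc (Finset.mem_coe.1 hm)) (hR.I_ball c (plh_ball_self c _)) (Or.inl rfl)
  unfold MomCo
  rw [e]
  exact tsc_conn_union h1 hR.O_conn (a := w) (b := w) (Or.inl fun hm => hw.1 (Finset.mem_coe.1 hm)) (hR.O_far w hw.2) (Or.inl rfl)

/-- **the pocket at `q`**: `Ps` = the arc of `q`, `Po` = the opposite arc (the bridge between `I` and `O`) -/
theorem BdyRet.pocket (hR : BdyRet A c B M η I O) (h23 : B.r2 ≤ B.r3) {q : TV} {L : ℕ} {Ps Po : Finset TV}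
    (hq2 : latBall q L ⊆ latBall c B.r2) (hq1 : Disjoint (latBall q L) (latBall c B.r1)) (hqo : Disjoint (latBall q L) Po)
    (hPc : TscConn tscG (↑Po : Set TV)) (hPA : Disjoint Po A) (hP0 : ∃ u ∈ Po, u ∈ latBall c B.r0) (hP3 : ∃ u ∈ Po, u ∉ latBall c B.r3)
    (hcov : ∀ u ∈ latOut A, u ∈ latBall c B.r3 → B.r0 ≤ latN (u - c) → u ∈ Ps ∨ u ∈ Po) :
    MomCo (M ∪ (bdyHull (M ∪ latBall q L) \ M)) ∧ Disjoint (bdyHull (M ∪ latBall q L) \ M) M ∧
      latBall q L ⊆ M ∪ (bdyHull (M ∪ latBall q L) \ M) ∧ ∀ u ∈ latOut M, u ∈ bdyHull (M ∪ latBall q L) \ M → u ∈ Ps := by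
  classical
  have hMH : M ⊆ bdyHull (M ∪ latBall q L) := Finset.subset_union_left.trans (bdy_hull_sub _)
  have e : M ∪ (bdyHull (M ∪ latBall q L) \ M) = bdyHull (M ∪ latBall q L) := Finset.union_sdiff_of_subset hMH
  refine ⟨by rw [e]; exact bdy_hull_co _, Finset.sdiff_disjoint, by rw [e]; exact Finset.subset_union_right.trans (bdy_hull_sub _), ?_⟩
  obtain ⟨p0, hp0, hp0'⟩ := hP0
  obtain ⟨p3, hp3, hp3'⟩ := hP3
  -- the bridge
  have hE : TscConn tscG ((I ∪ ↑Po) ∪ O) :=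
    tsc_conn_union (tsc_conn_union hR.I_conn hPc (a := p0) (b := p0) (hR.I_ball p0 hp0') (Finset.mem_coe.2 hp0) (Or.inl rfl)) hR.O_conn
      (a := p3) (b := p3) (Or.inr (Finset.mem_coe.2 hp3)) (hR.O_far p3 hp3') (Or.inl rfl)
  have hX : M ∪ latBall q L ⊆ latBall c B.r3 :=
    Finset.union_subset hR.in3 (hq2.trans (plh_ball_mono c h23))
  have hEX : ∀ u ∈ (I ∪ ↑Po) ∪ O, u ∉ M ∪ latBall q L := by
    intro u hu hm
    rw [Finset.mem_union] at hm
    rcases hu with (hI | hP) | hO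
    · rcases hm with hm | hm
      · exact ((hR.mem u).1 hm).2.1 hI
      · exact Finset.disjoint_left.1 hq1 hm (hR.I_in u hI)
    · rcases hm with hm | hm
      · exact Finset.disjoint_left.1 hPA (Finset.mem_coe.1 hP) (hR.sub hm)
      · exact Finset.disjoint_left.1 hqo hm (Finset.mem_coe.1 hP)
    · rcases hm with hm | hm
      · exact ((hR.mem u).1 hm).2.2 hO
      · exact hR.O_out u hO (hq2 hm)
  have hmiss := bdy_hull_avoid hX hE hEX (e := p3) (Or.inl (Or.inr (Finset.mem_coe.2 hp3))) hp3'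
  intro u hu hP
  rw [Finset.mem_sdiff] at hP
  obtain ⟨huM, v, hv, hvu⟩ := bdy_mem_out.1 hu
  have hI : u ∉ I := fun h => hmiss u (Or.inl (Or.inl h)) hP.1
  have hO : u ∉ O := fun h => hmiss u (Or.inr h) hP.1
  have hPo : u ∉ Po := fun h => hmiss u (Or.inl (Or.inr (Finset.mem_coe.2 h))) hP.1
  have hA : u ∉ A := fun h => huM ((hR.mem u).2 ⟨h, hI, hO⟩)
  have h3 : u ∈ latBall c B.r3 := by
    by_contra hn
    exact hO (hR.O_far u hn)
  have h0 : B.r0 ≤ latN (u - c) := by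
    by_contra hn
    exact hI (hR.I_ball u (lat_mem_ball.2 (by omega)))
  rcases hcov u (bdy_mem_out.2 ⟨hA, v, hR.sub hv, hvu⟩) h3 h0 with h | h
  · exact h
  · exact absurd h hPo

end ret

/-! ## 3. the tube core, walks which reach the layer -/

/-- the union of the balls of radius `r ≥ ρ` about a chain of centres of spacing `≤ ρ` is connected -/
theorem bdy_upg_core (ρ r : ℕ) (hρ : ρ ≤ r) : ∀ zs : List TV, zs.IsChain (fun z z' => latDist z z' ≤ ρ) →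
    TscConn tscG (↑(zs.toFinset.biUnion fun z => latBall z r) : Set TV)
  | [], _ => by
    intro u hu
    simp at hu
  | [z], _ => by
    have e : ([z].toFinset.biUnion fun z => latBall z r) = latBall z r := by simp
    rw [e]
    exact plh_ball_conn z r
  | z :: z' :: l, hch => by
    rw [List.isChain_cons_cons] at hch
    have ih := bdy_upg_core ρ r hρ (z' :: l) hch.2
    have e : (↑((z :: z' :: l).toFinset.biUnion fun z => latBall z r) : Set TV)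
        = ↑(latBall z r) ∪ ↑((z' :: l).toFinset.biUnion fun z => latBall z r) := by
      rw [List.toFinset_cons, Finset.biUnion_insert, Finset.coe_union]
    rw [e]
    refine tsc_conn_union (plh_ball_conn z r) ih (a := z') (b := z') ?_ ?_ (Or.inl rfl)
    · exact Finset.mem_coe.2 (lat_mem_ball.2 (le_trans hch.1 hρ))
    · refine Finset.mem_coe.2 (Finset.mem_biUnion.2 ⟨z', by simp, plh_ball_self z' r⟩)

/-- a walk inside `U` from the component of `x` to `J` REACHES the layer -/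
theorem bdy_upg_reach {U J : Finset TV} {x b c : TV} (hb : b ∈ tscComp tscG ((↑U : Set TV) \ ↑J) x) (hc : c ∈ J) {Q : Set TV}
    (hQ : Q ⊆ ↑U) (hw : TscR tscG Q b c) : ∃ w ∈ bdyLay U J x, TscR tscG Q b w := by
  have key : ∀ c' : TV, TscR tscG Q b c' → c' ∈ tscComp tscG ((↑U : Set TV) \ ↑J) x ∨ ∃ w ∈ bdyLay U J x, TscR tscG Q b w := by
    intro c' hw'
    induction hw' with
    | refl => exact Or.inl hb
    | @tail u w hbu hst ih =>
      rcases ih with hu | hne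
      · by_cases hwJ : w ∈ J
        · exact Or.inr ⟨w, ⟨hwJ, u, hu, hst.1⟩, Relation.ReflTransGen.tail hbu hst⟩
        · exact Or.inl (tsc_comp_adj hu ⟨hQ hst.2.2, hwJ⟩ hst.1)
      · exact Or.inr hne
  rcases key c hw with h1 | h1
  · exact absurd hc (tsc_comp_sub x h1).2
  · exact h1

/-- an attachment walk which starts next to the component of `x` and ends in `J` reaches the layer -/
theorem bdy_upg_att {U J M : Finset TV} {x v a b : TV} {h : TV → ℤ} (hMU : M ⊆ U) (hv : v ∈ tscComp tscG ((↑U : Set TV) \ ↑J) x)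
    (hva : triAdj v a) (ha : a ∈ M) (hb : b ∈ J) (hw : TscR tscG {u | u ∈ M ∧ 0 ≤ h u} a b) :
    ∃ w ∈ bdyLay U J x, TscR tscG {u | u ∈ M ∧ 0 ≤ h u} a w := by
  by_cases haJ : a ∈ J
  · exact ⟨a, ⟨haJ, v, hv, hva⟩, tsc_R_refl a⟩
  · exact bdy_upg_reach (tsc_comp_adj hv ⟨hMU ha, haJ⟩ hva) hb (fun u hu => hMU hu.1) hw

/-! ## 4. the bridge (deterministic) -/

/-- the order of the radii of a block -/
theorem BdyBlk.radii {A : Finset TV} {c : TV} {k K1 Lq n0 ms : ℕ} {B : BdyBlkD} (hB : BdyBlk A c k K1 Lq n0 ms B) (hms : 1 ≤ ms) :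
    B.r0 ≤ B.r1 ∧ B.r2 ≤ B.r3 ∧ B.r0 ≤ B.b3 ∧ B.r3 ≤ B.b3 := by
  have h1 := hB.hr1
  have h2 := hB.hr12
  have h3 := hB.hr3
  have h4 := hB.hb3
  have e1 : B.r0 ≤ ms * B.r0 := Nat.le_mul_of_pos_left _ hms
  have e2 : B.r2 + 1 ≤ ms * (B.r2 + 1) := Nat.le_mul_of_pos_left _ hms
  omega

/-- **the bridge**: two attachment walks and the (P0) events at all the tube centres give a walk of nonnegative sites from `aL` to `aR` -/
theorem bdy_upg_det {A : Finset TV} {c : TV} {k K1 Lq n0 ms : ℕ} {B : BdyBlkD} {M : Finset TV} {η : TV → ℤ} {I O : Set TV} (hms : 1 ≤ ms)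
    (hB : BdyBlk A c k K1 Lq n0 ms B) (hR : BdyRet A c B M η I O) {K0 : ℕ} (hK0 : 1 ≤ K0) (hK : K0 * (B.ρ + 1) ≤ K1 * B.ρ)
    {h : TV → ℤ} (hh : HtAdm M η h) {SL SR : Finset TV} (hSL : SL ⊆ B.PL) (hSR : SR ⊆ B.PR) {zL zR : TV} (hzL : zL ∈ B.zs) (hzR : zR ∈ B.zs)
    (hattL : BdyHiX M 0 (bdyNbr SL) (latBall zL (B.ρ + 1) : Set TV) h) (hattR : BdyHiX M 0 (bdyNbr SR) (latBall zR (B.ρ + 1) : Set TV) h)
    (htube : ∀ z ∈ B.zs.toFinset, bdyLo (latBall c B.b3) 0 (latBall z (B.ρ + 1)) h ⊆ latBall z (K0 * (B.ρ + 1))) : BdyBridge M B h := by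
  classical
  obtain ⟨r01, r23, r0b, r3b⟩ := hB.radii hms
  have hballM : ∀ z ∈ B.zs, latBall z (K1 * B.ρ) ⊆ M := by
    intro z hz u hu
    obtain ⟨h1, h2, h3⟩ := hB.zs_ball z hz
    exact hR.work (h1 hu) (h2 hu) (Finset.disjoint_left.1 h3 hu)
  have hMU : M ⊆ latBall c B.b3 := hR.in3.trans (plh_ball_mono c r3b)
  have hsmall : ∀ z ∈ B.zs, latBall z (B.ρ + 1) ⊆ latBall z (K0 * (B.ρ + 1)) := fun z _ =>
    plh_ball_mono z (Nat.le_mul_of_pos_left _ hK0)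
  have hbigM : ∀ z ∈ B.zs, latBall z (K0 * (B.ρ + 1)) ⊆ M := fun z hz => (plh_ball_mono z hK).trans (hballM z hz)
  have hcore : TscConn tscG (↑(B.zs.toFinset.biUnion fun z => latBall z (B.ρ + 1)) : Set TV) :=
    bdy_upg_core B.ρ (B.ρ + 1) (Nat.le_succ _) B.zs hB.zs_chain
  have hcoreM : (B.zs.toFinset.biUnion fun z => latBall z (B.ρ + 1)) ⊆ M := by
    intro u hu
    obtain ⟨z, hz, hu'⟩ := Finset.mem_biUnion.1 hu
    exact hbigM z (List.mem_toFinset.1 hz) (hsmall z (List.mem_toFinset.1 hz) hu')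
  obtain ⟨hJeq, -, hlay⟩ := bdy_tube_geo (plh_ball_sc (ZMod 2) c B.b3) 0 B.zs.toFinset (B.ρ + 1) h hcore (hcoreM.trans hMU)
  obtain ⟨hLc, hL0, -⟩ := hlay c
  set J := bdyLo (latBall c B.b3) 0 (B.zs.toFinset.biUnion fun z => latBall z (B.ρ + 1)) h with hJ
  have hJM : J ⊆ M := by
    intro u hu
    rw [hJeq] at hu
    obtain ⟨z, hz, hu'⟩ := Finset.mem_biUnion.1 hu
    exact hbigM z (List.mem_toFinset.1 hz) (htube z hz hu')
  have hseed : ∀ z ∈ B.zs, ∀ u ∈ latBall z (B.ρ + 1), u ∈ J := by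
    intro z hz u hu
    have hu' : u ∈ B.zs.toFinset.biUnion fun z => latBall z (B.ρ + 1) := Finset.mem_biUnion.2 ⟨z, List.mem_toFinset.2 hz, hu⟩
    exact bdy_inv_seed hu' (hMU (hcoreM hu'))
  -- the arcs and the inner ball lie in one component of the complement of `J`
  obtain ⟨⟨pL, hpL, hpL0⟩, -⟩ := hB.PL_ends
  obtain ⟨⟨pR, hpR, hpR0⟩, -⟩ := hB.PR_ends
  have hG : TscConn tscG (((↑B.PL : Set TV) ∪ ↑(latBall c B.r0)) ∪ ↑B.PR) :=
    tsc_conn_union (tsc_conn_union hB.PL_conn (plh_ball_conn c B.r0) (a := pL) (b := pL) (Finset.mem_coe.2 hpL) (Finset.mem_coe.2 hpL0) (Or.inl rfl))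
      hB.PR_conn (a := pR) (b := pR) (Or.inr (Finset.mem_coe.2 hpR0)) (Finset.mem_coe.2 hpR) (Or.inl rfl)
  have hPLM : ∀ u ∈ B.PL, u ∉ M := fun u hu hm => Finset.disjoint_left.1 hB.PL_off hu (hR.sub hm)
  have hPRM : ∀ u ∈ B.PR, u ∉ M := fun u hu hm => Finset.disjoint_left.1 hB.PR_off hu (hR.sub hm)
  have hGs : (((↑B.PL : Set TV) ∪ ↑(latBall c B.r0)) ∪ ↑B.PR) ⊆ (↑(latBall c B.b3) : Set TV) \ ↑J := by
    rintro u ((hu | hu) | hu)
    · exact ⟨Finset.mem_coe.2 (hB.PL_in.1 (Finset.mem_coe.1 hu)), fun hm => hPLM u (Finset.mem_coe.1 hu) (hJM (Finset.mem_coe.1 hm))⟩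
    · exact ⟨Finset.mem_coe.2 (plh_ball_mono c r0b (Finset.mem_coe.1 hu)),
        fun hm => ((hR.mem u).1 (hJM (Finset.mem_coe.1 hm))).2.1 (hR.I_ball u (Finset.mem_coe.1 hu))⟩
    · exact ⟨Finset.mem_coe.2 (hB.PR_in.1 (Finset.mem_coe.1 hu)), fun hm => hPRM u (Finset.mem_coe.1 hu) (hJM (Finset.mem_coe.1 hm))⟩
  have hcG : c ∈ (((↑B.PL : Set TV) ∪ ↑(latBall c B.r0)) ∪ ↑B.PR) := Or.inl (Or.inr (Finset.mem_coe.2 (plh_ball_self c _)))
  have hGD := plh_conn_sub_comp hG hGs hcG (tsc_comp_self (hGs hcG))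
  -- the nonnegative set
  have hYL : (↑B.PL : Set TV) ⊆ {u | 0 ≤ h u ∧ (u ∈ M ∨ u ∈ B.PL ∨ u ∈ B.PR)} := by
    intro u hu
    refine ⟨?_, Or.inr (Or.inl (Finset.mem_coe.1 hu))⟩
    rw [hh.1 u (hPLM u (Finset.mem_coe.1 hu))]
    exact hR.zero u (Or.inl (Finset.mem_coe.1 hu))
  have hYR : (↑B.PR : Set TV) ⊆ {u | 0 ≤ h u ∧ (u ∈ M ∨ u ∈ B.PL ∨ u ∈ B.PR)} := by
    intro u hu
    refine ⟨?_, Or.inr (Or.inr (Finset.mem_coe.1 hu))⟩
    rw [hh.1 u (hPRM u (Finset.mem_coe.1 hu))]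
    exact hR.zero u (Or.inr (Finset.mem_coe.1 hu))
  have hYQ : {u | u ∈ M ∧ 0 ≤ h u} ⊆ {u | 0 ≤ h u ∧ (u ∈ M ∨ u ∈ B.PL ∨ u ∈ B.PR)} := fun u hu => ⟨hu.2, Or.inl hu.1⟩
  have hYLay : bdyLay (latBall c B.b3) J c ⊆ {u | 0 ≤ h u ∧ (u ∈ M ∨ u ∈ B.PL ∨ u ∈ B.PR)} := fun u hu =>
    ⟨hL0 u hu, Or.inl (hJM (Finset.mem_coe.1 hu.1))⟩
  -- the two attachments
  obtain ⟨a, ⟨v, hv, hva⟩, b, hb, haM, ha0, hw⟩ := hattL
  obtain ⟨a', ⟨v', hv', hva'⟩, b', hb', haM', ha0', hw'⟩ := hattR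
  obtain ⟨w, hwL, haw⟩ := bdy_upg_att hMU (hGD (Or.inl (Or.inl (Finset.mem_coe.2 (hSL hv))))) hva haM
    (hseed zL hzL b (Finset.mem_coe.1 hb)) hw
  obtain ⟨w', hwL', haw'⟩ := bdy_upg_att hMU (hGD (Or.inr (Finset.mem_coe.2 (hSR hv')))) hva' haM'
    (hseed zR hzR b' (Finset.mem_coe.1 hb')) hw'
  unfold BdyBridge
  have s1 := tsc_R_mono hYL (hB.PL_conn B.aL (Finset.mem_coe.2 hB.aL_mem) v (Finset.mem_coe.2 (hSL hv)))
  have s2 : TscR tscG {u | 0 ≤ h u ∧ (u ∈ M ∨ u ∈ B.PL ∨ u ∈ B.PR)} v a :=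
    tsc_R_step hva (hYL (Finset.mem_coe.2 (hSL hv))) ⟨ha0, Or.inl haM⟩
  have s3 := tsc_R_mono hYQ haw
  have s4 := tsc_R_mono hYLay (hLc w hwL w' hwL')
  have s5 := tsc_R_symm (tsc_R_mono hYQ haw')
  have s6 : TscR tscG {u | 0 ≤ h u ∧ (u ∈ M ∨ u ∈ B.PL ∨ u ∈ B.PR)} a' v' :=
    tsc_R_step (lat_adj_symm hva') ⟨ha0', Or.inl haM'⟩ (hYR (Finset.mem_coe.2 (hSR hv')))
  have s7 := tsc_R_mono hYR (hB.PR_conn v' (Finset.mem_coe.2 (hSR hv')) B.aR (Finset.mem_coe.2 hB.aR_mem))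
  exact tsc_R_trans s1 (tsc_R_trans s2 (tsc_R_trans s3 (tsc_R_trans s4 (tsc_R_trans s5 (tsc_R_trans s6 s7)))))

/-! ## 5. the upgrade -/

/-- association for two increasing events -/
theorem bdy_upg_fkg2 {x : ℝ} (hx0 : 0 < x) (hx1 : x ≤ 1) (A : Finset TV) (b : TV → ℤ) (hne : ∃ h, HtAdm A b h) {K1 K2 : (TV → ℤ) → Prop}
    (h1 : ∀ h h' : TV → ℤ, (∀ u, h u ≤ h' u) → K1 h → K1 h') (h2 : ∀ h h' : TV → ℤ, (∀ u, h u ≤ h' u) → K2 h → K2 h') :
    htP x A b K1 * htP x A b K2 ≤ htP x A b (fun h => K1 h ∧ K2 h) := by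
  classical
  have hfkg := hto_fkg hx0 hx1 A b hne (F := fun h => if K1 h then (1 : ℝ) else 0) (G := fun h => if K2 h then (1 : ℝ) else 0)
    (bdy_bulk_ind_mono h1) (bdy_bulk_ind_mono h2)
  rw [bdy_bulk_P_eq x A b K1, bdy_bulk_P_eq x A b K2, bdy_bulk_P_eq x A b (fun h => K1 h ∧ K2 h)]
  refine hfkg.trans (le_of_eq (ht_E_congr x A b (fun H _ => ?_)))
  by_cases a1 : K1 H <;> by_cases a2 : K2 H <;> simp [a1, a2]

/-- **(UPG) UPGRADE OF A RETAINED BLOCK**      TEX[prop:boundary-arch] l.600-668, R6 of helper173 -/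
theorem bdy_upg (x : ℝ) (hx1 : 1 / Real.sqrt 2 ≤ x) (hx2 : x ≤ 1) :
    ∃ (K1 Lq n0 : ℕ) (a3 : ℝ), 0 < a3 ∧ 3 ≤ K1 ∧ 4 * K1 ≤ Lq ∧ ∀ (ms : ℕ) (A : Finset TV) (c : TV) (k : ℕ) (B : BdyBlkD) (M : Finset TV)
      (η : TV → ℤ) (I O : Set TV), 1 ≤ ms → MomCo A → c ∉ A → BdyBlk A c k K1 Lq n0 ms B → BdyRet A c B M η I O →
      a3 ≤ htP x M η (BdyBridge M B) := by
  classical
  have hx0 : 0 < x := lt_of_lt_of_le (by positivity) hx1
  obtain ⟨c0, K0, n0, hc0, hK0, -, hP0⟩ := bdy_bulk x hx1 hx2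
  obtain ⟨ca, Λ, hca, hatt⟩ := bdy_att x hx1 hx2 (2 * (2 * K0 + 3))
  have hc1 : 0 < min c0 1 := lt_min hc0 one_pos
  refine ⟨2 * K0 + 3, max Λ (4 * (2 * K0 + 3)), n0, ca * ca * (min c0 1) ^ (100 * max Λ (4 * (2 * K0 + 3))), by positivity, by omega,
    le_max_right _ _, ?_⟩
  intro ms A c k B M η I O hms hA hc hB hR
  obtain ⟨-, r23, -, -⟩ := hB.radii hms
  have hM := hR.co hA hc
  have hρ1 : 1 ≤ B.ρ := hB.hρ.1
  have hK : K0 * (B.ρ + 1) ≤ (2 * K0 + 3) * B.ρ := by nlinarith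
  have hP0' : BdyP0 x (min c0 1) K0 n0 := fun M U η z ρ h1 h2 h3 h4 h5 => (min_le_left _ _).trans (hP0 M U η z ρ h1 h2 h3 h4 h5)
  have hballM : ∀ z ∈ B.zs, latBall z ((2 * K0 + 3) * B.ρ) ⊆ M := by
    intro z hz u hu
    obtain ⟨h1, h2, h3⟩ := hB.zs_ball z hz
    exact hR.work (h1 hu) (h2 hu) (Finset.disjoint_left.1 h3 hu)
  have hΛ : Λ * B.ρ ≤ B.L := (Nat.mul_le_mul_right _ (le_max_left _ _)).trans hB.hL
  -- the two ends of the tube
  obtain ⟨zL, hzL⟩ : ∃ z, B.zs.head? = some z := ⟨B.zs.head hB.zs_ne, List.head?_eq_some_head hB.zs_ne⟩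
  obtain ⟨zR, hzR⟩ : ∃ z, B.zs.getLast? = some z := ⟨B.zs.getLast hB.zs_ne, List.getLast?_eq_some_getLast hB.zs_ne⟩
  have hzLm : zL ∈ B.zs := List.mem_of_head? hzL
  have hzRm : zR ∈ B.zs := List.mem_of_getLast? hzR
  have h3M : ∀ z ∈ B.zs, latBall z (3 * B.ρ) ⊆ M := fun z hz =>
    (plh_ball_mono z (Nat.mul_le_mul_right _ (by omega))).trans (hballM z hz)
  -- the two pockets
  obtain ⟨l1, l2, l3, l4⟩ := hR.pocket r23 (Ps := B.PL) (Po := B.PR) hB.qL_ball.1 hB.qL_ball.2.1 hB.qL_ball.2.2 hB.PR_conn hB.PR_off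
    hB.PR_ends.1 hB.PR_ends.2 hB.cover
  obtain ⟨r1, r2, r3, r4⟩ := hR.pocket r23 (Ps := B.PR) (Po := B.PL) hB.qR_ball.1 hB.qR_ball.2.1 hB.qR_ball.2.2 hB.PL_conn hB.PL_off
    hB.PL_ends.1 hB.PL_ends.2 (fun u h1 h2 h3 => (hB.cover u h1 h2 h3).symm)
  have attL := hatt M _ η B.qL zL B.ρ B.L hM l1 l2 l3 (fun hm => hB.qL_off (hR.sub hm)) hR.feas hR.low
    (fun u hu hP => hR.zero u (Or.inl (l4 u hu hP))) hρ1 hΛ (h3M zL hzLm) (by
      have := hB.qL_near zL hzL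
      unfold latDist at this ⊢
      rw [plh_N_sub_comm]
      exact this)
  have attR := hatt M _ η B.qR zR B.ρ B.L hM r1 r2 r3 (fun hm => hB.qR_off (hR.sub hm)) hR.feas hR.low
    (fun u hu hP => hR.zero u (Or.inr (r4 u hu hP))) hρ1 hΛ (h3M zR hzRm) (by
      have := hB.qR_near zR hzR
      unfold latDist at this ⊢
      rw [plh_N_sub_comm]
      exact this)
  have tube := bdy_tube_prob hx0 hx2 hc1.le hP0' M (latBall c B.b3) η (B.ρ + 1) hM (hB.hρ.2.trans (Nat.le_succ _)) hR.feas hR.low B.zs.toFinset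
    (fun z hz => (plh_ball_mono z hK).trans (hballM z (List.mem_toFinset.1 hz)))
  have tube' : (min c0 1) ^ (100 * max Λ (4 * (2 * K0 + 3))) ≤ (min c0 1) ^ B.zs.toFinset.card :=
    pow_le_pow_of_le_one hc1.le (min_le_right _ _) ((List.toFinset_card_le _).trans hB.zs_len)
  -- association
  have f1 := bdy_upg_fkg2 hx0 hx2 M η hR.feas
    (K1 := BdyHiX M 0 (bdyNbr (latOut M ∩ (bdyHull (M ∪ latBall B.qL B.L) \ M))) (latBall zL (B.ρ + 1) : Set TV))
    (K2 := BdyHiX M 0 (bdyNbr (latOut M ∩ (bdyHull (M ∪ latBall B.qR B.L) \ M))) (latBall zR (B.ρ + 1) : Set TV))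
    (fun h h' hh => bdy_hix_mono fun u _ => hh u) (fun h h' hh => bdy_hix_mono fun u _ => hh u)
  have f2 := bdy_upg_fkg2 hx0 hx2 M η hR.feas
    (K1 := fun h => BdyHiX M 0 (bdyNbr (latOut M ∩ (bdyHull (M ∪ latBall B.qL B.L) \ M))) (latBall zL (B.ρ + 1) : Set TV) h ∧
      BdyHiX M 0 (bdyNbr (latOut M ∩ (bdyHull (M ∪ latBall B.qR B.L) \ M))) (latBall zR (B.ρ + 1) : Set TV) h)
    (K2 := fun h => ∀ z ∈ B.zs.toFinset, bdyLo (latBall c B.b3) 0 (latBall z (B.ρ + 1)) h ⊆ latBall z (K0 * (B.ρ + 1)))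
    (fun h h' hh hk => ⟨bdy_hix_mono (fun u _ => hh u) hk.1, bdy_hix_mono (fun u _ => hh u) hk.2⟩)
    (fun h h' hh hk z hz => (bdy_lo_anti hh).trans (hk z hz))
  have f3 : htP x M η (fun h => (BdyHiX M 0 (bdyNbr (latOut M ∩ (bdyHull (M ∪ latBall B.qL B.L) \ M))) (latBall zL (B.ρ + 1) : Set TV) h ∧
      BdyHiX M 0 (bdyNbr (latOut M ∩ (bdyHull (M ∪ latBall B.qR B.L) \ M))) (latBall zR (B.ρ + 1) : Set TV) h) ∧
      ∀ z ∈ B.zs.toFinset, bdyLo (latBall c B.b3) 0 (latBall z (B.ρ + 1)) h ⊆ latBall z (K0 * (B.ρ + 1))) ≤ htP x M η (BdyBridge M B) := by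
    refine ht_P_mono hx0 M η (fun H hH hE => ?_)
    exact bdy_upg_det hms hB hR hK0 hK hH
      (fun u hu => l4 u (Finset.mem_inter.1 hu).1 (Finset.mem_inter.1 hu).2) (fun u hu => r4 u (Finset.mem_inter.1 hu).1 (Finset.mem_inter.1 hu).2)
      hzLm hzRm hE.1.1 hE.1.2 hE.2
  refine le_trans ?_ (f2.trans f3)
  refine mul_le_mul (le_trans ?_ f1) (tube'.trans tube) (by positivity) (ht_P_nonneg hx0 M η _)
  exact mul_le_mul attL attR hca.le (ht_P_nonneg hx0 M η _)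

/-! ## 6. the bridge blocks the negative walks -/

/-- the block is crossed: a walk of sites of `A ∩ latBall c (3 b3 + 1)` of height `≤ -1` from the outside of `latBall c (3 b3)` to `latBall c a` -/
def BdyCrossed (A : Finset TV) (c : TV) (B : BdyBlkD) (h : TV → ℤ) : Prop :=
  ∃ v w, v ∉ latBall c (3 * B.b3) ∧ w ∈ latBall c B.a ∧ TscR tscG {u | u ∈ A ∧ u ∈ latBall c (3 * B.b3 + 1) ∧ h u ≤ -1} v w

theorem bdy_upg_eqns_cite2 : True := by
  have := @BdyCrossed.eq_1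
  trivial

/-- **bridge + (TOP)** -/
theorem bdy_upg_arch {A : Finset TV} {c : TV} {k K1 Lq n0 ms : ℕ} {B : BdyBlkD} {M : Finset TV} {η : TV → ℤ} {I O : Set TV} (hms : 1 ≤ ms)
    (hB : BdyBlk A c k K1 Lq n0 ms B) (hR : BdyRet A c B M η I O) {h : TV → ℤ} (hh : HtAdm M η h) (hb : BdyBridge M B h) :
    ¬ BdyCrossed A c B h := by
  rintro ⟨v, w, hv, hw, hvw⟩
  obtain ⟨-, -, r0b, r3b⟩ := hB.radii hms
  have hb0 := hB.hb0
  have hr0 := hB.hr0
  have hvT : v ∈ {u | u ∈ A ∧ u ∈ latBall c (3 * B.b3 + 1) ∧ h u ≤ -1} := by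
    rcases Relation.ReflTransGen.cases_head hvw with e | ⟨y, hy, -⟩
    · exact absurd (plh_ball_mono c (by omega) (e ▸ hw)) hv
    · exact hy.2.1
  have haL : B.aL ∈ {u | 0 ≤ h u ∧ (u ∈ M ∨ u ∈ B.PL ∨ u ∈ B.PR)} := by
    refine ⟨?_, Or.inr (Or.inl hB.aL_mem)⟩
    rw [hh.1 B.aL (fun hm => Finset.disjoint_left.1 hB.PL_off hB.aL_mem (hR.sub hm))]
    exact hR.zero _ (Or.inl hB.aL_mem)
  obtain ⟨u, hu1, hu2⟩ := bdy_top hB (S := {u | 0 ≤ h u ∧ (u ∈ M ∨ u ∈ B.PL ∨ u ∈ B.PR)})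
    (T := {u | u ∈ A ∧ u ∈ latBall c (3 * B.b3 + 1) ∧ h u ≤ -1}) (by
      rintro u ⟨-, hu | hu | hu⟩
      · exact ⟨Or.inl (hR.sub hu), plh_ball_mono c r3b (hR.in3 hu),
          fun hm => ((hR.mem u).1 hu).2.1 (hR.I_ball u (plh_ball_mono c hr0.le hm))⟩
      · exact ⟨Or.inr (Or.inl hu), hB.PL_in.1 hu, Finset.disjoint_left.1 hB.PL_in.2 hu⟩
      · exact ⟨Or.inr (Or.inr hu), hB.PR_in.1 hu, Finset.disjoint_left.1 hB.PR_in.2 hu⟩) haL hb
    (fun u hu => ⟨hu.1, hu.2.1⟩) hw hv hvT hvw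
  have h1 : 0 ≤ h u := hu1.1
  have h2 : h u ≤ -1 := hu2.2.2
  omega

/-- **(UPG) + (TOP)**: a retained block is not crossed with probability `≥ a3` -/
theorem bdy_upg_blk (x : ℝ) (hx1 : 1 / Real.sqrt 2 ≤ x) (hx2 : x ≤ 1) :
    ∃ (K1 Lq n0 : ℕ) (a3 : ℝ), 0 < a3 ∧ a3 ≤ 1 ∧ 3 ≤ K1 ∧ 4 * K1 ≤ Lq ∧ ∀ (ms : ℕ) (A : Finset TV) (c : TV) (k : ℕ) (B : BdyBlkD) (M : Finset TV)
      (η : TV → ℤ) (I O : Set TV), 1 ≤ ms → MomCo A → c ∉ A → BdyBlk A c k K1 Lq n0 ms B → BdyRet A c B M η I O →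
      htP x M η (BdyCrossed A c B) ≤ 1 - a3 := by
  have hx0 : 0 < x := lt_of_lt_of_le (by positivity) hx1
  obtain ⟨K1, Lq, n0, a3, h0, h1, h2, h3⟩ := bdy_upg x hx1 hx2
  refine ⟨K1, Lq, n0, min a3 1, lt_min h0 one_pos, min_le_right _ _, h1, h2, ?_⟩
  intro ms A c k B M η I O hms hA hc hB hR
  have e1 := h3 ms A c k B M η I O hms hA hc hB hR
  have e2 : htP x M η (BdyBridge M B) ≤ htP x M η (fun h => ¬ BdyCrossed A c B h) :=
    ht_P_mono hx0 M η (fun H hH hb => bdy_upg_arch hms hB hR hH hb)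
  obtain ⟨g, hg⟩ := hR.feas
  have e3 := ht_P_not hx0 hg (BdyCrossed A c B)
  have e4 := min_le_left a3 1
  linarith

end Claimed.Agent.R291
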