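import Claimed.Agent.R291.Bdy.HInv
import Claimed.Agent.R291.Bdy.Top
import Claimed.Agent.R291.Bdy.Upg
import Claimed.Agent.R291.Bdy.Pre
import Claimed.Agent.R291.Exit.BdyGeo

/-!
# Row 291 (S0539), unit BDY, file Bdy/Multi      (owner: helper181; prefix `bmu_`, `bmu`, `Bmu`)

TEX[prop:boundary-arch] l.560-620, design R1, R2 of `origin/helper173:notes/R291/sec6b_173.md`: RETAINED REGIONS AS STOPPING SETS, STRONG MARKOV, PRODUCT OVER THE BLOCKS.
* `bmuJin`, `bmuJout`   invasions through the sites of `A` of height `≤ -2` from the inner ball / the outer sphere of a block, inside the two shield strips;   `BmuS` = SUCCESS: they do not cross the strips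
* `bmuM`                retained region of a block (`A` minus the two invaded parts on success, empty otherwise);   `bmu_stop`, `bmu_MM_stop`: stopping sets;   `bmu_ret`: the contract `BdyRet` of `bdy_upg` (205)
* `bmu_succ`            `BdySucc` (86: no walk of height `≤ -2` across the strips) implies `BmuS`
* `BmuX`                the block is crossed by a walk of height `≤ -1` inside its closed annulus;   `bmu_bridge` (`bdy_top` of 173): a bridge blocks it;   `bmu_neg_X` (`bdy_walk_cut`)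
* `bmu_main`            `P(negative walk) ≤ E[∏_j (1 - a3 1{BmuS_j})]`      (`bdy_smarkov`, `bdy_split_prod`, `bdy_upg`)
* `bmu_arch`            **[ARCH]** = `BdyArch x D δ F` from `bdy_upg`, `bpr_main`, `exit_bdy_geo`      (`Exit/BdyArch.lean` cites it)
-/

set_option autoImplicit false

namespace Claimed.Agent.R291

open Claims Claims.C0467 Relation

/-! ## 1. the retained region of one block -/

/-- the sites of `A` of radius in `[r, R]` about `c` -/
noncomputable def bmuRing (A : Finset TV) (c : TV) (r R : ℕ) : Finset TV :=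
  A.filter (fun u => r ≤ latN (u - c) ∧ latN (u - c) ≤ R)

/-- inner invasion: from the ball of radius `r0`, through the sites of `A` of height `≤ -2`, inside the radii `[r0, r1 + 1]` -/
noncomputable def bmuJin (A : Finset TV) (c : TV) (B : BdyBlkD) (h : TV → ℤ) : Finset TV :=
  bdyLo (bmuRing A c B.r0 (B.r1 + 1)) (-1) (latBall c B.r0) h

/-- outer invasion: from the sphere of radius `r3`, through the sites of `A` of height `≤ -2`, inside the radii `[r2, r3]` -/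
noncomputable def bmuJout (A : Finset TV) (c : TV) (B : BdyBlkD) (h : TV → ℤ) : Finset TV :=
  bdyLo (bmuRing A c B.r2 B.r3) (-1) (bmuRing A c B.r3 B.r3) h

/-- SUCCESS of a block: the two invasions do not cross the shield strips -/
def BmuS (A : Finset TV) (c : TV) (B : BdyBlkD) (h : TV → ℤ) : Prop :=
  (∀ u ∈ bmuJin A c B h, latN (u - c) ≤ B.r1) ∧ ∀ u ∈ bmuJout A c B h, B.r2 < latN (u - c)

open Classical in
/-- the retained region of a block -/
noncomputable def bmuM (A : Finset TV) (c : TV) (B : BdyBlkD) (h : TV → ℤ) : Finset TV :=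
  if BmuS A c B h then
    A.filter (fun u => B.r0 < latN (u - c) ∧ latN (u - c) < B.r3 ∧ u ∉ bmuJin A c B h ∧ u ∉ bmuJout A c B h)
  else ∅

theorem bmu_mem_ring {A : Finset TV} {c u : TV} {r R : ℕ} :
    u ∈ bmuRing A c r R ↔ u ∈ A ∧ r ≤ latN (u - c) ∧ latN (u - c) ≤ R := by
  unfold bmuRing; rw [Finset.mem_filter]

theorem bmu_Jin_sub (A : Finset TV) (c : TV) (B : BdyBlkD) (h : TV → ℤ) : bmuJin A c B h ⊆ bmuRing A c B.r0 (B.r1 + 1) :=
  bdy_inv_sub _ _ _

theorem bmu_Jout_sub (A : Finset TV) (c : TV) (B : BdyBlkD) (h : TV → ℤ) : bmuJout A c B h ⊆ bmuRing A c B.r2 B.r3 :=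
  bdy_inv_sub _ _ _

theorem bmu_mem_M {A : Finset TV} {c : TV} {B : BdyBlkD} {h : TV → ℤ} {u : TV} :
    u ∈ bmuM A c B h ↔ BmuS A c B h ∧ u ∈ A ∧ B.r0 < latN (u - c) ∧ latN (u - c) < B.r3 ∧ u ∉ bmuJin A c B h ∧ u ∉ bmuJout A c B h := by
  unfold bmuM
  split_ifs with hS
  · rw [Finset.mem_filter]; tauto
  · simp [hS]

theorem bmu_M_sub (A : Finset TV) (c : TV) (B : BdyBlkD) (h : TV → ℤ) : bmuM A c B h ⊆ A :=
  fun _ hu => (bmu_mem_M.1 hu).2.1

/-- **the retained region is a stopping set**: it is determined by the heights on the two invasions -/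
theorem bmu_stop {A : Finset TV} {c : TV} {B : BdyBlkD} {h h' : TV → ℤ} (h1 : ∀ u ∈ bmuJin A c B h, h' u = h u)
    (h2 : ∀ u ∈ bmuJout A c B h, h' u = h u) :
    bmuJin A c B h' = bmuJin A c B h ∧ bmuJout A c B h' = bmuJout A c B h ∧ (BmuS A c B h' ↔ BmuS A c B h) ∧
      bmuM A c B h' = bmuM A c B h := by
  have e1 : bmuJin A c B h' = bmuJin A c B h := bdy_lo_stop h1
  have e2 : bmuJout A c B h' = bmuJout A c B h := bdy_lo_stop h2
  have e3 : BmuS A c B h' ↔ BmuS A c B h := by unfold BmuS; rw [e1, e2]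
  refine ⟨e1, e2, e3, ?_⟩
  ext u
  rw [bmu_mem_M, bmu_mem_M, e1, e2, e3]

/-- order of the radii of a block -/
theorem bmu_ord {A : Finset TV} {c : TV} {k K1 Lq n0 ms : ℕ} {B : BdyBlkD} (hB : BdyBlk A c k K1 Lq n0 ms B) (hms : 1 ≤ ms) :
    1 ≤ B.a ∧ B.a ≤ B.b0 ∧ B.b0 < B.r0 ∧ B.r0 < B.r1 ∧ B.r1 ≤ B.r2 ∧ B.r2 + 1 < B.r3 ∧ B.r3 < B.b3 := by
  have h1 := hB.ha.1
  have h2 := hB.hb0
  have h3 := hB.hr0
  have h4 := hB.hr1
  have h5 := hB.hr12
  have h6 := hB.hr3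
  have h7 := hB.hb3
  have h8 : B.r0 ≤ ms * B.r0 := Nat.le_mul_of_pos_left _ hms
  have h9 : B.r2 + 1 ≤ ms * (B.r2 + 1) := Nat.le_mul_of_pos_left _ hms
  omega

/-- a connected set together with an invasion seeded in it is connected -/
theorem bmu_conn_aux {E : Set TV} {J : Finset TV} (hE : TscConn tscG E)
    (hJ : ∀ v ∈ J, ∃ o ∈ E, ReflTransGen (fun a c => triAdj a c ∧ a ∈ J ∧ c ∈ J) o v) : TscConn tscG (E ∪ ↑J) := by
  have key : ∀ u ∈ E ∪ (↑J : Set TV), ∃ e ∈ E, TscR tscG (E ∪ ↑J) e u := by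
    rintro u (hu | hu)
    · exact ⟨u, hu, tsc_R_refl u⟩
    · obtain ⟨o, ho, hw⟩ := hJ u hu
      exact ⟨o, ho, ReflTransGen.mono (fun a b hab => ⟨hab.1, Or.inr hab.2.1, Or.inr hab.2.2⟩) o u hw⟩
  intro u hu v hv
  obtain ⟨e, he, h1⟩ := key u hu
  obtain ⟨e', he', h2⟩ := key v hv
  exact tsc_R_trans (tsc_R_symm h1) (tsc_R_trans (tsc_R_mono Set.subset_union_left (hE e he e' he')) h2)

/-- **the retained problem of a successful block satisfies the contract of `bdy_upg`** -/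
theorem bmu_ret {A : Finset TV} {c : TV} {k K1 Lq n0 ms : ℕ} {B : BdyBlkD} (hB : BdyBlk A c k K1 Lq n0 ms B) (hms : 1 ≤ ms)
    {t g : TV → ℤ} (hg : HtAdm A t g) (ht1 : ∀ u, -1 ≤ t u) (ht0 : ∀ u, u ∈ B.PL ∨ u ∈ B.PR → 0 ≤ t u) (hS : BmuS A c B g) :
    BdyRet A c B (bmuM A c B g) g (↑(latBall c B.r0) ∪ ↑(bmuJin A c B g)) ({u | B.r3 ≤ latN (u - c)} ∪ ↑(bmuJout A c B g)) := by
  obtain ⟨o1, o2, o3, o4, o5, o6, o7⟩ := bmu_ord hB hms
  refine ⟨?_, ?_, fun u hu => Or.inl (Finset.mem_coe.2 hu), ?_, ?_, ?_, ?_, ⟨g, ht_adm_sub_self (bmu_M_sub A c B g) hg⟩, ?_, ?_⟩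
  · intro u
    rw [bmu_mem_M]
    simp only [Set.mem_union, Finset.mem_coe, lat_mem_ball, Set.mem_ofPred_eq, not_or, not_le]
    constructor
    · rintro ⟨-, h1, h2, h3, h4, h5⟩; exact ⟨h1, ⟨h2, h4⟩, h3, h5⟩
    · rintro ⟨h1, ⟨h2, h4⟩, h3, h5⟩; exact ⟨hS, h1, h2, h3, h4, h5⟩
  · refine bmu_conn_aux (plh_ball_conn c B.r0) fun v hv => ?_
    obtain ⟨o, ho, -, hw⟩ := bdy_inv_conn hv
    exact ⟨o, ho, hw⟩
  · rintro u (hu | hu)
    · exact plh_ball_mono c o4.le hu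
    · exact lat_mem_ball.2 (hS.1 u hu)
  · have hE : TscConn tscG {u : TV | B.r3 ≤ latN (u - c)} := by
      have := plh_ball_compl_conn c (B.r3 - 1)
      have e : {u : TV | B.r3 ≤ latN (u - c)} = (↑(latBall c (B.r3 - 1)) : Set TV)ᶜ := by
        ext u
        simp only [Set.mem_ofPred_eq, Set.mem_compl_iff, Finset.mem_coe, lat_mem_ball]
        omega
      rw [e]; exact this
    refine bmu_conn_aux hE fun v hv => ?_
    obtain ⟨o, ho, -, hw⟩ := bdy_inv_conn hv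
    exact ⟨o, (bmu_mem_ring.1 ho).2.1, hw⟩
  · intro u hu
    rw [lat_mem_ball] at hu
    exact Or.inl (by simp only [Set.mem_ofPred_eq]; omega)
  · rintro u (hu | hu)
    · simp only [Set.mem_ofPred_eq] at hu
      rw [lat_mem_ball]; omega
    · have := hS.2 u hu
      rw [lat_mem_ball]; omega
  · intro u hu
    obtain ⟨huM, v, hv, hvu⟩ := bdy_mem_out.1 hu
    obtain ⟨-, hvA, hv1, hv2, hv3, hv4⟩ := bmu_mem_M.1 hv
    obtain ⟨l1, l2⟩ := bdy_N_lip c v u hvu
    by_cases huA : u ∈ A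
    · -- the site is in one of the two invasions
      have hin : u ∈ bmuJin A c B g → -1 ≤ g u := fun hJ =>
        bdy_lo_rim hJ (bmu_mem_ring.2 ⟨hvA, hv1.le, by have := hS.1 u hJ; omega⟩) hv3 (lat_adj_symm hvu)
      have hout : u ∈ bmuJout A c B g → -1 ≤ g u := fun hJ =>
        bdy_lo_rim hJ (bmu_mem_ring.2 ⟨hvA, by have := hS.2 u hJ; omega, hv2.le⟩) hv4 (lat_adj_symm hvu)
      by_cases h1 : u ∈ bmuJin A c B g
      · exact hin h1
      by_cases h2 : u ∈ bmuJout A c B g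
      · exact hout h2
      by_cases h3 : B.r0 < latN (u - c)
      · by_cases h4 : latN (u - c) < B.r3
        · exact absurd (bmu_mem_M.2 ⟨hS, huA, h3, h4, h1, h2⟩) huM
        · exact absurd (bdy_inv_seed (bmu_mem_ring.2 ⟨huA, by omega, by omega⟩) (bmu_mem_ring.2 ⟨huA, by omega, by omega⟩)) h2
      · exact absurd (bdy_inv_seed (lat_mem_ball.2 (by omega)) (bmu_mem_ring.2 ⟨huA, by omega, by omega⟩)) h1
    · rw [hg.1 u huA]; exact ht1 u
  · intro u hu
    have huA : u ∉ A := by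
      rcases hu with hu | hu
      · exact Finset.disjoint_left.1 hB.PL_off hu
      · exact Finset.disjoint_left.1 hB.PR_off hu
    rw [hg.1 u huA]; exact ht0 u hu

/-- a walk of the invasion whose last site is passable is a path of passable sites -/
theorem bmu_walk {U : Finset TV} {P : TV → Prop} {o w : TV} (hw : ReflTransGen (bdyStep U P) o w) (hP : P w) (hU : w ∈ U) :
    (P o ∧ o ∈ U) ∧ TscR tscG {u | u ∈ U ∧ P u} o w := by
  induction hw with
  | refl => exact ⟨⟨hP, hU⟩, tsc_R_refl _⟩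
  | tail _ hbc ih =>
    obtain ⟨h1, h2⟩ := ih hbc.2.1 hbc.2.2.1
    exact ⟨h1, tsc_R_trans h2 (tsc_R_step hbc.1 ⟨hbc.2.2.1, hbc.2.1⟩ ⟨hU, hP⟩)⟩

/-- **a block whose shield strips are not crossed by sites of height `≤ -2` is successful** (every `h`, no admissibility) -/
theorem bmu_succ {A : Finset TV} {c : TV} {k K1 Lq n0 ms : ℕ} {B : BdyBlkD} (hB : BdyBlk A c k K1 Lq n0 ms B) (hms : 1 ≤ ms)
    {h : TV → ℤ} (hs : BdySucc A c ms B h) : BmuS A c B h := by
  obtain ⟨o1, o2, o3, o4, o5, o6, o7⟩ := bmu_ord hB hms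
  have e1 := hB.hr1
  have e3 := hB.hr3
  constructor
  · intro u hu
    by_contra hn
    refine hs.1 ?_
    obtain ⟨-, o, ho, hw⟩ := bdy_mem_inv.1 hu
    rw [lat_mem_ball] at ho
    rcases ReflTransGen.cases_tail hw with rfl | ⟨w, how, hwu⟩
    · omega
    · obtain ⟨⟨p1, p2⟩, p3⟩ := bmu_walk how hwu.2.1 hwu.2.2.1
      obtain ⟨l1, l2⟩ := bdy_N_lip c w u hwu.1
      refine ⟨o, Finset.mem_coe.2 (lat_mem_ball.2 ho), w, ?_, (bmu_mem_ring.1 p2).1, by omega, tsc_R_mono ?_ p3⟩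
      · simp only [Set.mem_compl_iff, Finset.mem_coe, lat_mem_ball]; omega
      · rintro s ⟨s1, s2⟩
        exact ⟨(bmu_mem_ring.1 s1).1, by have : h s < -1 := s2; omega⟩
  · intro u hu
    by_contra hn
    refine hs.2 ?_
    obtain ⟨-, o, ho, hw⟩ := bdy_mem_inv.1 hu
    have ho' := (bmu_mem_ring.1 ho).2
    rcases ReflTransGen.cases_tail hw with rfl | ⟨w, how, hwu⟩
    · omega
    · obtain ⟨⟨p1, p2⟩, p3⟩ := bmu_walk how hwu.2.1 hwu.2.2.1
      obtain ⟨l1, l2⟩ := bdy_N_lip c w u hwu.1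
      have hwP : h w < -1 := hwu.2.1
      refine ⟨w, Finset.mem_coe.2 (lat_mem_ball.2 (by omega)), o, ?_, (bmu_mem_ring.1 hwu.2.2.1).1, by omega,
        tsc_R_mono ?_ (tsc_R_symm p3)⟩
      · simp only [Set.mem_compl_iff, Finset.mem_coe, lat_mem_ball]; omega
      · rintro s ⟨s1, s2⟩
        exact ⟨(bmu_mem_ring.1 s1).1, by have : h s < -1 := s2; omega⟩

/-! ## 2. crossings of a block -/

/-- a walk of sites of height `≤ -1` crosses the block, inside the closed annulus of radii `[a, 3 b3 + 1]` -/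
def BmuX (c : TV) (B : BdyBlkD) (h : TV → ℤ) : Prop :=
  ∃ a' b', latN (a' - c) = B.a ∧ latN (b' - c) = 3 * B.b3 + 1 ∧ h a' ≤ -1 ∧
    TscR tscG {s | h s ≤ -1 ∧ B.a ≤ latN (s - c) ∧ latN (s - c) ≤ 3 * B.b3 + 1} a' b'

/-- the crossing event reads the heights in the closed annulus only -/
theorem bmu_X_congr {c : TV} {B : BdyBlkD} {h h' : TV → ℤ} (hab : B.a ≤ 3 * B.b3 + 1)
    (hh : ∀ u, B.a ≤ latN (u - c) → latN (u - c) ≤ 3 * B.b3 + 1 → h' u = h u) : BmuX c B h' ↔ BmuX c B h := by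
  have e : {s | h' s ≤ -1 ∧ B.a ≤ latN (s - c) ∧ latN (s - c) ≤ 3 * B.b3 + 1}
      = {s | h s ≤ -1 ∧ B.a ≤ latN (s - c) ∧ latN (s - c) ≤ 3 * B.b3 + 1} := by
    ext s
    simp only [Set.mem_ofPred_eq]
    constructor
    · rintro ⟨h1, h2, h3⟩; exact ⟨hh s h2 h3 ▸ h1, h2, h3⟩
    · rintro ⟨h1, h2, h3⟩; exact ⟨(hh s h2 h3).symm ▸ h1, h2, h3⟩
  unfold BmuX
  rw [e]
  constructor
  · rintro ⟨a', b', h1, h2, h3, h4⟩
    exact ⟨a', b', h1, h2, (hh a' h1.ge (by omega)) ▸ h3, h4⟩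
  · rintro ⟨a', b', h1, h2, h3, h4⟩
    exact ⟨a', b', h1, h2, (hh a' h1.ge (by omega)).symm ▸ h3, h4⟩

/-- **a bridge blocks the crossings** (`bdy_top`) -/
theorem bmu_bridge {A : Finset TV} {c : TV} {k K1 Lq n0 ms : ℕ} {B : BdyBlkD} (hB : BdyBlk A c k K1 Lq n0 ms B) (hms : 1 ≤ ms)
    {M : Finset TV} (hM : ∀ u ∈ M, u ∈ A ∧ B.r0 < latN (u - c) ∧ latN (u - c) < B.r3) {h : TV → ℤ}
    (hA : ∀ s, s ∉ A → B.a ≤ latN (s - c) → latN (s - c) ≤ 3 * B.b3 + 1 → 0 ≤ h s) (hb : BdyBridge M B h) : ¬ BmuX c B h := by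
  obtain ⟨o1, o2, o3, o4, o5, o6, o7⟩ := bmu_ord hB hms
  rintro ⟨a', b', h1, h2, h3, h4⟩
  have hP : ∀ u, u ∈ B.PL ∨ u ∈ B.PR → u ∈ latBall c B.b3 ∧ u ∉ latBall c B.b0 := by
    rintro u (hu | hu)
    · exact ⟨hB.PL_in.1 hu, Finset.disjoint_left.1 hB.PL_in.2 hu⟩
    · exact ⟨hB.PR_in.1 hu, Finset.disjoint_left.1 hB.PR_in.2 hu⟩
  have haL : 0 ≤ h B.aL := by
    obtain ⟨p1, p2⟩ := hP _ (Or.inl hB.aL_mem)
    rw [lat_mem_ball] at p1 p2
    exact hA _ (Finset.disjoint_left.1 hB.PL_off hB.aL_mem) (by omega) (by omega)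
  have ha'T : a' ∈ {s | h s ≤ -1 ∧ B.a ≤ latN (s - c) ∧ latN (s - c) ≤ 3 * B.b3 + 1} := ⟨h3, h1.ge, by omega⟩
  obtain ⟨u, hu1, hu2⟩ := bdy_top hB (S := {u | 0 ≤ h u ∧ (u ∈ M ∨ u ∈ B.PL ∨ u ∈ B.PR)})
    (T := {s | h s ≤ -1 ∧ B.a ≤ latN (s - c) ∧ latN (s - c) ≤ 3 * B.b3 + 1})
    (by
      rintro u ⟨-, hu | hu⟩
      · obtain ⟨q1, q2, q3⟩ := hM u hu
        exact ⟨Or.inl q1, lat_mem_ball.2 (by omega), by rw [lat_mem_ball]; omega⟩
      · exact ⟨Or.inr hu, hP u hu⟩)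
    ⟨haL, Or.inr (Or.inl hB.aL_mem)⟩ hb
    (by
      rintro u ⟨q1, q2, q3⟩
      refine ⟨?_, lat_mem_ball.2 q3⟩
      by_contra hn
      have := hA u hn q2 q3
      omega)
    (w := a') (v := b') (lat_mem_ball.2 h1.le) (by rw [lat_mem_ball]; omega) (tsc_R_mem h4 ha'T) (tsc_R_symm h4)
  have := hu1.1
  have := hu2.1
  omega

/-! ## 3. the pack -/

section pack

variable {δ : ℝ} {p : ℝ × ℝ} {r R : ℝ} {A : Finset TV} {K1 Lq n0 ms N : ℕ} {c : TV} {k : ℕ} {Sin Sout : Finset TV} {Rtop : ℕ}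
  {B : ℕ → BdyBlkD}

/-- the blocks are nested and separated -/
theorem bmu_sep (hp : BdyPack δ p r R A K1 Lq n0 ms N c k Sin Sout Rtop B) (hms : 1 ≤ ms) {i j : ℕ} (hij : i < j) (hj : j < N) :
    3 * (B i).b3 + 3 ≤ (B j).a := by
  induction j, hij using Nat.le_induction with
  | base => exact hp.nest i hj
  | succ j hij ih =>
    have h1 := ih (by omega)
    have h2 := hp.nest j hj
    obtain ⟨o1, o2, o3, o4, o5, o6, o7⟩ := bmu_ord (hp.blk j (by omega)) hms
    omega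

theorem bmu_a_mono (hp : BdyPack δ p r R A K1 Lq n0 ms N c k Sin Sout Rtop B) (hms : 1 ≤ ms) {j : ℕ} (hj : j < N) :
    (B 0).a ≤ (B j).a := by
  rcases Nat.eq_zero_or_pos j with rfl | h0
  · exact le_rfl
  · have := bmu_sep hp hms h0 hj
    obtain ⟨o1, o2, o3, o4, o5, o6, o7⟩ := bmu_ord (hp.blk 0 (by omega)) hms
    omega

/-- the closed annuli of two different blocks are at distance at least two -/
theorem bmu_far (hp : BdyPack δ p r R A K1 Lq n0 ms N c k Sin Sout Rtop B) (hms : 1 ≤ ms) {i j : ℕ} (hi : i < N) (hj : j < N)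
    (hij : i ≠ j) {m m' : ℕ} (h1 : (B i).a ≤ m) (h2 : m ≤ 3 * (B i).b3 + 1) (h3 : (B j).a ≤ m') (h4 : m' ≤ 3 * (B j).b3 + 1) :
    m + 2 ≤ m' ∨ m' + 2 ≤ m := by
  rcases Nat.lt_or_gt_of_ne hij with h | h
  · have := bmu_sep hp hms h hj; omega
  · have := bmu_sep hp hms h hi; omega

/-- the trace vanishes in the annulus -/
theorem bmu_trace (hp : BdyPack δ p r R A K1 Lq n0 ms N c k Sin Sout Rtop B) {t : TV → ℤ}
    (ht0 : ∀ u, u ∉ bdyIn δ p r → u ∉ bdyOut δ p R → t u = 0) {u : TV} (h1 : (B 0).a ≤ latN (u - c)) (h2 : latN (u - c) ≤ Rtop) :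
    t u = 0 := by
  refine ht0 u (fun h => ?_) (fun h => ?_)
  · have := hp.start u h; omega
  · exact hp.stop u h (lat_mem_ball.2 h2)

/-- a negative walk from the small disc to the outside of the large disc crosses every block -/
theorem bmu_neg_X (hp : BdyPack δ p r R A K1 Lq n0 ms N c k Sin Sout Rtop B) (hms : 1 ≤ ms) {h : TV → ℤ}
    (hx : BdyNegX triAdj h (bdyOut δ p R) (bdyIn δ p r)) {j : ℕ} (hj : j < N) : BmuX c (B j) h := by
  obtain ⟨u, hu, v, hv, -, hw⟩ := hx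
  obtain ⟨o1, o2, o3, o4, o5, o6, o7⟩ := bmu_ord (hp.blk j hj) hms
  have h1 := hp.start u hu
  have h2 := hp.stop v hv
  rw [lat_mem_ball] at h2
  have h3 := hp.last j hj
  have h4 := bmu_a_mono hp hms hj
  exact bdy_walk_cut (g := fun s => latN (s - c)) (bdy_N_lip c) (P := fun s => h s ≤ -1) (a := (B j).a) (R := 3 * (B j).b3 + 1)
    (by omega) hw (by show latN (u - c) < _; omega) (by show _ < latN (v - c); omega)

/-- the union of the retained regions -/
noncomputable def bmuMM (A : Finset TV) (c : TV) (B : ℕ → BdyBlkD) (N : ℕ) (h : TV → ℤ) : Finset TV :=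
  (Finset.range N).biUnion (fun j => bmuM A c (B j) h)

/-- radii of the sites of a retained region and of the two invasions -/
theorem bmu_M_rad {B' : BdyBlkD} {h : TV → ℤ} {u : TV} (hu : u ∈ bmuM A c B' h) : B'.r0 < latN (u - c) ∧ latN (u - c) < B'.r3 :=
  ⟨(bmu_mem_M.1 hu).2.2.1, (bmu_mem_M.1 hu).2.2.2.1⟩

/-- the invasions of a block miss all the retained regions -/
theorem bmu_J_miss (hp : BdyPack δ p r R A K1 Lq n0 ms N c k Sin Sout Rtop B) (hms : 1 ≤ ms) {j : ℕ} (hj : j < N) (h : TV → ℤ) {u : TV}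
    (hu : u ∈ bmuJin A c (B j) h ∨ u ∈ bmuJout A c (B j) h) : u ∉ bmuMM A c B N h := by
  intro hM
  obtain ⟨i, hi, hiM⟩ := Finset.mem_biUnion.1 hM
  rw [Finset.mem_range] at hi
  obtain ⟨o1, o2, o3, o4, o5, o6, o7⟩ := bmu_ord (hp.blk j hj) hms
  obtain ⟨q1, q2, q3, q4, q5, q6, q7⟩ := bmu_ord (hp.blk i hi) hms
  obtain ⟨m1, m2⟩ := bmu_M_rad hiM
  by_cases hij : i = j
  · subst hij
    rcases hu with hu | hu
    · exact (bmu_mem_M.1 hiM).2.2.2.2.1 hu
    · exact (bmu_mem_M.1 hiM).2.2.2.2.2 hu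
  · have hr : (B j).r0 ≤ latN (u - c) ∧ latN (u - c) ≤ (B j).r3 := by
      rcases hu with hu | hu
      · have := (bmu_mem_ring.1 (bmu_Jin_sub _ _ _ _ hu)).2; omega
      · have := (bmu_mem_ring.1 (bmu_Jout_sub _ _ _ _ hu)).2; omega
    have := bmu_far hp hms hi hj hij (m := latN (u - c)) (m' := latN (u - c)) (by omega) (by omega) (by omega) (by omega)
    omega

/-- **the union of the retained regions is a stopping set** -/
theorem bmu_MM_stop (hp : BdyPack δ p r R A K1 Lq n0 ms N c k Sin Sout Rtop B) (hms : 1 ≤ ms) (h h' : TV → ℤ)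
    (hh : ∀ u, u ∉ bmuMM A c B N h → h' u = h u) : bmuMM A c B N h' = bmuMM A c B N h := by
  unfold bmuMM
  refine Finset.biUnion_congr rfl fun j hj => ?_
  rw [Finset.mem_range] at hj
  exact (bmu_stop (fun u hu => hh u (bmu_J_miss hp hms hj h (Or.inl hu)))
    (fun u hu => hh u (bmu_J_miss hp hms hj h (Or.inr hu)))).2.2.2

open Classical in
/-- **R2, first half**: strong Markov property at the union of the retained regions, independence of the blocks, upgrade of every successful block -/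
theorem bmu_main {x : ℝ} (hx0 : 0 < x) {a3 : ℝ} (hp : BdyPack δ p r R A K1 Lq n0 ms N c k Sin Sout Rtop B) (hms : 1 ≤ ms)
    (hU : ∀ j < N, ∀ (M : Finset TV) (η : TV → ℤ) (I O : Set TV), BdyRet A c (B j) M η I O → a3 ≤ htP x M η (BdyBridge M (B j)))
    {t : TV → ℤ} (ht1 : ∀ u, t u = -1 ∨ t u = 0) (ht0 : ∀ u, u ∉ bdyIn δ p r → u ∉ bdyOut δ p R → t u = 0) :
    htP x A t (fun h => BdyNegX triAdj h (bdyOut δ p R) (bdyIn δ p r)) ≤
      htE x A t (fun h => ∏ j ∈ Finset.range N, (1 - a3 * (if BmuS A c (B j) h then 1 else 0))) := by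
  set X : ℕ → (TV → ℤ) → ℝ := fun j h => if BmuX c (B j) h then 1 else 0 with hX
  have hX0 : ∀ j h, 0 ≤ X j h := fun j h => by simp only [hX]; split_ifs <;> norm_num
  -- step 1: the walk crosses every block
  have s1 : htP x A t (fun h => BdyNegX triAdj h (bdyOut δ p R) (bdyIn δ p r)) ≤ htE x A t (fun h => ∏ j ∈ Finset.range N, X j h) := by
    refine ht_E_mono hx0 A t fun H _ => ?_
    split_ifs with hn
    · refine le_of_eq (Finset.prod_eq_one fun j hj => ?_).symm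
      simp only [hX]
      rw [if_pos (bmu_neg_X hp hms hn (Finset.mem_range.1 hj))]
    · exact Finset.prod_nonneg fun j _ => hX0 j H
  refine s1.trans ?_
  -- step 2: strong Markov
  rw [← bdy_smarkov hx0 t (bmuMM A c B N)
    (fun h u hu => by obtain ⟨j, -, hj⟩ := Finset.mem_biUnion.1 hu; exact bmu_M_sub _ _ _ _ hj) (bmu_MM_stop hp hms)]
  refine ht_E_mono hx0 A t fun g hg => ?_
  -- step 3: product over the blocks
  have hspan : ∀ j < N, ∀ u ∈ bmuM A c (B j) g, (B j).a + 1 ≤ latN (u - c) ∧ latN (u - c) + 1 ≤ 3 * (B j).b3 + 1 := by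
    intro j hj u hu
    obtain ⟨o1, o2, o3, o4, o5, o6, o7⟩ := bmu_ord (hp.blk j hj) hms
    obtain ⟨m1, m2⟩ := bmu_M_rad hu
    omega
  have hprod := bdy_split_prod hx0 (Finset.range N) (fun j => bmuM A c (B j) g) g X
    (fun i _ u hu d hd => hg.2 u (bmu_M_sub _ _ _ _ hu) d hd)
    (fun i hi j hj hij => by
      rw [Finset.mem_range] at hi hj
      rw [Finset.disjoint_left]
      intro u hu huj
      obtain ⟨n1, n2⟩ := hspan j hj u huj
      rcases lat_mem_cl.1 hu with hu | ⟨v, hv, hvu⟩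
      · obtain ⟨m1, m2⟩ := hspan i hi u hu
        have := bmu_far hp hms hi hj hij (m := latN (u - c)) (m' := latN (u - c)) (by omega) (by omega) (by omega) (by omega)
        omega
      · obtain ⟨m1, m2⟩ := hspan i hi v hv
        obtain ⟨l1, l2⟩ := bdy_N_lip c v u hvu
        have := bmu_far hp hms hi hj hij (m := latN (u - c)) (m' := latN (u - c)) (by omega) (by omega) (by omega) (by omega)
        omega)
    (fun i hi j hj hij h h' hh => by
      rw [Finset.mem_range] at hi hj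
      obtain ⟨o1, o2, o3, o4, o5, o6, o7⟩ := bmu_ord (hp.blk i hi) hms
      simp only [hX]
      rw [if_congr (bmu_X_congr (by omega) fun u h1 h2 => hh u fun huj => ?_) rfl rfl]
      obtain ⟨n1, n2⟩ := hspan j hj u huj
      have := bmu_far hp hms hi hj hij (m := latN (u - c)) (m' := latN (u - c)) h1 h2 (by omega) (by omega)
      omega)
  have e : htE x (bmuMM A c B N g) g (fun h => ∏ j ∈ Finset.range N, X j h) = ∏ j ∈ Finset.range N, htE x (bmuM A c (B j) g) g (X j) := hprod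
  rw [e]
  refine Finset.prod_le_prod (fun j _ => ht_E_nonneg hx0 _ _ fun H _ => hX0 j H) fun j hj => ?_
  rw [Finset.mem_range] at hj
  have hle1 : htE x (bmuM A c (B j) g) g (X j) ≤ 1 := ht_P_le_one hx0 _ _ (BmuX c (B j))
  split_ifs with hS
  · -- a successful block
    obtain ⟨o1, o2, o3, o4, o5, o6, o7⟩ := bmu_ord (hp.blk j hj) hms
    have hblk := hp.blk j hj
    have h4 := bmu_a_mono hp hms hj
    have h5 := hp.last j hj
    have hret := bmu_ret hblk hms hg (fun u => by rcases ht1 u with h | h <;> omega)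
      (fun u hu => by
        have hP : u ∈ latBall c (B j).b3 ∧ u ∉ latBall c (B j).b0 := by
          rcases hu with hu | hu
          · exact ⟨hblk.PL_in.1 hu, Finset.disjoint_left.1 hblk.PL_in.2 hu⟩
          · exact ⟨hblk.PR_in.1 hu, Finset.disjoint_left.1 hblk.PR_in.2 hu⟩
        rw [lat_mem_ball, lat_mem_ball] at hP
        exact (bmu_trace hp ht0 (by omega) (by omega)).ge) hS
    have hup := hU j hj _ _ _ _ hret
    have hadm : HtAdm (bmuM A c (B j) g) g g := ht_adm_sub_self (bmu_M_sub _ _ _ _) hg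
    have hnot := ht_P_not hx0 hadm (BdyBridge (bmuM A c (B j) g) (B j))
    have hmono : htP x (bmuM A c (B j) g) g (BmuX c (B j)) ≤ htP x (bmuM A c (B j) g) g (fun h => ¬ BdyBridge (bmuM A c (B j) g) (B j) h) := by
      refine ht_P_mono hx0 _ _ fun H hH hXH hbr => ?_
      refine bmu_bridge hblk hms (fun u hu => ⟨bmu_M_sub _ _ _ _ hu, bmu_M_rad hu⟩) (fun s hs h1 h2 => ?_) hbr hXH
      rw [hH.1 s (fun hsM => hs (bmu_M_sub _ _ _ _ hsM)), hg.1 s hs]
      exact (bmu_trace hp ht0 (by omega) (by omega)).ge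
    have : htE x (bmuM A c (B j) g) g (X j) = htP x (bmuM A c (B j) g) g (BmuX c (B j)) := rfl
    rw [this]
    linarith
  · simpa using hle1

/-- the smallest scale `n0` of a block may be lowered -/
theorem bmu_blk_mono {B' : BdyBlkD} {n0' : ℕ} (hn : n0' ≤ n0) (hB : BdyBlk A c k K1 Lq n0 ms B') : BdyBlk A c k K1 Lq n0' ms B' :=
  { hB with ha := ⟨hB.ha.1, hn.trans hB.ha.2⟩, hρ := ⟨hB.hρ.1, hn.trans hB.hρ.2⟩ }

end pack

/-- **[ARCH]** from the upgrade (`bdy_upg`, 205), the synthetic side (`bpr_main`, 86) and the geometry (`exit_bdy_geo`) -/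
theorem bmu_arch (x : ℝ) (hx1 : 1 / Real.sqrt 2 ≤ x) (hx2 : x ≤ 1) (D : Set (ℝ × ℝ)) (hD : IsC2JordanDomain D)
    (δ : ℕ → ℝ) (F : ℕ → Finset (ℤ × ℤ)) (hF : IsInsideApprox D δ F) : BdyArch x D δ F := by
  have hx0 : 0 < x := lt_of_lt_of_le (by positivity) hx1
  obtain ⟨K1, Lq, n0, a3', ha3', hK1, hLq, hU⟩ := bdy_upg x hx1 hx2
  obtain ⟨C, ms0, n00, hC, hP⟩ := bpr_main x hx1 hx2
  set a3 : ℝ := min a3' 1 with ha3
  have h0 : 0 < a3 := lt_min ha3' one_pos
  have h1 : a3 ≤ 1 := min_le_right _ _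
  intro p hp R hR ε hε
  -- the number of blocks
  obtain ⟨N, hN⟩ : ∃ N : ℕ, C * (1 - a3 / 2) ^ N ≤ ε := by
    obtain ⟨N, hN⟩ := exists_pow_lt_of_lt_one (div_pos hε hC) (show 1 - a3 / 2 < 1 by linarith)
    refine ⟨N, ?_⟩
    rw [lt_div_iff₀ hC] at hN
    linarith
  obtain ⟨r, hr0, hrR, hev⟩ := exit_bdy_geo D hD δ F hF p hp R hR K1 Lq (max n0 n00) (max ms0 2) N hK1 hLq (le_max_right _ _)
  refine ⟨r, hr0, hrR, hev.mono fun n hn t ht1 ht0 => ?_⟩
  obtain ⟨c, k, Sin, Sout, Rtop, B, hpack⟩ := hn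
  have hms : 1 ≤ max ms0 2 := le_trans (by norm_num) (le_max_right _ _)
  refine (bmu_main hx0 (a3 := a3) hpack hms (fun j hj M η I O hret => (min_le_left _ _).trans
    (hU _ _ _ _ _ _ _ _ _ hms hpack.geo.co hpack.geo.c_off (bmu_blk_mono (le_max_left _ _) (hpack.blk j hj)) hret)) ht1 ht0).trans ?_
  exact (hP _ _ _ _ _ _ _ _ _ _ _ _ _ _ _ _ (le_max_left _ _) (le_max_right _ _) hpack t ht1 ht0 a3 h0.le h1 _
    (fun j hj h hs => bmu_succ (hpack.blk j hj) hms hs)).trans hN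

end Claimed.Agent.R291
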