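import Claimed.Agent.R291.Bdy.Top
import Claimed.Agent.R291.Bdy.HInv
import Claimed.Agent.R291.Bdy.Syn

/-!
# Row 291 (S0539), unit BDY, file Bdy/Ret      (owner: helper173; prefix `bdy_`)

RETAINED REGIONS OF A BLOCK = STOPPING SETS  (R1 of `origin/helper173:notes/R291/sec6b_173.md`; replaces TEX[lem:boundary:extremal], extremal site circuits).      Deterministic, model free.
Block data `B : BdyBlkD` (Defs/BdyGeo), centre `c`, free set `A`.
* `bdySph c r`       sphere of radius `r`;      `bdyU c B` = closed annulus `r0 ≤ |u - c| ≤ r3` = universe of the two invasions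
* `bdyJin c B h`     invasion of the sphere `r0` through the sites of height `≤ -2` (it contains its rim, of height `≥ -1`);      `bdyJout c B h` the same from the sphere `r3`
* `bdyM A c B h`     THE RETAINED REGION `(A ∩ U) \ (Jin ∪ Jout)`
* `BdyGood c B h`    the inner invasion stays in `latBall c r1`, the outer one misses `latBall c r2` (both shields hold)
* `bdyReg A c B`, `BdyX A c B h`     the block is CROSSED: a walk of sites of `A` of height `≤ -1` from the sphere `a` to the sphere `3 b3 + 1` inside the closed annulus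
KIT: `bdy_M_sub`, `bdy_M_rad`, `bdy_M_stop`, `bdy_good_stop` (stopping set), `bdy_M_out` (boundary values), `bdy_M_co` (hole free), `bdy_M_work`, `bdy_pocket` (the pocket of an attachment touches the near arc only),
`bdy_good_fail` (failure of a shield = a strip is crossed by sites `≤ -2`), `bdy_X_loc`.
-/

set_option autoImplicit false
set_option linter.unusedVariables false

namespace Claimed.Agent.R291

open Claims Claims.C0467 Relation

/-- sphere of radius `r` -/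
noncomputable def bdySph (c : TV) (r : ℕ) : Finset TV := (latBall c r).filter (fun u => latN (u - c) = r)

/-- universe of the invasions of a block: the closed annulus `r0 ≤ |u - c| ≤ r3` -/
noncomputable def bdyU (c : TV) (B : BdyBlkD) : Finset TV := (latBall c B.r3).filter (fun u => B.r0 ≤ latN (u - c))

/-- inner invasion, through the sites of height `≤ -2` -/
noncomputable def bdyJin (c : TV) (B : BdyBlkD) (h : TV → ℤ) : Finset TV := bdyLo (bdyU c B) (-1) (bdySph c B.r0) h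

/-- outer invasion, through the sites of height `≤ -2` -/
noncomputable def bdyJout (c : TV) (B : BdyBlkD) (h : TV → ℤ) : Finset TV := bdyLo (bdyU c B) (-1) (bdySph c B.r3) h

/-- the retained region of the block -/
noncomputable def bdyM (A : Finset TV) (c : TV) (B : BdyBlkD) (h : TV → ℤ) : Finset TV :=
  (A ∩ bdyU c B) \ (bdyJin c B h ∪ bdyJout c B h)

/-- both shields hold -/
def BdyGood (c : TV) (B : BdyBlkD) (h : TV → ℤ) : Prop :=
  bdyJin c B h ⊆ latBall c B.r1 ∧ Disjoint (bdyJout c B h) (latBall c B.r2)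

/-- the free sites of the closed annulus `a ≤ |u - c| ≤ 3 b3 + 1` -/
noncomputable def bdyReg (A : Finset TV) (c : TV) (B : BdyBlkD) : Finset TV :=
  A.filter (fun u => B.a ≤ latN (u - c) ∧ latN (u - c) ≤ 3 * B.b3 + 1)

/-- the block is crossed by a walk of negative free sites -/
def BdyX (A : Finset TV) (c : TV) (B : BdyBlkD) (h : TV → ℤ) : Prop :=
  BdyLoX (bdyReg A c B) (-1) (latBall c B.a : Set TV) ((latBall c (3 * B.b3) : Set TV)ᶜ) h

theorem bdy_ret_eqns_cite : True := by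
  have := @bdySph.eq_1; have := @bdyU.eq_1; have := @bdyJin.eq_1; have := @bdyJout.eq_1; have := @bdyM.eq_1
  have := @BdyGood.eq_1; have := @bdyReg.eq_1; have := @BdyX.eq_1
  trivial

theorem bdy_mem_sph {c u : TV} {r : ℕ} : u ∈ bdySph c r ↔ latN (u - c) = r := by
  unfold bdySph
  rw [Finset.mem_filter, lat_mem_ball]
  exact ⟨fun h => h.2, fun h => ⟨h.le, h⟩⟩

theorem bdy_mem_U {c u : TV} {B : BdyBlkD} : u ∈ bdyU c B ↔ B.r0 ≤ latN (u - c) ∧ latN (u - c) ≤ B.r3 := by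
  unfold bdyU
  rw [Finset.mem_filter, lat_mem_ball]
  exact and_comm

theorem bdy_mem_reg {A : Finset TV} {c u : TV} {B : BdyBlkD} :
    u ∈ bdyReg A c B ↔ u ∈ A ∧ B.a ≤ latN (u - c) ∧ latN (u - c) ≤ 3 * B.b3 + 1 := by
  unfold bdyReg
  rw [Finset.mem_filter]

theorem bdy_M_sub (A : Finset TV) (c : TV) (B : BdyBlkD) (h : TV → ℤ) : bdyM A c B h ⊆ A :=
  fun _ hu => (Finset.mem_inter.1 (Finset.mem_sdiff.1 hu).1).1

/-- the retained region lies strictly between the two seed spheres -/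
theorem bdy_M_rad {A : Finset TV} {c : TV} {B : BdyBlkD} (h03 : B.r0 ≤ B.r3) {h : TV → ℤ} {u : TV} (hu : u ∈ bdyM A c B h) :
    B.r0 < latN (u - c) ∧ latN (u - c) < B.r3 := by
  obtain ⟨h1, h2⟩ := Finset.mem_sdiff.1 hu
  have hU := (Finset.mem_inter.1 h1).2
  obtain ⟨a1, a2⟩ := bdy_mem_U.1 hU
  rw [Finset.mem_union, not_or] at h2
  constructor
  · refine lt_of_le_of_ne a1 fun e => h2.1 ?_
    exact bdy_inv_seed (bdy_mem_sph.2 e.symm) hU
  · refine lt_of_le_of_ne a2 fun e => h2.2 ?_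
    exact bdy_inv_seed (bdy_mem_sph.2 e) hU

/-- **stopping set** -/
theorem bdy_M_stop {A : Finset TV} {c : TV} {B : BdyBlkD} {h h' : TV → ℤ} (hh : ∀ u, u ∉ bdyM A c B h → h' u = h u) :
    bdyJin c B h' = bdyJin c B h ∧ bdyJout c B h' = bdyJout c B h ∧ bdyM A c B h' = bdyM A c B h := by
  have e1 : bdyJin c B h' = bdyJin c B h := bdy_lo_stop fun u hu => hh u fun hm =>
    (Finset.mem_sdiff.1 hm).2 (Finset.mem_union_left _ hu)
  have e2 : bdyJout c B h' = bdyJout c B h := bdy_lo_stop fun u hu => hh u fun hm =>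
    (Finset.mem_sdiff.1 hm).2 (Finset.mem_union_right _ hu)
  refine ⟨e1, e2, ?_⟩
  unfold bdyM
  rw [e1, e2]

theorem bdy_good_stop {A : Finset TV} {c : TV} {B : BdyBlkD} {h h' : TV → ℤ} (hh : ∀ u, u ∉ bdyM A c B h → h' u = h u) :
    BdyGood c B h' ↔ BdyGood c B h := by
  obtain ⟨e1, e2, -⟩ := bdy_M_stop hh
  unfold BdyGood
  rw [e1, e2]

/-- the outer boundary of the retained region: boundary sites of `A` of radius in `[r0, r3]`, or rim sites (height `≥ -1`) of the invasions -/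
theorem bdy_M_out {A : Finset TV} {c : TV} {B : BdyBlkD} (h03 : B.r0 ≤ B.r3) {h : TV → ℤ} {u : TV} (hu : u ∈ latOut (bdyM A c B h)) :
    (u ∈ latOut A ∧ B.r0 ≤ latN (u - c) ∧ latN (u - c) ≤ B.r3) ∨ ((u ∈ bdyJin c B h ∨ u ∈ bdyJout c B h) ∧ -1 ≤ h u) := by
  obtain ⟨hu1, v, hv, hvu⟩ := bdy_mem_out.1 hu
  obtain ⟨r1, r2⟩ := bdy_M_rad h03 hv
  obtain ⟨l1, l2⟩ := bdy_N_lip c v u hvu
  have hrad : B.r0 ≤ latN (u - c) ∧ latN (u - c) ≤ B.r3 := ⟨by omega, by omega⟩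
  have hvU : v ∈ bdyU c B := (Finset.mem_inter.1 (Finset.mem_sdiff.1 hv).1).2
  have hvJ := (Finset.mem_sdiff.1 hv).2
  rw [Finset.mem_union, not_or] at hvJ
  by_cases hA : u ∈ A
  · right
    have hJ : u ∈ bdyJin c B h ∪ bdyJout c B h := by
      by_contra hn
      exact hu1 (Finset.mem_sdiff.2 ⟨Finset.mem_inter.2 ⟨hA, bdy_mem_U.2 hrad⟩, hn⟩)
    rcases Finset.mem_union.1 hJ with h1 | h1
    · exact ⟨Or.inl h1, bdy_lo_rim h1 hvU hvJ.1 (lat_adj_symm hvu)⟩
    · exact ⟨Or.inr h1, bdy_lo_rim h1 hvU hvJ.2 (lat_adj_symm hvu)⟩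
  · exact Or.inl ⟨bdy_mem_out.2 ⟨hA, v, bdy_M_sub A c B h hv, hvu⟩, hrad⟩

theorem bdy_sph_conn (c : TV) (r : ℕ) : TscConn tscG (↑(bdySph c r) : Set TV) := by
  have e : (↑(bdySph c r) : Set TV) = {u : TV | latN (u - c) = r} := by
    ext u
    rw [Finset.mem_coe, bdy_mem_sph]
    rfl
  rw [e]
  exact plh_sphere_conn c r

/-- a site of the sphere of radius `r` -/
theorem bdy_sph_pt (c : TV) (r : ℕ) : latN (c + ((r : ℤ), 0) - c) = r := by
  rw [add_sub_cancel_left, plh_N_hor]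
  omega

/-- the invasion of a connected seed is connected -/
theorem bdy_inv_tsc {U O : Finset TV} {P : TV → Prop} (hO : TscConn tscG (↑O : Set TV)) (hOU : O ⊆ U) :
    TscConn tscG (↑(bdyInv U P O) : Set TV) := by
  have hsub : (↑O : Set TV) ⊆ ↑(bdyInv U P O) := fun o ho => bdy_inv_seed ho (hOU ho)
  have hj : ∀ v ∈ bdyInv U P O, ∃ o ∈ O, TscR tscG (↑(bdyInv U P O) : Set TV) o v := by
    intro v hv
    obtain ⟨o, ho, -, hw⟩ := bdy_inv_conn hv
    exact ⟨o, ho, hw⟩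
  intro u hu v hv
  obtain ⟨o, ho, hou⟩ := hj u hu
  obtain ⟨o', ho', hov⟩ := hj v hv
  exact tsc_R_trans (tsc_R_symm hou) (tsc_R_trans (tsc_R_mono hsub (hO o ho o' ho')) hov)

theorem bdy_sph_sub_U {c : TV} {B : BdyBlkD} (h03 : B.r0 ≤ B.r3) : bdySph c B.r0 ⊆ bdyU c B ∧ bdySph c B.r3 ⊆ bdyU c B :=
  ⟨fun u hu => bdy_mem_U.2 (by have := bdy_mem_sph.1 hu; omega), fun u hu => bdy_mem_U.2 (by have := bdy_mem_sph.1 hu; omega)⟩

theorem bdy_Jin_conn {c : TV} {B : BdyBlkD} (h03 : B.r0 ≤ B.r3) (h : TV → ℤ) : TscConn tscG (↑(bdyJin c B h) : Set TV) :=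
  bdy_inv_tsc (bdy_sph_conn c B.r0) (bdy_sph_sub_U h03).1

theorem bdy_Jout_conn {c : TV} {B : BdyBlkD} (h03 : B.r0 ≤ B.r3) (h : TV → ℤ) : TscConn tscG (↑(bdyJout c B h) : Set TV) :=
  bdy_inv_tsc (bdy_sph_conn c B.r3) (bdy_sph_sub_U h03).2

theorem bdy_sph_sub_Jin {c : TV} {B : BdyBlkD} (h03 : B.r0 ≤ B.r3) (h : TV → ℤ) {u : TV} (hu : latN (u - c) = B.r0) : u ∈ bdyJin c B h :=
  bdy_inv_seed (bdy_mem_sph.2 hu) ((bdy_sph_sub_U h03).1 (bdy_mem_sph.2 hu))

theorem bdy_sph_sub_Jout {c : TV} {B : BdyBlkD} (h03 : B.r0 ≤ B.r3) (h : TV → ℤ) {u : TV} (hu : latN (u - c) = B.r3) : u ∈ bdyJout c B h :=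
  bdy_inv_seed (bdy_mem_sph.2 hu) ((bdy_sph_sub_U h03).2 (bdy_mem_sph.2 hu))

/-- far from `c` there is a site off a given finite set -/
theorem bdy_far_site (A : Finset TV) (c : TV) (r : ℕ) : ∃ y, y ∉ A ∧ y ∉ latBall c r := by
  obtain ⟨R0, hR0⟩ := bdy_finset_in_ball A
  refine ⟨c + (((r + R0 + latN c + 1 : ℕ) : ℤ), 0), fun hy => ?_, fun hy => ?_⟩
  · have h1 := lat_mem_ball.1 (hR0 hy)
    rw [sub_zero] at h1
    have h2 := bdy_sph_pt c (r + R0 + latN c + 1)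
    have h4 := plh_N_tri (c + (((r + R0 + latN c + 1 : ℕ) : ℤ), 0)) 0 c
    rw [sub_zero, zero_sub, plh_N_neg] at h4
    omega
  · have h1 := lat_mem_ball.1 hy
    have h2 := bdy_sph_pt c (r + R0 + latN c + 1)
    omega

/-- the retained region is hole free -/
theorem bdy_M_co {A : Finset TV} {c : TV} {B : BdyBlkD} (hA : MomCo A) (hc : c ∉ A) (h03 : B.r0 ≤ B.r3) (h3 : 1 ≤ B.r3) (h : TV → ℤ) :
    MomCo (bdyM A c B h) := by
  have hIn : TscConn tscG ((↑(latBall c B.r0) : Set TV) ∪ ↑(bdyJin c B h)) :=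
    tsc_conn_union (plh_ball_conn c B.r0) (bdy_Jin_conn h03 h) (a := c + ((B.r0 : ℤ), 0)) (b := c + ((B.r0 : ℤ), 0))
      (Finset.mem_coe.2 (lat_mem_ball.2 (bdy_sph_pt c B.r0).le)) (Finset.mem_coe.2 (bdy_sph_sub_Jin h03 h (bdy_sph_pt c B.r0))) (Or.inl rfl)
  have hOut : TscConn tscG ((↑(latBall c (B.r3 - 1)) : Set TV)ᶜ ∪ ↑(bdyJout c B h)) :=
    tsc_conn_union (plh_ball_compl_conn c (B.r3 - 1)) (bdy_Jout_conn h03 h) (a := c + ((B.r3 : ℤ), 0)) (b := c + ((B.r3 : ℤ), 0))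
      (fun hm => by
        have h1 := lat_mem_ball.1 (Finset.mem_coe.1 hm)
        have h2 := bdy_sph_pt c B.r3
        omega) (Finset.mem_coe.2 (bdy_sph_sub_Jout h03 h (bdy_sph_pt c B.r3))) (Or.inl rfl)
  have h1 : TscConn tscG ((↑A : Set TV)ᶜ ∪ ((↑(latBall c B.r0) : Set TV) ∪ ↑(bdyJin c B h))) :=
    tsc_conn_union hA hIn (a := c) (b := c) (fun hm => hc (Finset.mem_coe.1 hm))
      (Or.inl (Finset.mem_coe.2 (plh_ball_self c B.r0))) (Or.inl rfl)
  obtain ⟨y, hy1, hy2⟩ := bdy_far_site A c (B.r3 - 1)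
  have h2 := tsc_conn_union h1 hOut (a := y) (b := y) (Or.inl (fun hm => hy1 (Finset.mem_coe.1 hm)))
    (Or.inl (fun hm => hy2 (Finset.mem_coe.1 hm))) (Or.inl rfl)
  have e : (↑(bdyM A c B h) : Set TV)ᶜ = ((↑A : Set TV)ᶜ ∪ ((↑(latBall c B.r0) : Set TV) ∪ ↑(bdyJin c B h))) ∪
      ((↑(latBall c (B.r3 - 1)) : Set TV)ᶜ ∪ ↑(bdyJout c B h)) := by
    ext u
    simp only [Set.mem_compl_iff, Set.mem_union, Finset.mem_coe, lat_mem_ball]
    constructor
    · intro hu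
      by_cases hA' : u ∈ A
      · by_cases hU : u ∈ bdyU c B
        · have hJ : u ∈ bdyJin c B h ∪ bdyJout c B h := by
            by_contra hn
            exact hu (Finset.mem_sdiff.2 ⟨Finset.mem_inter.2 ⟨hA', hU⟩, hn⟩)
          rcases Finset.mem_union.1 hJ with h4 | h4
          · exact Or.inl (Or.inr (Or.inr h4))
          · exact Or.inr (Or.inr h4)
        · rw [bdy_mem_U, not_and_or] at hU
          rcases hU with h4 | h4
          · exact Or.inl (Or.inr (Or.inl (by omega)))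
          · exact Or.inr (Or.inl (by omega))
      · exact Or.inl (Or.inl hA')
    · intro hu hm
      obtain ⟨r1, r2⟩ := bdy_M_rad h03 hm
      have hJ := (Finset.mem_sdiff.1 hm).2
      rw [Finset.mem_union, not_or] at hJ
      rcases hu with (h4 | h4 | h4) | h4 | h4
      · exact h4 (bdy_M_sub A c B h hm)
      · omega
      · exact hJ.1 h4
      · omega
      · exact hJ.2 h4
  unfold MomCo
  rw [e]
  exact h2

/-- on the good event the retained region contains the free sites of the working annulus -/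
theorem bdy_M_work {A : Finset TV} {c : TV} {B : BdyBlkD} (h01 : B.r0 ≤ B.r1) (h23 : B.r2 ≤ B.r3) {h : TV → ℤ} (hg : BdyGood c B h) {u : TV}
    (hu : u ∈ A) (h2 : u ∈ latBall c B.r2) (h1 : u ∉ latBall c B.r1) : u ∈ bdyM A c B h := by
  have a2 : latN (u - c) ≤ B.r2 := lat_mem_ball.1 h2
  have a1 : ¬ latN (u - c) ≤ B.r1 := fun hc => h1 (lat_mem_ball.2 hc)
  refine Finset.mem_sdiff.2 ⟨Finset.mem_inter.2 ⟨hu, bdy_mem_U.2 ⟨by omega, by omega⟩⟩, fun hJ => ?_⟩
  rcases Finset.mem_union.1 hJ with h3 | h3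
  · exact h1 (hg.1 h3)
  · exact (Finset.disjoint_left.1 hg.2) h3 h2

/-- **the pocket of an attachment touches the near arc only.**   `Pn` = near arc, `Pf` = far arc (a BRIDGE between the two rims), `H` = hull of `M ∪ latBall q L`. -/
theorem bdy_pocket {A : Finset TV} {c : TV} {B : BdyBlkD} (h01 : B.r0 ≤ B.r1) (h12 : B.r1 ≤ B.r2) (h23 : B.r2 < B.r3) {h : TV → ℤ} (hg : BdyGood c B h)
    {Pn Pf : Finset TV} (hcov : ∀ u ∈ latOut A, u ∈ latBall c B.r3 → B.r0 ≤ latN (u - c) → u ∈ Pn ∨ u ∈ Pf)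
    (hPc : TscConn tscG (Pf : Set TV)) (hPo : Disjoint Pf A) (hPe : (∃ u ∈ Pf, u ∈ latBall c B.r0) ∧ ∃ u ∈ Pf, u ∉ latBall c B.r3)
    {q : TV} {L : ℕ} (hq : latBall q L ⊆ latBall c B.r2 ∧ Disjoint (latBall q L) (latBall c B.r1) ∧ Disjoint (latBall q L) Pf)
    {H : Finset TV} (hH1 : H ⊆ latBall c B.r3)
    (hH2 : ∀ u v, u ∉ H → TscR tscG (((bdyM A c B h ∪ latBall q L : Finset TV) : Set TV)ᶜ) u v → v ∉ H) :
    ∀ u ∈ latOut (bdyM A c B h), u ∈ H → u ∈ Pn := by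
  have h03 : B.r0 ≤ B.r3 := by omega
  obtain ⟨⟨x0, hx0, hx0'⟩, y0, hy0, hy0'⟩ := hPe
  have hx0N : latN (x0 - c) ≤ B.r0 := lat_mem_ball.1 hx0'
  have hy0N : ¬ latN (y0 - c) ≤ B.r3 := fun hc => hy0' (lat_mem_ball.2 hc)
  obtain ⟨z0, hz0, hz0N⟩ := bdy_ivt (bdy_N_lip c) (Finset.mem_coe.2 hx0) (hPc x0 hx0 y0 hy0) (m := B.r0) hx0N (by omega)
  obtain ⟨z3, hz3, hz3N⟩ := bdy_ivt (bdy_N_lip c) (Finset.mem_coe.2 hx0) (hPc x0 hx0 y0 hy0) (m := B.r3) (by omega) (by omega)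
  have hQ1 : TscConn tscG ((↑Pf : Set TV) ∪ ↑(bdyJin c B h)) :=
    tsc_conn_union hPc (bdy_Jin_conn h03 h) (a := z0) (b := z0) hz0 (Finset.mem_coe.2 (bdy_sph_sub_Jin h03 h hz0N)) (Or.inl rfl)
  have hQ : TscConn tscG (((↑Pf : Set TV) ∪ ↑(bdyJin c B h)) ∪ ↑(bdyJout c B h)) :=
    tsc_conn_union hQ1 (bdy_Jout_conn h03 h) (a := z3) (b := z3) (Or.inl hz3) (Finset.mem_coe.2 (bdy_sph_sub_Jout h03 h hz3N)) (Or.inl rfl)
  have hQX : ∀ u ∈ (((↑Pf : Set TV) ∪ ↑(bdyJin c B h)) ∪ ↑(bdyJout c B h)), u ∉ (bdyM A c B h ∪ latBall q L : Finset TV) := by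
    intro u hu hX
    rcases hu with (h4 | h4) | h4
    · rcases Finset.mem_union.1 hX with h5 | h5
      · exact (Finset.disjoint_left.1 hPo) h4 (bdy_M_sub A c B h h5)
      · exact (Finset.disjoint_left.1 hq.2.2) h5 h4
    · rcases Finset.mem_union.1 hX with h5 | h5
      · exact (Finset.mem_sdiff.1 h5).2 (Finset.mem_union_left _ h4)
      · exact (Finset.disjoint_left.1 hq.2.1) h5 (hg.1 h4)
    · rcases Finset.mem_union.1 hX with h5 | h5
      · exact (Finset.mem_sdiff.1 h5).2 (Finset.mem_union_right _ h4)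
      · exact (Finset.disjoint_left.1 hg.2) h4 (hq.1 h5)
  have hmiss := bdy_hull_miss hH2 hQ hQX (u0 := y0) (Or.inl (Or.inl hy0)) (fun hc => hy0' (hH1 hc))
  intro u hu huH
  rcases bdy_M_out h03 hu with ⟨h4, h5, h6⟩ | ⟨h4 | h4, -⟩
  · rcases hcov u h4 (lat_mem_ball.2 h6) h5 with h7 | h7
    · exact h7
    · exact absurd huH (hmiss u (Or.inl (Or.inl h7)))
  · exact absurd huH (hmiss u (Or.inl (Or.inr h4)))
  · exact absurd huH (hmiss u (Or.inr h4))

/-- a walk of an invasion: all its sites but the last one are passable -/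
theorem bdy_inv_walk {U : Finset TV} {P : TV → Prop} {o v : TV} (hw : ReflTransGen (bdyStep U P) o v) :
    o = v ∨ ∃ w, P o ∧ P w ∧ triAdj w v ∧ TscR tscG {u | P u} o w := by
  induction hw with
  | refl => exact Or.inl rfl
  | @tail b d _ hs ih =>
    right
    rcases ih with rfl | ⟨w, h1, h2, h3, h4⟩
    · exact ⟨o, hs.2.1, hs.2.1, hs.1, tsc_R_refl _⟩
    · exact ⟨b, h1, hs.2.1, hs.1, h4.tail ⟨h3, h2, hs.2.1⟩⟩

/-- failure of a shield: one of the two strips is crossed by a walk of free sites of height `≤ -2` -/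
theorem bdy_good_fail {A : Finset TV} {c : TV} {B : BdyBlkD} (h01 : B.r0 ≤ B.r1) (h1 : 1 ≤ B.r1) (h23 : B.r2 < B.r3) {g : TV → ℤ}
    (hg : ∀ u, u ∉ A → -1 ≤ g u) (hn : ¬ BdyGood c B g) :
    BdyLoX A (-2) (latBall c B.r0 : Set TV) ((latBall c (B.r1 - 1) : Set TV)ᶜ) g ∨
      BdyLoX A (-2) (latBall c (B.r2 + 1) : Set TV) ((latBall c (B.r3 - 1) : Set TV)ᶜ) g := by
  have hsub : {u : TV | g u < -1} ⊆ {u | u ∈ A ∧ g u ≤ -2} := by
    intro u (hu : g u < -1)
    refine ⟨?_, by omega⟩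
    by_contra hA
    have := hg u hA
    omega
  by_cases hin : bdyJin c B g ⊆ latBall c B.r1
  · right
    have hd : ¬ Disjoint (bdyJout c B g) (latBall c B.r2) := fun hd => hn ⟨hin, hd⟩
    obtain ⟨v, hv, hv2⟩ := Finset.not_disjoint_iff.1 hd
    obtain ⟨-, o, ho, hw⟩ := bdy_mem_inv.1 hv
    have ho' := bdy_mem_sph.1 ho
    have hv' : latN (v - c) ≤ B.r2 := lat_mem_ball.1 hv2
    rcases bdy_inv_walk hw with rfl | ⟨w, p1, p2, p3, p4⟩
    · omega
    · obtain ⟨l1, l2⟩ := bdy_N_lip c w v p3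
      refine ⟨w, Finset.mem_coe.2 (lat_mem_ball.2 (by omega)), o, ?_, (hsub p2).1, (hsub p2).2, tsc_R_symm (tsc_R_mono hsub p4)⟩
      intro hc
      have := lat_mem_ball.1 (Finset.mem_coe.1 hc)
      omega
  · left
    obtain ⟨v, hv, hv2⟩ := Finset.not_subset.1 hin
    obtain ⟨-, o, ho, hw⟩ := bdy_mem_inv.1 hv
    have ho' := bdy_mem_sph.1 ho
    have hv' : ¬ latN (v - c) ≤ B.r1 := fun hc => hv2 (lat_mem_ball.2 hc)
    rcases bdy_inv_walk hw with rfl | ⟨w, p1, p2, p3, p4⟩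
    · omega
    · obtain ⟨l1, l2⟩ := bdy_N_lip c w v p3
      refine ⟨o, Finset.mem_coe.2 (lat_mem_ball.2 ho'.le), w, ?_, (hsub p1).1, (hsub p1).2, tsc_R_mono hsub p4⟩
      intro hc
      have := lat_mem_ball.1 (Finset.mem_coe.1 hc)
      omega

/-- the crossing event reads the heights on `bdyReg` only -/
theorem bdy_X_loc {A : Finset TV} {c : TV} {B : BdyBlkD} {h h' : TV → ℤ} (hh : ∀ u ∈ bdyReg A c B, h u = h' u) :
    BdyX A c B h ↔ BdyX A c B h' := bdy_lox_congr hh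

end Claimed.Agent.R291
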