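import Claimed.Agent.R291.Dis.StackHt
import Claimed.Agent.R291.Defs.BdySyn

/-!
# Row 291 (S0539), Bdy/Strip : SEPARATORS IN THE STRIPS, SYNTHETIC LAW WITH A POCKET (X1)      (owner helper50; prefix `bsp_`, defs `bsp…`/`Bsp…`)

TEX[prop:boundary-arch] l.560-600 (separators in the strips), TEX[lem:synthetic-trace], (discrete:stack).
PRODUCES `bsp_main` (GENERAL POCKET, form A8 of 123) = the body of `exit_bdy_strip` (Exit/BdyStrip.lean).   Constants: `C = 4`, `a1 = 1/2`, `ρ0 = 1`, `κ = κ₀ + 2`, `L = κ₀ + 3`.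
CONSUMES `exit_t23`, `dis_stack` (141/265), `dis_stack_step` (141), `dis_lift` (63), `dis_lbl` (13), `dsh_conn`, `dshV`, `dsh_sk_conn` (50).
ROUTE  (A) shift of the heights by `+1`: flat `0`, pocket pair `{0,1}` = first spin plus, crossings by sites `≤ -1`;
       (B) the window `Q1` is added to the free set (`F = A ∪ P ∪ Q1` has no hole) and the event `h = 0` on `Q1` to the conditioning;
       (C) because the complement of `A` is connected, the conditioning is the spin event `P ∪ Q1 ⊆ B`, `Q1 ⊆ W`;   LIFT in the hexagon `dshV F`;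
       (D) two labels (skeleton, window) replaced by equalities, cost `4`;
       (E) one slot: `dis_stack` with a fixed ratio `κ` gives probability `≥ 1/2` under every legal history which is clear in the slot;
           `Sep` of a slot reads only the cells inside the (thickened) slot;   `dis_stack_step` by induction over the finite set `T` of radii;
       (F) on `Sep` the Timar layer is a connected blocking set with constant first spin, it meets the connected complement of `A`, so the heights on it are in `{0,1}`: no crossing by sites `≤ -1`.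
-/

set_option autoImplicit false
set_option linter.unusedVariables false
set_option linter.unusedSectionVars false
set_option linter.unusedSimpArgs false

namespace Claimed.Agent.R291

open Relation Claims Claims.C0467

/-! ### heights: Lipschitz, pairs -/

theorem bsp_lip {F : Finset TV} {h : TV → ℤ} (hh : HtAdm F 0 h) {a b : TV} (hab : triAdj a b) : |h b - h a| ≤ 1 := by
  by_cases ha : a ∈ F
  · have := hh.2 a ha (b - a) ((lat_adj_iff a b).1 hab)
    rwa [add_sub_cancel] at this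
  · by_cases hb : b ∈ F
    · have := hh.2 b hb (a - b) ((lat_adj_iff b a).1 (lat_adj_symm hab))
      rw [add_sub_cancel] at this
      rwa [abs_sub_comm]
    · rw [hh.1 a ha, hh.1 b hb]
      simp

/-- a point off a finite set -/
theorem bsp_far (F : Finset TV) : ∃ w : TV, w ∉ F := by
  obtain ⟨w, hw⟩ := dsh_sk_ne F
  exact ⟨w, (Finset.mem_sdiff.1 hw).2⟩

/-- along a connected set of sites with first spin plus the pair does not change -/
theorem bsp_pair_walk {F : Finset TV} {h : TV → ℤ} (hh : HtAdm F 0 h) {Q : Set TV} (hQ : ∀ u ∈ Q, momB (h u)) {a b : TV}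
    (ha : h a = 0 ∨ h a = 1) (hab : TscR tscG Q a b) : h b = 0 ∨ h b = 1 := by
  induction hab with
  | refl => exact ha
  | @tail u v _ huv ih =>
    have h1 := bsp_lip hh (a := u) (b := v) huv.1
    have h2 := hQ v huv.2.2
    rw [abs_le] at h1
    unfold momB at h2
    omega

/-- first spin plus off `A`, complement of `A` connected: the heights off `A` are in the pair `{0,1}` -/
theorem bsp_pair {F A : Finset TV} (hA : MomCo A) {h : TV → ℤ} (hh : HtAdm F 0 h)
    (hB : ∀ u ∈ F, u ∉ A → momB (h u)) : ∀ u, u ∉ A → h u = 0 ∨ h u = 1 := by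
  intro u hu
  obtain ⟨w, hw⟩ := bsp_far (F ∪ A)
  rw [Finset.mem_union, not_or] at hw
  have hQ : ∀ v ∈ ((↑A : Set TV)ᶜ), momB (h v) := by
    intro v hv
    have hv' : v ∉ A := fun h => hv (by exact_mod_cast h)
    by_cases hvF : v ∈ F
    · exact hB v hvF hv'
    · rw [hh.1 v hvF]
      left; rfl
  refine bsp_pair_walk hh hQ (Or.inl (hh.1 w hw.1)) (hA w (fun h => hw.2 (by exact_mod_cast h)) u (fun h => hu (by exact_mod_cast h)))

/-! ### (F) a circuit blocks the low crossings -/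

theorem bsp_block {F A V : Finset TV} (hA : MomCo A) {h : TV → ℤ} (hh : HtAdm F 0 h)
    (hp : ∀ u, u ∉ A → h u = 0 ∨ h u = 1) {c : TV} (hc : c ∉ A) {r L : ℕ} (hV : latBall c L ⊆ V)
    (hcirc : DshCirc c r L (fun u => u ∈ htB V h)) {a b : TV} (ha : a ∈ latBall c r) (hb : b ∉ latBall c L)
    (hab : TscR tscG {u | u ∈ A ∧ h u ≤ -1} a b) : False := by
  obtain ⟨Sg, h1, h2, h3, h4⟩ := hcirc
  obtain ⟨w, hw⟩ := bsp_far (A ∪ latBall c L)
  rw [Finset.mem_union, not_or] at hw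
  obtain ⟨s0, hs0A, hs0⟩ := h4 _ c w (plh_ball_self c r) hw.2
    (hA c (fun h => hc (by exact_mod_cast h)) w (fun h => hw.1 (by exact_mod_cast h)))
  have hs0A' : s0 ∉ A := fun h => hs0A (by exact_mod_cast h)
  have hmem : ∀ u ∈ latBall c L, (u ∈ htB V h ↔ momB (h u)) := by
    intro u hu
    unfold htB momB
    rw [Finset.mem_filter]
    exact ⟨fun h => h.2, fun h => ⟨hV hu, h⟩⟩
  have hs0B : s0 ∈ htB V h := by
    rw [hmem s0 (h1 s0 hs0).1]
    unfold momB
    rcases hp s0 hs0A' with e | e <;> rw [e] <;> simp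
  have hall : ∀ u ∈ Sg, momB (h u) := fun u hu => (hmem u (h1 u hu).1).1 ((h3 s0 hs0 u hu).1 hs0B)
  obtain ⟨t, ht1, ht2⟩ := h4 _ a b ha hb hab
  have := bsp_pair_walk hh hall (hp s0 hs0A') (h2 s0 hs0 t ht2)
  have h5 : h t ≤ -1 := ht1.2
  omega

/-! ### (A)+(B) the synthetic law as a conditioned flat law on the hole-free set -/

open Classical in
theorem bsp_free_sum (x : ℝ) {F0 F : Finset TV} (hF : F0 ⊆ F) (G : (TV → ℤ) → ℝ) :
    ∑ h ∈ htCfg F0 0, htWt x F0 h * G h =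
      ∑ h ∈ htCfg F 0, htWt x F h * (if (∀ u ∈ F, u ∉ F0 → h u = 0) then G h else 0) := by
  have e : htCfg F0 0 = (htCfg F 0).filter (fun h => ∀ u ∈ F, u ∉ F0 → h u = 0) := by
    ext h
    rw [Finset.mem_filter, ht_mem_cfg, ht_mem_cfg]
    constructor
    · intro hh
      refine ⟨⟨fun u hu => hh.1 u (fun h' => hu (hF h')), fun u hu d hd => ?_⟩, fun u _ hu => hh.1 u hu⟩
      exact bsp_lip hh (lat_adj_add u hd)
    · rintro ⟨hh, h0⟩
      refine ⟨fun u hu => ?_, fun u hu d hd => hh.2 u (hF hu) d hd⟩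
      by_cases huF : u ∈ F
      · exact h0 u huF hu
      · exact hh.1 u huF
  rw [e, Finset.sum_filter]
  refine Finset.sum_congr rfl fun h hh => ?_
  have hh' := ht_mem_cfg.1 hh
  split_ifs with hc
  · congr 1
    have h0 : ∀ u, u ∉ F0 → h u = 0 := by
      intro u hu
      by_cases huF : u ∈ F
      · exact hc u huF hu
      · exact hh'.1 u huF
    unfold htWt
    rw [ht_N_split hF, Finset.sum_eq_zero, add_zero]
    intro p hp
    rw [Finset.mem_sdiff, lat_mem_E, lat_mem_E] at hp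
    have h2 : p.1 ∉ F0 ∧ p.1 + p.2 ∉ F0 := by
      have := hp.2
      push Not at this
      exact this hp.1.1
    rw [h0 _ h2.1, h0 _ h2.2]
    simp
  · simp

/-- the conditioning after the shift by `+1` -/
def BspCond (P Q1 : Finset TV) (h : TV → ℤ) : Prop := (∀ u ∈ P, h u = 0 ∨ h u = 1) ∧ ∀ u ∈ Q1, h u = 0

open Classical in
/-- indicator of a proposition -/
noncomputable def bspI (p : Prop) : ℝ := if p then 1 else 0

theorem bsp_I_pos {p : Prop} (h : p) : bspI p = 1 := by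
  unfold bspI; exact if_pos h

theorem bsp_I_neg {p : Prop} (h : ¬ p) : bspI p = 0 := by
  unfold bspI; exact if_neg h

open Classical in
theorem bsp_syn (x : ℝ) (hx : 0 < x) (A P Q1 : Finset TV) (hQ : Disjoint Q1 (A ∪ P)) (Ev : (TV → ℤ) → Prop) :
    bdySynP x A P Ev =
      htE x (A ∪ P ∪ Q1) 0 (fun h => bspI (BspCond P Q1 h ∧ Ev (fun u => h u + -1))) /
      htE x (A ∪ P ∪ Q1) 0 (fun h => bspI (BspCond P Q1 h)) := by
  unfold bdySynP bdySynE htEc htP bspI
  have e0 : (fun _ : TV => (-1 : ℤ)) = fun u => (0 : TV → ℤ) u + -1 := by funext u; simp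
  rw [e0, ht_E_shift, ht_E_shift, ht_E_def, ht_E_def, ht_E_def, ht_E_def,
    div_div_div_cancel_right₀ (ht_Z_pos_zero hx _).ne', div_div_div_cancel_right₀ (ht_Z_pos_zero hx _).ne',
    bsp_free_sum x (Finset.subset_union_left (s₁ := A ∪ P) (s₂ := Q1)),
    bsp_free_sum x (Finset.subset_union_left (s₁ := A ∪ P) (s₂ := Q1))]
  have hc : ∀ h : TV → ℤ, ((∀ u ∈ A ∪ P ∪ Q1, u ∉ A ∪ P → h u = 0) ∧ BdyPk P (fun u => h u + -1)) ↔ BspCond P Q1 h := by
    intro h
    unfold BdyPk BspCond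
    constructor
    · rintro ⟨h1, h2⟩
      refine ⟨fun u hu => ?_, fun u hu => h1 u (Finset.mem_union_right _ hu) (Finset.disjoint_left.1 hQ hu)⟩
      have := h2 u hu
      dsimp only at this
      omega
    · rintro ⟨h1, h2⟩
      refine ⟨fun u hu hu' => ?_, fun u hu => ?_⟩
      · rcases Finset.mem_union.1 hu with h | h
        · exact absurd h hu'
        · exact h2 u h
      · have := h1 u hu
        dsimp only
        omega
  congr 1
  · refine Finset.sum_congr rfl fun h _ => ?_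
    congr 1
    dsimp only
    by_cases h1 : BspCond P Q1 h
    · obtain ⟨a1, a2⟩ := (hc h).2 h1
      rw [if_pos a1, if_pos a2]
      by_cases h2 : Ev (fun u => h u + -1)
      · rw [if_pos h2, if_pos ⟨h1, h2⟩]
      · rw [if_neg h2, if_neg (fun h => h2 h.2)]
    · rw [if_neg (show ¬ (BspCond P Q1 h ∧ Ev (fun u => h u + -1)) from fun h' => h1 h'.1)]
      by_cases a1 : ∀ u ∈ A ∪ P ∪ Q1, u ∉ A ∪ P → h u = 0
      · rw [if_pos a1, if_neg (fun a2 => h1 ((hc h).1 ⟨a1, a2⟩))]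
      · rw [if_neg a1]
  · refine Finset.sum_congr rfl fun h _ => ?_
    congr 1
    by_cases h1 : BspCond P Q1 h
    · obtain ⟨a1, a2⟩ := (hc h).2 h1
      rw [if_pos a1, if_pos a2, if_pos h1]
    · rw [if_neg h1]
      by_cases a1 : ∀ u ∈ A ∪ P ∪ Q1, u ∉ A ∪ P → h u = 0
      · rw [if_pos a1, if_neg (fun a2 => h1 ((hc h).1 ⟨a1, a2⟩))]
      · rw [if_neg a1]

/-! ### (E) abstract part: two-sided locality of `Sep`, stack over a finite set of slots -/

section abstract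

variable {V Y : Type} [DecidableEq V] [DecidableEq Y]

theorem bsp_sep_aux {S : ClSys V Y} {s : Bool} {E : Finset (V × V)} {ω ω' : ClCfg V Y} {O A : Finset V}
    (h : ∀ y ∈ S.C, (∃ v ∈ S.sv y, v ∉ O) → (∃ v ∈ S.sv y, v ∉ A) → clTau S ω y = clTau S ω' y) {u v : V} (hu : u ∈ O)
    (huv : ReflTransGen (clStep S s E ω) u v) :
    (∃ u' ∈ O, ∃ v' ∈ A, ReflTransGen (clStep S s E ω') u' v') ∨ ∃ u' ∈ O, ReflTransGen (clStep S s E ω') u' v := by
  induction huv with
  | refl => exact Or.inr ⟨u, hu, ReflTransGen.refl⟩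
  | @tail b c _ hst ih =>
    rcases ih with ih | ⟨u', hu', hp⟩
    · exact Or.inl ih
    · by_cases hb : b ∈ A
      · exact Or.inl ⟨u', hu', b, hb, hp⟩
      · by_cases hc : c ∈ O
        · exact Or.inr ⟨c, hc, ReflTransGen.refl⟩
        · refine Or.inr ⟨u', hu', hp.tail ?_⟩
          rcases hst with ⟨y, hy, hby, hcy, ht⟩ | he
          · exact Or.inl ⟨y, hy, hby, hcy, by rw [← h y hy ⟨c, hcy, hc⟩ ⟨b, hby, hb⟩]; exact ht⟩
          · exact Or.inr he

/-- **two-sided locality**: `Sep_s(O, A)` depends only on the statuses of the cells which have a site off `O` and a site off `A` -/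
theorem bsp_sep_loc {S : ClSys V Y} {s : Bool} {E : Finset (V × V)} {ω ω' : ClCfg V Y} {O A : Finset V}
    (h : ∀ y ∈ S.C, (∃ v ∈ S.sv y, v ∉ O) → (∃ v ∈ S.sv y, v ∉ A) → clTau S ω y = clTau S ω' y) :
    ClSep S s E ω O A ↔ ClSep S s E ω' O A := by
  constructor
  · intro hs u hu v hv huv
    rcases bsp_sep_aux (ω := ω') (ω' := ω) (fun y hy h1 h2 => (h y hy h1 h2).symm) hu huv with
      ⟨u', hu', v', hv', hp⟩ | ⟨u', hu', hp⟩
    · exact hs u' hu' v' hv' hp
    · exact hs u' hu' v hv hp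
  · intro hs u hu v hv huv
    rcases bsp_sep_aux h hu huv with ⟨u', hu', v', hv', hp⟩ | ⟨u', hu', hp⟩
    · exact hs u' hu' v' hv' hp
    · exact hs u' hu' v hv hp

theorem bsp_cin_mono (S : ClSys V Y) {I J : Finset V} (h : I ⊆ J) : S.cin I ⊆ S.cin J := by
  intro y hy
  unfold ClSys.cin at hy ⊢
  rw [Finset.mem_filter] at hy ⊢
  exact ⟨hy.1, hy.2.trans h⟩

/-- **STACK over a finite set of slots** (no order on the slots) -/
theorem bsp_stack_fin (S : ClSys V Y) (hS : ClOk S) (K : ClCon V Y) {ι : Type} [DecidableEq ι] (Rg : ι → Finset V)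
    (G : ι → ClCfg V Y → Prop) {c : ℝ} (hc1 : c ≤ 1) (T : Finset ι)
    (hloc : ∀ j ∈ T, ∀ ω ω' : ClCfg V Y, (∀ y ∈ S.cin (Rg j), clTau S ω y = clTau S ω' y) → (G j ω ↔ G j ω'))
    (hprim : ∀ j ∈ T, ∀ T' ⊆ T, j ∉ T' → ∀ K' : ClCon V Y, ClExt K K' (T'.biUnion Rg) (S.cin (T'.biUnion Rg)) →
      0 < S.Z (K'.Holds S) → c * S.Z (K'.Holds S) ≤ S.N (K'.Holds S) (clInd (G j))) :
    S.N (K.Holds S) (clInd fun ω => ∀ j ∈ T, ¬ G j ω) ≤ (1 - c) ^ T.card * S.Z (K.Holds S) := by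
  induction T using Finset.induction_on with
  | empty =>
    rw [Finset.card_empty, pow_zero, one_mul, dis_Z_eq]
    refine le_of_eq (dis_N_congr S _ fun ω _ _ => dis_ind_pos ?_)
    intro j hj; exact absurd hj (Finset.notMem_empty j)
  | @insert a T ha ih =>
    have ih' := ih (fun j hj => hloc j (Finset.mem_insert_of_mem hj))
      (fun j hj T' hT' => hprim j (Finset.mem_insert_of_mem hj) T' (hT'.trans (Finset.subset_insert a T)))
    have e : S.N (K.Holds S) (clInd fun ω => ∀ j ∈ insert a T, ¬ G j ω)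
        = S.N (K.Holds S) (clInd fun ω => (∀ j ∈ T, ¬ G j ω) ∧ ¬ G a ω) := by
      refine dis_N_congr S _ fun ω _ _ => dis_ind_congr ?_
      rw [Finset.forall_mem_insert, and_comm]
    rw [e, Finset.card_insert_of_notMem ha]
    have h1 := dis_stack_step S hS K (T.biUnion Rg) (fun ω => ∀ j ∈ T, ¬ G j ω) (G a) (c := c) (fun ω ω' hτ => by
      refine forall_congr' fun j => forall_congr' fun hj => not_congr ?_
      refine hloc j (Finset.mem_insert_of_mem hj) ω ω' fun y hy => hτ y ?_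
      exact bsp_cin_mono S (Finset.subset_biUnion_of_mem Rg hj) hy)
      (hprim a (Finset.mem_insert_self a T) T (Finset.subset_insert a T) ha)
    calc _ ≤ (1 - c) * S.N (K.Holds S) (clInd fun ω => ∀ j ∈ T, ¬ G j ω) := h1
      _ ≤ (1 - c) * ((1 - c) ^ T.card * S.Z (K.Holds S)) := mul_le_mul_of_nonneg_left ih' (by linarith)
      _ = _ := by ring

end abstract

/-! ### (E) one slot -/

theorem bsp_cell_N {y u v : TV} (hu : u ∈ cellV y) (hv : v ∈ cellV y) (z : TV) : latN (v - z) ≤ latN (u - z) + 1 := by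
  by_cases huv : u = v
  · subst huv; omega
  · have := pnk_N_lip z (pcp_cell_adj hu hv huv)
    omega

/-- one slot of fixed ratio succeeds with probability at least `1/2` under every legal history which is clear in the slot -/
theorem bsp_slot (x : ℝ) (hx0 : 0 < x) (hx1 : x ≤ 1) (hT : DisT23 x true) :
    ∃ κ : ℕ, 1 ≤ κ ∧ ∀ (V : Finset TV), DisAmb V → ∀ K : ClCon TV TV, ClLegal (clAmb x V) K →
      0 < (clAmb x V).Z (K.Holds (clAmb x V)) → ∀ (z : TV) (r : ℕ), 1 ≤ r → latBall z (κ * r + 2) ⊆ V →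
      ClClear (clAmb x V) true K (latBall z (κ * r + 2) \ latBall z r) →
      1 / 2 * (clAmb x V).Z (K.Holds (clAmb x V)) ≤ (clAmb x V).N (K.Holds (clAmb x V))
        (clInd fun ω => ClSep (clAmb x V) true K.Eq ω (V \ latBall z (κ * r)) (latBall z r)) := by
  obtain ⟨C, α, hC, hα, H⟩ := dis_stack x hx0 hx1 true hT
  have h1 : ∀ᶠ L : ℕ in Filter.atTop, C * (((1 : ℕ) : ℝ) / L) ^ α < 1 / 2 :=
    (dpl_eps C α hα 1).eventually (gt_mem_nhds (by norm_num))
  obtain ⟨κ, hκ1, hκ2⟩ := (h1.and (Filter.eventually_ge_atTop 1)).exists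
  refine ⟨κ, hκ2, fun V hV K hK hZ z r hr hsub hcl => ?_⟩
  have hrL : r ≤ κ * r := Nat.le_mul_of_pos_left r (by omega)
  have hst := H V hV K hK hZ z r (κ * r) hr hrL hsub hcl
  have hr0 : (r : ℝ) ≠ 0 := by
    have : 0 < r := by omega
    exact_mod_cast this.ne'
  have e1 : (r : ℝ) / ((κ * r : ℕ) : ℝ) = ((1 : ℕ) : ℝ) / κ := by
    push_cast
    rw [div_mul_eq_div_div_swap, div_self hr0]
  rw [e1, dis_P_eq, div_le_iff₀ hZ] at hst
  have e2 : (clAmb x V).N (K.Holds (clAmb x V))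
      (clInd fun ω => ¬ ClSep (clAmb x V) true K.Eq ω (V \ latBall z (κ * r)) (latBall z r)) =
      (clAmb x V).Z (K.Holds (clAmb x V)) - (clAmb x V).N (K.Holds (clAmb x V))
        (clInd fun ω => ClSep (clAmb x V) true K.Eq ω (V \ latBall z (κ * r)) (latBall z r)) := by
    rw [dis_Z_eq, ← dis_N_sub]
    exact dis_N_congr _ _ fun ω _ _ => dis_ind_not _ ω
  rw [e2] at hst
  nlinarith

/-! ### (D) the history -/

/-- plus pins off `A`, equalities on the skeleton `V \ F` and on the window `Q1` -/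
noncomputable def bspK (V A F Q1 : Finset TV) : ClCon TV TV :=
  ⟨V \ A, ∅, ((V \ F) ×ˢ (V \ F)).filter (fun e => triAdj e.1 e.2) ∪ (Q1 ×ˢ Q1).filter (fun e => triAdj e.1 e.2),
    ∅, ∅, ∅, ∅, ∅⟩

theorem bsp_mem_Eq {V A F Q1 : Finset TV} {e : TV × TV} :
    e ∈ (bspK V A F Q1).Eq ↔ triAdj e.1 e.2 ∧ ((e.1 ∈ V \ F ∧ e.2 ∈ V \ F) ∨ (e.1 ∈ Q1 ∧ e.2 ∈ Q1)) := by
  simp only [bspK, Finset.mem_union, Finset.mem_filter, Finset.mem_product]
  tauto

theorem bsp_Eq_V {V A F Q1 : Finset TV} (hQ : Q1 ⊆ V) {e : TV × TV} (he : e ∈ (bspK V A F Q1).Eq) : e.1 ∈ V ∧ e.2 ∈ V := by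
  obtain ⟨_, h12⟩ := bsp_mem_Eq.1 he
  rcases h12 with ⟨h1, h2⟩ | ⟨h1, h2⟩
  · exact ⟨(Finset.mem_sdiff.1 h1).1, (Finset.mem_sdiff.1 h2).1⟩
  · exact ⟨hQ h1, hQ h2⟩

theorem bsp_K_legal (x : ℝ) (V A F Q1 : Finset TV) (hQ : Q1 ⊆ V) : ClLegal (clAmb x V) (bspK V A F Q1) where
  wp := rfl
  wm := rfl
  full := by
    intro y _ hy
    simp [bspK] at hy
  eq := by
    intro e he
    obtain ⟨h3, _⟩ := bsp_mem_Eq.1 he
    obtain ⟨y, hy1, hy2⟩ := pcp_adj_cell h3
    have hV := bsp_Eq_V hQ he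
    exact ⟨y, lat_mem_cells.2 ⟨e.1, hy1, hV.1⟩, Finset.mem_inter.2 ⟨hy1, hV.1⟩, Finset.mem_inter.2 ⟨hy2, hV.2⟩⟩

theorem bsp_K_clear (x : ℝ) (V A F Q1 D : Finset TV) (hD : D ⊆ F) (hDQ : Disjoint D Q1) :
    ClClear (clAmb x V) true (bspK V A F Q1) D where
  pin := by simp [bspK]
  obs := by
    intro y _ hy
    simp [bspK] at hy
  eq := by
    intro e he
    obtain ⟨_, h12⟩ := bsp_mem_Eq.1 he
    rcases h12 with ⟨h1, h2⟩ | ⟨h1, h2⟩
    · exact ⟨fun h => (Finset.mem_sdiff.1 h1).2 (hD h), fun h => (Finset.mem_sdiff.1 h2).2 (hD h)⟩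
    · exact ⟨fun h => Finset.disjoint_left.1 hDQ h h1, fun h => Finset.disjoint_left.1 hDQ h h2⟩

/-- the history with its two labels -/
noncomputable def bspKL (V A F Q1 : Finset TV) : ClCon TV TV :=
  { bspK V A F Q1 with Wp := (bspK V A F Q1).Wp ∪ [V \ F, Q1].foldr (· ∪ ·) ∅ }

theorem bsp_KL_holds (x : ℝ) (V A F Q1 : Finset TV) (ω : ClCfg TV TV) :
    (bspKL V A F Q1).Holds (clAmb x V) ω ↔ (V \ A ⊆ ω.B ∧ V \ F ⊆ ω.W ∧ Q1 ⊆ ω.W) := by
  constructor
  · intro h
    have h7 : (bspKL V A F Q1).Wp ⊆ ω.W := h.2.2.2.2.2.2.1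
    refine ⟨h.1, fun v hv => h7 ?_, fun v hv => h7 ?_⟩
    · simp only [bspKL, List.foldr_cons, List.foldr_nil, Finset.mem_union]
      tauto
    · simp only [bspKL, List.foldr_cons, List.foldr_nil, Finset.mem_union]
      tauto
  · rintro ⟨h1, h2, h3⟩
    refine ⟨h1, by simp [bspKL, bspK], ?_, by simp [bspKL, bspK], by simp [bspKL, bspK], by simp [bspKL, bspK], ?_,
      by simp [bspKL, bspK]⟩
    · intro e he
      obtain ⟨_, h12⟩ := bsp_mem_Eq.1 (show e ∈ (bspK V A F Q1).Eq from he)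
      rcases h12 with ⟨a1, a2⟩ | ⟨a1, a2⟩
      · exact ⟨fun _ => h2 a2, fun _ => h2 a1⟩
      · exact ⟨fun _ => h3 a2, fun _ => h3 a1⟩
    · intro v hv
      simp only [bspKL, bspK, List.foldr_cons, List.foldr_nil, Finset.mem_union, Finset.notMem_empty, false_or, or_false] at hv
      rcases hv with h | h
      · exact h2 h
      · exact h3 h

theorem bsp_K_of_KL (x : ℝ) (V A F Q1 : Finset TV) (ω : ClCfg TV TV) (h : (bspKL V A F Q1).Holds (clAmb x V) ω) :
    (bspK V A F Q1).Holds (clAmb x V) ω := by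
  obtain ⟨h1, h2, h3⟩ := (bsp_KL_holds x V A F Q1 ω).1 h
  refine ⟨h1, by simp [bspK], ?_, by simp [bspK], by simp [bspK], by simp [bspK], by simp [bspK], by simp [bspK]⟩
  intro e he
  obtain ⟨_, h12⟩ := bsp_mem_Eq.1 he
  rcases h12 with ⟨a1, a2⟩ | ⟨a1, a2⟩
  · exact ⟨fun _ => h2 a2, fun _ => h2 a1⟩
  · exact ⟨fun _ => h3 a2, fun _ => h3 a1⟩

theorem bsp_K_conn1 {V A F Q1 : Finset TV} (h : TscConn tscG (↑(V \ F) : Set TV)) :
    ∀ u ∈ V \ F, ∀ v ∈ V \ F,
      ReflTransGen (fun a b => (a, b) ∈ (bspK V A F Q1).Eq ∨ (b, a) ∈ (bspK V A F Q1).Eq) u v := by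
  intro u hu v hv
  have this : ReflTransGen (TscStep tscG (↑(V \ F) : Set TV)) u v :=
    h u (by exact_mod_cast hu) v (by exact_mod_cast hv)
  refine ReflTransGen.mono ?_ u v this
  intro a b hab
  exact Or.inl (bsp_mem_Eq.2 ⟨hab.1, Or.inl ⟨by exact_mod_cast hab.2.1, by exact_mod_cast hab.2.2⟩⟩)

theorem bsp_K_conn2 {V A F Q1 : Finset TV} (h : TscConn tscG (↑Q1 : Set TV)) :
    ∀ u ∈ Q1, ∀ v ∈ Q1,
      ReflTransGen (fun a b => (a, b) ∈ (bspK V A F Q1).Eq ∨ (b, a) ∈ (bspK V A F Q1).Eq) u v := by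
  intro u hu v hv
  have this : ReflTransGen (TscStep tscG (↑Q1 : Set TV)) u v :=
    h u (by exact_mod_cast hu) v (by exact_mod_cast hv)
  refine ReflTransGen.mono ?_ u v this
  intro a b hab
  exact Or.inl (bsp_mem_Eq.2 ⟨hab.1, Or.inr ⟨by exact_mod_cast hab.2.1, by exact_mod_cast hab.2.2⟩⟩)

theorem bsp_ind_congr {V Y : Type} [DecidableEq V] [DecidableEq Y] {L : ClCfg V Y → Prop} {ω ω' : ClCfg V Y}
    (h : L ω ↔ L ω') : clInd L ω = clInd L ω' := by
  by_cases h1 : L ω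
  · rw [dis_ind_pos h1, dis_ind_pos (h.1 h1)]
  · rw [dis_ind_neg h1, dis_ind_neg (fun h' => h1 (h.2 h'))]

/-- an event of the conditioning moved into the constraint -/
theorem bsp_N_and {V Y : Type} [DecidableEq V] [DecidableEq Y] (S : ClSys V Y) {K K' L : ClCfg V Y → Prop}
    (h : ∀ ω, K' ω ↔ K ω ∧ L ω) (G : ClCfg V Y → ℝ) : S.N K (fun ω => clInd L ω * G ω) = S.N K' G := by
  classical
  unfold ClSys.N
  refine Finset.sum_congr rfl fun ω _ => ?_
  dsimp only
  by_cases h1 : K ω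
  · by_cases h2 : L ω
    · rw [if_pos h1, if_pos ((h ω).2 ⟨h1, h2⟩), dis_ind_pos h2, one_mul]
    · rw [if_pos h1, if_neg (fun h' => h2 ((h ω).1 h').2), dis_ind_neg h2, zero_mul, mul_zero]
  · rw [if_neg h1, if_neg (fun h' => h1 ((h ω).1 h').1)]

/-! ### (E) the stack of the slots `r ∈ T` -/

/-- the thickened slot -/
noncomputable def bspR (c : TV) (κ r : ℕ) : Finset TV := latBall c (κ * r + 1) \ latBall c (r - 1)

theorem bsp_mem_R {c : TV} {κ r : ℕ} {u : TV} : u ∈ bspR c κ r ↔ latN (u - c) ≤ κ * r + 1 ∧ ¬ latN (u - c) ≤ r - 1 := by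
  unfold bspR
  rw [Finset.mem_sdiff, lat_mem_ball, lat_mem_ball]

theorem bsp_stack (x : ℝ) (hx0 : 0 < x) (hx1 : x ≤ 1) (κ : ℕ) (V : Finset TV) (hV : DisAmb V)
    (H : ∀ K : ClCon TV TV, ClLegal (clAmb x V) K →
      0 < (clAmb x V).Z (K.Holds (clAmb x V)) → ∀ (z : TV) (r : ℕ), 1 ≤ r → latBall z (κ * r + 2) ⊆ V →
      ClClear (clAmb x V) true K (latBall z (κ * r + 2) \ latBall z r) →
      1 / 2 * (clAmb x V).Z (K.Holds (clAmb x V)) ≤ (clAmb x V).N (K.Holds (clAmb x V))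
        (clInd fun ω => ClSep (clAmb x V) true K.Eq ω (V \ latBall z (κ * r)) (latBall z r)))
    (K : ClCon TV TV) (hK : ClLegal (clAmb x V) K) (c : TV) (T : Finset ℕ)
    (hT : ∀ r ∈ T, 1 ≤ r ∧ latBall c (κ * r + 2) ⊆ V ∧ ClClear (clAmb x V) true K (latBall c (κ * r + 2) \ latBall c r))
    (hsep : ∀ r ∈ T, ∀ r' ∈ T, r < r' → (κ + 3) * r ≤ r') :
    (clAmb x V).N (K.Holds (clAmb x V))
      (clInd fun ω => ∀ r ∈ T, ¬ ClSep (clAmb x V) true K.Eq ω (V \ latBall c (κ * r)) (latBall c r)) ≤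
      (1 - 1 / 2) ^ T.card * (clAmb x V).Z (K.Holds (clAmb x V)) := by
  have hOk : ClOk (clAmb x V) := (dis_amb_disk x hx0 hx1 V hV).toClOk
  refine bsp_stack_fin (clAmb x V) hOk K (bspR c κ)
    (fun r ω => ClSep (clAmb x V) true K.Eq ω (V \ latBall c (κ * r)) (latBall c r)) (by norm_num) T ?_ ?_
  · intro r hr ω ω' hτ
    refine bsp_sep_loc fun y hy h1 h2 => hτ y ?_
    obtain ⟨v1, hv1, hv1O⟩ := h1
    obtain ⟨v2, hv2, hv2A⟩ := h2
    have hv1' := Finset.mem_inter.1 hv1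
    have hv2' := Finset.mem_inter.1 hv2
    have hv1B : latN (v1 - c) ≤ κ * r := by
      by_contra hn
      exact hv1O (Finset.mem_sdiff.2 ⟨hv1'.2, fun h => hn (lat_mem_ball.1 h)⟩)
    rw [lat_mem_ball] at hv2A
    unfold ClSys.cin
    rw [Finset.mem_filter]
    refine ⟨hy, fun w hw => ?_⟩
    have hw' := Finset.mem_inter.1 hw
    rw [bsp_mem_R]
    have a1 := bsp_cell_N hv1'.1 hw'.1 c
    have a2 := bsp_cell_N hw'.1 hv2'.1 c
    have := (hT r hr).1
    omega
  · intro r hr T' hT' hrT' K' hx hZ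
    obtain ⟨hr1, hsub, hcl⟩ := hT r hr
    have hdis : Disjoint (T'.biUnion (bspR c κ)) (latBall c (κ * r + 2) \ latBall c r) := by
      refine Finset.disjoint_left.2 fun u hu hu' => ?_
      obtain ⟨r', hr', hur'⟩ := Finset.mem_biUnion.1 hu
      rw [bsp_mem_R] at hur'
      rw [Finset.mem_sdiff, lat_mem_ball, lat_mem_ball] at hu'
      have hne : r' ≠ r := fun h => hrT' (h ▸ hr')
      have hr'1 := (hT r' (hT' hr')).1
      rcases lt_or_gt_of_ne hne with hlt | hlt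
      · have := hsep r' (hT' hr') r hr hlt
        have e : (κ + 3) * r' = κ * r' + 3 * r' := by ring
        omega
      · have := hsep r hr r' (hT' hr') hlt
        have e : (κ + 3) * r = κ * r + 3 * r := by ring
        omega
    have hQ : ∀ y ∈ (clAmb x V).cin (T'.biUnion (bspR c κ)), (clAmb x V).sv y ⊆ T'.biUnion (bspR c κ) := by
      intro y hy
      unfold ClSys.cin at hy
      exact (Finset.mem_filter.1 hy).2
    have hK' : ClLegal (clAmb x V) K' := dis_legal_ext hK hx hQ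
    have hcl' : ClClear (clAmb x V) true K' (latBall c (κ * r + 2) \ latBall c r) :=
      dis_clear_ext hcl hx hdis (fun y hy => Finset.disjoint_of_subset_left (hQ y hy) hdis)
    have := H K' hK' hZ c r hr1 hsub hcl'
    rw [hx.eq] at this
    exact this

/-! ### (C)+(D)+(E)+(F): assembly -/

theorem bsp_core (x : ℝ) (hx0 : 0 < x) (hx1 : x ≤ 1) (κ : ℕ) (hκ : 1 ≤ κ)
    (H : ∀ (V : Finset TV), DisAmb V → ∀ K : ClCon TV TV, ClLegal (clAmb x V) K →
      0 < (clAmb x V).Z (K.Holds (clAmb x V)) → ∀ (z : TV) (r : ℕ), 1 ≤ r → latBall z (κ * r + 2) ⊆ V →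
      ClClear (clAmb x V) true K (latBall z (κ * r + 2) \ latBall z r) →
      1 / 2 * (clAmb x V).Z (K.Holds (clAmb x V)) ≤ (clAmb x V).N (K.Holds (clAmb x V))
        (clInd fun ω => ClSep (clAmb x V) true K.Eq ω (V \ latBall z (κ * r)) (latBall z r)))
    (A P Q1 : Finset TV) (c : TV) (R : ℕ) (T : Finset ℕ)
    (hA : MomCo A) (hF : MomCo (A ∪ P ∪ Q1)) (hQc : TscConn tscG (Q1 : Set TV)) (hPA : Disjoint P A)
    (hQA : Disjoint Q1 A) (hPQ : Disjoint P Q1) (hball : latBall c R ⊆ A ∪ P ∪ Q1) (hc : c ∉ A)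
    (hT : ∀ r ∈ T, 1 ≤ r ∧ Q1 ⊆ latBall c r ∧ (κ + 2) * r ≤ R)
    (hsep : ∀ r ∈ T, ∀ r' ∈ T, r < r' → (κ + 3) * r ≤ r') :
    bdySynP x A P
      (fun h => ∀ r ∈ T, BdyLoX A (-2) (latBall c r : Set TV) ((latBall c ((κ + 2) * r) : Set TV)ᶜ) h) ≤
      4 * (1 - 1 / 2) ^ T.card := by
  classical
  obtain ⟨F, hFdef⟩ : ∃ F, F = A ∪ P ∪ Q1 := ⟨_, rfl⟩
  obtain ⟨V, hVdef⟩ : ∃ V, V = dshV F := ⟨_, rfl⟩
  have hVamb : DisAmb V := by rw [hVdef]; exact dis_amb_ball 0 _
  have hcl : latCl F ⊆ V := by rw [hVdef]; exact dsh_cl_sub F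
  have hFV : F ⊆ V := by rw [hVdef]; exact dsh_F_sub F
  have hsk : TscConn tscG (↑(V \ F) : Set TV) := by rw [hVdef]; exact dsh_sk_conn F (hFdef ▸ hF)
  have hne : (V \ F).Nonempty := by rw [hVdef]; exact dsh_sk_ne F
  have hOk : ClOk (clAmb x V) := (dis_amb_disk x hx0 hx1 V hVamb).toClOk
  have hmemF : ∀ u, u ∈ F ↔ u ∈ A ∨ u ∈ P ∨ u ∈ Q1 := by
    intro u
    rw [hFdef, Finset.mem_union, Finset.mem_union, or_assoc]
  have hQV : Q1 ⊆ V := fun u hu => hFV ((hmemF u).2 (Or.inr (Or.inr hu)))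
  have hPV : P ⊆ V := fun u hu => hFV ((hmemF u).2 (Or.inr (Or.inl hu)))
  rw [bsp_syn x hx0 A P Q1 (Finset.disjoint_union_right.2 ⟨hQA, hPQ.symm⟩), ← hFdef]
  -- the spin events
  obtain ⟨cond, hcondef⟩ : ∃ cond : ClCfg TV TV → Prop, cond = fun ω => P ∪ Q1 ⊆ ω.B ∧ Q1 ⊆ ω.W := ⟨_, rfl⟩
  obtain ⟨noC, hnoCdef⟩ : ∃ noC : ClCfg TV TV → Prop,
      noC = fun ω => ∀ r ∈ T, ¬ DshCirc c r (κ * r + 1) (fun u => u ∈ ω.B) := ⟨_, rfl⟩
  have hspB : ∀ h : TV → ℤ, ∀ u ∈ V, (u ∈ htB V h ↔ momB (h u)) := by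
    intro h u hu
    unfold htB momB
    rw [Finset.mem_filter]
    exact ⟨fun h => h.2, fun h => ⟨hu, h⟩⟩
  have hspW : ∀ h : TV → ℤ, ∀ u ∈ V, (u ∈ htW V h ↔ (h u % 4 = 0 ∨ h u % 4 = 3)) := by
    intro h u hu
    unfold htW
    rw [Finset.mem_filter]
    exact ⟨fun h => h.2, fun h => ⟨hu, h⟩⟩
  have hcond : ∀ h, HtAdm F 0 h → (BspCond P Q1 h ↔ cond ⟨htB V h, htW V h, ∅⟩) := by
    intro h hh
    rw [hcondef]
    constructor
    · rintro ⟨h1, h2⟩
      refine ⟨fun u hu => ?_, fun u hu => ?_⟩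
      · rcases Finset.mem_union.1 hu with hu | hu
        · rw [hspB h u (hPV hu)]
          unfold momB
          rcases h1 u hu with e | e <;> rw [e] <;> simp
        · rw [hspB h u (hQV hu)]
          unfold momB
          rw [h2 u hu]; simp
      · rw [hspW h u (hQV hu), h2 u hu]; simp
    · rintro ⟨h1, h2⟩
      have hp := bsp_pair hA hh (fun u huF huA => by
        have huPQ : u ∈ P ∪ Q1 := by
          rcases (hmemF u).1 huF with h | h | h
          · exact absurd h huA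
          · exact Finset.mem_union_left _ h
          · exact Finset.mem_union_right _ h
        exact (hspB h u (hFV huF)).1 (h1 huPQ))
      refine ⟨fun u hu => hp u (Finset.disjoint_left.1 hPA hu), fun u hu => ?_⟩
      have a1 := hp u (Finset.disjoint_left.1 hQA hu)
      have a2 := (hspW h u (hQV hu)).1 (h2 hu)
      omega
  -- (F) numerator
  have ha : htE x F 0 (fun h => bspI (BspCond P Q1 h ∧
        (∀ r ∈ T, BdyLoX A (-2) (latBall c r : Set TV) ((latBall c ((κ + 2) * r) : Set TV)ᶜ) (fun u => h u + -1)))) ≤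
      htE x F 0 (fun h => (fun ω => clInd cond ω * clInd noC ω) ⟨htB V h, htW V h, ∅⟩) := by
    refine ht_E_mono hx0 F 0 fun h hh => ?_
    dsimp only
    by_cases h1 : BspCond P Q1 h ∧
        (∀ r ∈ T, BdyLoX A (-2) (latBall c r : Set TV) ((latBall c ((κ + 2) * r) : Set TV)ᶜ) (fun u => h u + -1))
    · rw [bsp_I_pos h1]
      have c1 := (hcond h hh).1 h1.1
      have c2 : noC ⟨htB V h, htW V h, ∅⟩ := by
        rw [hnoCdef]
        intro r hr hcirc
        obtain ⟨a, haO, b, hbZ, _, _, hab⟩ := h1.2 r hr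
        obtain ⟨hr1, _, hrR⟩ := hT r hr
        have e : (κ + 2) * r = κ * r + 2 * r := by ring
        have hp : ∀ u, u ∉ A → h u = 0 ∨ h u = 1 := by
          intro u hu
          by_cases huF : u ∈ F
          · rcases (hmemF u).1 huF with h | h | h
            · exact absurd h hu
            · exact h1.1.1 u h
            · exact Or.inl (h1.1.2 u h)
          · exact Or.inl (hh.1 u huF)
        have hsubV : latBall c (κ * r + 1) ⊆ V :=
          (plh_ball_mono c (by omega)).trans (hball.trans (hFdef ▸ hFV))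
        refine bsp_block hA hh hp hc hsubV hcirc (a := a) (b := b) (by exact_mod_cast haO) (fun hb => hbZ ?_)
          (tsc_R_mono ?_ hab)
        · exact_mod_cast plh_ball_mono c (by omega) hb
        · rintro u ⟨hu1, hu2⟩
          dsimp only at hu2
          exact ⟨hu1, by omega⟩
      rw [dis_ind_pos c1, dis_ind_pos c2, one_mul]
    · rw [bsp_I_neg h1]
      exact mul_nonneg (dis_ind_nonneg _ _) (dis_ind_nonneg _ _)
  -- denominator
  have hb : htE x F 0 (fun h => bspI (BspCond P Q1 h)) =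
      htE x F 0 (fun h => (fun ω => clInd cond ω * 1) ⟨htB V h, htW V h, ∅⟩) := by
    refine ht_E_congr x F 0 fun h hh => ?_
    dsimp only
    by_cases h1 : BspCond P Q1 h
    · rw [bsp_I_pos h1, dis_ind_pos ((hcond h hh).1 h1), one_mul]
    · rw [bsp_I_neg h1, dis_ind_neg (fun h' => h1 ((hcond h hh).2 h')), zero_mul]
  -- (C) lift
  have hpair1 : ClPair (fun ω : ClCfg TV TV => clInd cond ω * clInd noC ω) := by
    intro ω ω' e1 e2
    have a1 : cond ω ↔ cond ω' := by rw [hcondef]; simp only [e1, e2]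
    have a2 : noC ω ↔ noC ω' := by rw [hnoCdef]; simp only [e1]
    dsimp only
    rw [bsp_ind_congr a1, bsp_ind_congr a2]
  have hpair2 : ClPair (fun ω : ClCfg TV TV => clInd cond ω * 1) := by
    intro ω ω' e1 e2
    have a1 : cond ω ↔ cond ω' := by rw [hcondef]; simp only [e1, e2]
    dsimp only
    rw [bsp_ind_congr a1]
  rw [dis_lift x hx0 hx1 V F hVamb hcl hsk hne _ hpair1] at ha
  rw [dis_lift x hx0 hx1 V F hVamb hcl hsk hne _ hpair2] at hb
  -- (D) the constraint is the labelled history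
  have hKL : ∀ ω : ClCfg TV TV, (bspKL V A F Q1).Holds (clAmb x V) ω ↔ (V \ F ⊆ ω.B ∧ V \ F ⊆ ω.W) ∧ cond ω := by
    intro ω
    rw [bsp_KL_holds, hcondef]
    constructor
    · rintro ⟨h1, h2, h3⟩
      refine ⟨⟨fun u hu => h1 ?_, h2⟩, fun u hu => h1 ?_, h3⟩
      · rw [Finset.mem_sdiff] at hu ⊢
        exact ⟨hu.1, fun h => hu.2 ((hmemF u).2 (Or.inl h))⟩
      · rw [Finset.mem_sdiff]
        rcases Finset.mem_union.1 hu with h | h
        · exact ⟨hPV h, Finset.disjoint_left.1 hPA h⟩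
        · exact ⟨hQV h, Finset.disjoint_left.1 hQA h⟩
    · rintro ⟨⟨h1, h2⟩, h3, h4⟩
      refine ⟨fun u hu => ?_, h2, h4⟩
      rw [Finset.mem_sdiff] at hu
      by_cases huF : u ∈ F
      · rcases (hmemF u).1 huF with h | h | h
        · exact absurd h hu.2
        · exact h3 (Finset.mem_union_left _ h)
        · exact h3 (Finset.mem_union_right _ h)
      · exact h1 (Finset.mem_sdiff.2 ⟨hu.1, huF⟩)
  rw [dis_E_eq, bsp_N_and (clAmb x V) hKL] at ha hb
  -- (F) Sep gives a circuit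
  have hTV : ∀ r ∈ T, 1 ≤ r ∧ latBall c (κ * r + 2) ⊆ V ∧
      ClClear (clAmb x V) true (bspK V A F Q1) (latBall c (κ * r + 2) \ latBall c r) := by
    intro r hr
    obtain ⟨hr1, hQr, hrR⟩ := hT r hr
    have e : (κ + 2) * r = κ * r + 2 * r := by ring
    have hsubF : latBall c (κ * r + 2) ⊆ F := (plh_ball_mono c (by omega)).trans (hFdef ▸ hball)
    refine ⟨hr1, hsubF.trans hFV, bsp_K_clear x V A F Q1 _ (Finset.sdiff_subset.trans hsubF) ?_⟩
    exact Finset.disjoint_left.2 fun u hu hu' => (Finset.mem_sdiff.1 hu).2 (hQr hu')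
  have hN1 : (clAmb x V).N ((bspKL V A F Q1).Holds (clAmb x V)) (clInd noC) ≤
      (clAmb x V).N ((bspK V A F Q1).Holds (clAmb x V)) (clInd fun ω => ∀ r ∈ T,
        ¬ ClSep (clAmb x V) true (bspK V A F Q1).Eq ω (V \ latBall c (κ * r)) (latBall c r)) := by
    refine dsh_N_mono (clAmb x V) hOk (bsp_K_of_KL x V A F Q1) (fun ω _ => dis_ind_mono ?_) (fun ω => dis_ind_nonneg _ ω)
    rw [hnoCdef]
    intro h r hr hs
    obtain ⟨hr1, hsub, _⟩ := hTV r hr
    exact h r hr (dsh_conn x V _ ω c r (κ * r) ((plh_ball_mono c (by omega)).trans hsub)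
      (Nat.le_mul_of_pos_left r (by omega)) hs)
  -- (E) stack
  have hN2 := bsp_stack x hx0 hx1 κ V hVamb (H V hVamb) (bspK V A F Q1) (bsp_K_legal x V A F Q1 hQV) c T hTV hsep
  -- (D) labels
  have hN3 := dis_lbl (clAmb x V) hOk (bspK V A F Q1) (fun e he => bsp_Eq_V hQV he) [V \ F, Q1]
    (fun C hC => by
      simp only [List.mem_cons, List.not_mem_nil, or_false] at hC
      rcases hC with rfl | rfl
      · exact ⟨Finset.sdiff_subset, bsp_K_conn1 hsk⟩
      · exact ⟨hQV, bsp_K_conn2 hQc⟩) rfl (fun _ => 1) (fun _ => zero_le_one) (fun _ _ _ _ => rfl)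
  rw [← dis_Z_eq] at hN3
  change _ ≤ _ * (clAmb x V).N ((bspKL V A F Q1).Holds (clAmb x V)) (fun _ => 1) at hN3
  simp only [List.length_cons, List.length_nil] at hN3
  have hZl : 0 ≤ (clAmb x V).N ((bspKL V A F Q1).Holds (clAmb x V)) (fun _ => 1) :=
    dis_N_nonneg _ hOk _ (fun _ => zero_le_one)
  generalize (clAmb x V).N ((bspKL V A F Q1).Holds (clAmb x V)) (fun _ => 1) = Zl at *
  generalize (clAmb x V).N ((bspKL V A F Q1).Holds (clAmb x V)) (clInd noC) = Nl at *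
  generalize (clAmb x V).Z ((bspK V A F Q1).Holds (clAmb x V)) = Zk at *
  have hZ0 : 0 ≤ (clAmb x V).Z (fun ω => V \ F ⊆ ω.B ∧ V \ F ⊆ ω.W) := dis_Z_nonneg _ hOk _
  generalize (clAmb x V).Z (fun ω => V \ F ⊆ ω.B ∧ V \ F ⊆ ω.W) = Z0 at *
  have ht0 : (0 : ℝ) ≤ (1 - 1 / 2) ^ T.card := by positivity
  generalize ((1 : ℝ) - 1 / 2) ^ T.card = t at *
  have hNl : Nl ≤ 4 * t * Zl := by
    have h1 := mul_le_mul_of_nonneg_left hN3 ht0
    have h2 := hN1.trans hN2
    norm_num at h1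
    linarith
  rw [hb]
  rcases (div_nonneg (a := Zl) (b := Z0) hZl hZ0).eq_or_lt with h0 | h0
  · rw [← h0, div_zero]; positivity
  · rw [div_le_iff₀ h0]
    refine ha.trans ?_
    rw [← mul_div_assoc]
    exact div_le_div_of_nonneg_right hNl hZ0

/-- **(X1)** separators in the strips: the slots fail independently up to the cost of two labels. -/
theorem bsp_main (x : ℝ) (hx1 : 1 / Real.sqrt 2 ≤ x) (hx2 : x ≤ 1) :
    ∃ (C a1 : ℝ) (κ L ρ0 : ℕ), 0 < C ∧ 0 < a1 ∧ a1 ≤ 1 ∧ ∀ (A P Q1 : Finset TV) (c : TV) (R : ℕ) (T : Finset ℕ),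
      MomCo A → MomCo (A ∪ P ∪ Q1) → TscConn tscG (Q1 : Set TV) → Disjoint P A → Disjoint Q1 A → Disjoint P Q1 →
      latBall c R ⊆ A ∪ P ∪ Q1 → c ∉ A →
      (∀ r ∈ T, ρ0 ≤ r ∧ Q1 ⊆ latBall c r ∧ κ * r ≤ R) → (∀ r ∈ T, ∀ r' ∈ T, r < r' → L * r ≤ r') →
      bdySynP x A P
        (fun h => ∀ r ∈ T, BdyLoX A (-2) (latBall c r : Set TV) ((latBall c (κ * r) : Set TV)ᶜ) h) ≤ C * (1 - a1) ^ T.card := by
  have hx0 : 0 < x := lt_of_lt_of_le (by positivity) hx1
  obtain ⟨κ, hκ, H⟩ := bsp_slot x hx0 hx2 (exit_t23 x hx1 hx2)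
  exact ⟨4, 1 / 2, κ + 2, κ + 3, 1, by norm_num, by norm_num, by norm_num,
    fun A P Q1 c R T hA hF hQc hPA hQA hPQ hball hc hT hsep =>
      bsp_core x hx0 hx2 κ hκ H A P Q1 c R T hA hF hQc hPA hQA hPQ hball hc hT hsep⟩

/-- the equation lemmas of the definitions of this file are generated HERE (RULES.md, rule 6) -/
theorem bsp_eqns_cite : True := by
  have := @BspCond.eq_1
  have := @bspI.eq_1
  have := @bspK.eq_1
  have := @bspKL.eq_1
  have := @bspR.eq_1
  trivial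

end Claimed.Agent.R291
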