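import Claimed.Agent.R291.Defs.BdyCell
import Claimed.Agent.R291.Bdy.Syn
import Claimed.Agent.R291.Dis.Amb

/-!
# Row 291 (S0539), Bdy/SynBr : DICTIONARY  SYNTHETIC LAW  <->  CELL LAW      (typed by helper128; OWNER of the proofs helper89; prefix `bsb_`)
TEX[lem:synthetic-trace] (06-boundary.tex), TEX[lem:spin-lift] (02-discrete.tex).      CONSUMER: Bdy/SynCell.lean (`exit_bdy_patch`), possibly Bdy/Strip*.lean (50).

`A' := A ∪ P`, `V := dshV A'` (hexagon `⊇ latCl A'`), `S := clAmb x V`, `KL := bscKL V A A'` (`B = +` on `V \ A`, `W = +` on `V \ A'`), `H ω := dlfH A' V 0 ω`, `bscH A' V ω = H ω - 1`.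
ROUTE of `bsb_bridge`: `bdySynE = htEc x A' (-1) (BdyPk P)`; shift the heights by `+1` (`hto_shift` / `ht_E_shift`); `dlf_lift` for the numerator and the denominator (SAME normalisation `S.Z (DlfPin A' V 0) > 0`, it cancels);
the indicator of `BdyPk P (bscH ω)` goes into the constraint; `bsb_ev` + `dam_N_congr`.
-/

set_option autoImplicit false
set_option linter.unusedVariables false
set_option linter.unusedSectionVars false

namespace Claimed.Agent.R291

open Claims Claims.C0467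

/-- a height with flat trace is 1-Lipschitz along EVERY edge -/
theorem bsb_lip {A' : Finset TV} {h : TV → ℤ} (hh : HtAdm A' 0 h) {u v : TV} (huv : triAdj u v) : |h v - h u| ≤ 1 := by
  by_cases hA : u ∈ A' ∨ v ∈ A'
  · exact dlf_adm_edge hh huv hA
  · rw [not_or] at hA
    rw [hh.1 _ hA.1, hh.1 _ hA.2]
    simp

/-- PROPAGATION of the pair `{0,1}` along the connected set `Aᶜ` (which contains a site off `A'`, where `h = 0`) -/
theorem bsb_pair {A A' : Finset TV} (hA : MomCo A) (hsub : A ⊆ A') {h : TV → ℤ} (hh : HtAdm A' 0 h)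
    (hB : ∀ u, u ∉ A → h u % 4 = 0 ∨ h u % 4 = 1) : ∀ u, u ∉ A → h u = 0 ∨ h u = 1 := by
  obtain ⟨u0, hu0⟩ := Infinite.exists_notMem_finset A'
  have hu0A : u0 ∉ A := fun h => hu0 (hsub h)
  have key : ∀ v, TscR tscG ((A : Set TV)ᶜ) u0 v → (h v = 0 ∨ h v = 1) := by
    intro v hv
    induction hv with
    | refl => left; simpa using hh.1 u0 hu0
    | @tail b c _ hbc ih =>
      have h1 := bsb_lip hh hbc.1
      have h2 := hB c hbc.2.2
      rw [abs_le] at h1
      omega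
  exact fun u hu => key u (hA u0 hu0A u hu)

/-- the labelled history, unfolded -/
theorem bsb_KL_holds (x : ℝ) (V A A' : Finset TV) (ω : ClCfg TV TV) :
    (bscKL V A A').Holds (clAmb x V) ω ↔ (V \ A ⊆ ω.B ∧ V \ A' ⊆ ω.W) := by
  unfold ClCon.Holds bscKL bscK
  simp only [Finset.notMem_empty, false_imp_iff, implies_true, true_and, and_true, Finset.empty_union]
  constructor
  · rintro ⟨h1, -, h3⟩; exact ⟨h1, h3⟩
  · rintro ⟨h1, h3⟩
    refine ⟨h1, fun e he => ?_, h3⟩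
    rw [Finset.mem_filter, Finset.mem_product] at he
    exact ⟨fun _ => h3 he.1.2, fun _ => h3 he.1.1⟩

/-- geometry of the lift -/
theorem bsb_geo {A' : Finset TV} (hA' : MomCo A') : DlfGeo A' (dshV A') Set.univ 0 :=
  dlf_geo_plane (dsh_cl_sub A') hA' (fun _ _ _ _ _ => by simp)

/-- SUPPORT of the labelled law: the height function is admissible, its Gray code is the configuration, it takes the values `0, 1` off `A` -/
theorem bsb_spec (x : ℝ) {A P : Finset TV} (hA : MomCo A) (hAP : MomCo (A ∪ P)) {ω : ClCfg TV TV}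
    (hω : ω ∈ (clAmb x (dshV (A ∪ P))).cfgs) (hwt : (clAmb x (dshV (A ∪ P))).wt ω ≠ 0)
    (hK : (bscKL (dshV (A ∪ P)) A (A ∪ P)).Holds (clAmb x (dshV (A ∪ P))) ω) :
    HtAdm (A ∪ P) 0 (dlfH (A ∪ P) (dshV (A ∪ P)) 0 ω) ∧ htB (dshV (A ∪ P)) (dlfH (A ∪ P) (dshV (A ∪ P)) 0 ω) = ω.B ∧
      htW (dshV (A ∪ P)) (dlfH (A ∪ P) (dshV (A ∪ P)) 0 ω) = ω.W ∧
      ∀ u, u ∉ A → dlfH (A ∪ P) (dshV (A ∪ P)) 0 ω u = 0 ∨ dlfH (A ∪ P) (dshV (A ∪ P)) 0 ω u = 1 := by
  rw [bsb_KL_holds] at hK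
  have hpin : DlfPin (A ∪ P) (dshV (A ∪ P)) 0 ω := by
    rw [dlf_pin_zero]
    exact ⟨fun v hv => hK.1 (Finset.sdiff_subset_sdiff subset_rfl Finset.subset_union_left hv), hK.2⟩
  obtain ⟨h1, h2, h3⟩ := dlf_H_spec (bsb_geo hAP) (dlf_E_sub_amb (dsh_cl_sub (A ∪ P))) hω hwt hpin
  refine ⟨h1, h2, h3, bsb_pair hA Finset.subset_union_left h1 fun u hu => ?_⟩
  by_cases huV : u ∈ dshV (A ∪ P)
  · have : u ∈ htB (dshV (A ∪ P)) (dlfH (A ∪ P) (dshV (A ∪ P)) 0 ω) := by
      rw [h2]; exact hK.1 (Finset.mem_sdiff.2 ⟨huV, hu⟩)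
    exact (dlf_mem_htB.1 this).2
  · left
    rw [h1.1 u fun h => huV (dsh_F_sub _ h)]
    rfl

/-- the two descriptions of the conditioning coincide on the support -/
theorem bsb_ev (x : ℝ) {A P : Finset TV} (hA : MomCo A) (hAP : MomCo (A ∪ P)) (hd : Disjoint P A) {ω : ClCfg TV TV}
    (hω : ω ∈ (clAmb x (dshV (A ∪ P))).cfgs) (hwt : (clAmb x (dshV (A ∪ P))).wt ω ≠ 0) :
    (bscKL (dshV (A ∪ P)) A (A ∪ P)).Holds (clAmb x (dshV (A ∪ P))) ω ↔
      (DlfPin (A ∪ P) (dshV (A ∪ P)) 0 ω ∧ BdyPk P (bscH (A ∪ P) (dshV (A ∪ P)) ω)) := by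
  constructor
  · intro hK
    obtain ⟨-, -, -, h4⟩ := bsb_spec x hA hAP hω hwt hK
    rw [bsb_KL_holds] at hK
    refine ⟨?_, fun u hu => ?_⟩
    · rw [dlf_pin_zero]
      exact ⟨fun v hv => hK.1 (Finset.sdiff_subset_sdiff subset_rfl Finset.subset_union_left hv), hK.2⟩
    · have := h4 u (Finset.disjoint_left.1 hd hu)
      unfold bscH
      omega
  · rintro ⟨hpin, hpk⟩
    obtain ⟨h1, h2, h3⟩ := dlf_H_spec (bsb_geo hAP) (dlf_E_sub_amb (dsh_cl_sub (A ∪ P))) hω hwt hpin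
    rw [dlf_pin_zero] at hpin
    rw [bsb_KL_holds]
    refine ⟨fun u hu => ?_, hpin.2⟩
    rw [Finset.mem_sdiff] at hu
    by_cases huA : u ∈ A ∪ P
    · have huP : u ∈ P := (Finset.mem_union.1 huA).resolve_left hu.2
      have := hpk u huP
      unfold bscH at this
      rw [← h2, dlf_mem_htB]
      refine ⟨hu.1, ?_⟩
      unfold dlfB
      omega
    · exact hpin.1 (Finset.mem_sdiff.2 ⟨hu.1, huA⟩)

/-- **(BRIDGE)** the synthetic law is the image of the labelled cell law under `bscH` -/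
theorem bsb_bridge {x : ℝ} (hx0 : 0 < x) {A P : Finset TV} (hA : MomCo A) (hAP : MomCo (A ∪ P)) (hd : Disjoint P A)
    (G : (TV → ℤ) → ℝ) :
    bdySynE x A P G = (clAmb x (dshV (A ∪ P))).E ((bscKL (dshV (A ∪ P)) A (A ∪ P)).Holds (clAmb x (dshV (A ∪ P))))
      (fun ω => G (bscH (A ∪ P) (dshV (A ∪ P)) ω)) := by
  classical
  set A' := A ∪ P with hA'
  set V := dshV A' with hV
  set S := clAmb x V with hS
  have hg := bsb_geo hAP
  have hZ : 0 < S.Z (DlfPin A' V 0) := by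
    have := dlf_Z x hg (dlf_E_sub_amb (dsh_cl_sub A'))
    rw [hS]
    unfold clAmb
    rw [this]
    exact mul_pos (pow_pos hx0 _) (ht_Z_pos_zero hx0 A')
  have hsh : ∀ F : (TV → ℤ) → ℝ, htE x A' (fun _ => -1) F = S.N (DlfPin A' V 0) (fun ω => F (bscH A' V ω)) / S.Z (DlfPin A' V 0) := by
    intro F
    have e1 := ht_E_shift x A' 0 (-1) F
    have e0 : (fun u => (0 : TV → ℤ) u + -1) = fun _ : TV => (-1 : ℤ) := by funext u; simp
    rw [e0] at e1
    rw [e1, dlf_lift hx0 hg, dis_E_eq]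
    rfl
  have hN : ∀ F : (TV → ℤ) → ℝ, S.N (DlfPin A' V 0) (fun ω => if BdyPk P (bscH A' V ω) then F (bscH A' V ω) else 0)
      = S.N ((bscKL V A A').Holds S) (fun ω => F (bscH A' V ω)) := by
    intro F
    unfold ClSys.N
    refine Finset.sum_congr rfl fun ω hω => ?_
    beta_reduce
    by_cases hw : S.wt ω = 0
    · simp [hw]
    · have := bsb_ev x hA hAP hd hω hw
      by_cases hK : (bscKL V A A').Holds S ω
      · obtain ⟨h1, h2⟩ := this.1 hK
        have h1' : DlfPin A' V 0 ω := h1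
        have h2' : BdyPk P (bscH A' V ω) := h2
        rw [if_pos hK, if_pos h1', if_pos h2']
      · rw [if_neg hK]
        by_cases h1 : DlfPin A' V 0 ω
        · have h2 : ¬ BdyPk P (bscH A' V ω) := fun h2 => hK (this.2 ⟨h1, h2⟩)
          rw [if_pos h1, if_neg h2, mul_zero]
        · rw [if_neg h1]
  unfold bdySynE htEc htP
  rw [hsh, hsh, hN G, hN (fun _ => 1), dis_E_eq, dis_Z_eq S ((bscKL V A A').Holds S), div_div_div_cancel_right₀ hZ.ne']

end Claimed.Agent.R291
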